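import Vale.Agent.P318B.Tl26

/-!
# P318B / Prog22 : the list of rounds is computed in polynomial time
-/

set_option linter.all false

namespace Vale.Agent.P318B.Pg

open Vale.Agent.Lib.PolyTime hiding C P
open Vale.Agent.Lib.PCP Vale.Agent.Lib.Dep Vale.Agent.P318B.Tl

variable {α : Type} [Enc α] {β : α → Type} [∀ a, Enc (β a)]

@[fun_prop]
theorem dpt_vecEmpty : DPT fun a => (Matrix.vecEmpty : Fin 0 → β a) :=
  (DPT.nil (β := β)).of_enc fun _ => rfl

@[fun_prop]
theorem dpt_vecCons {m : ℕ} {x : ∀ a, β a} {v : ∀ a, Fin m → β a} (hx : DPT x) (hv : DPT v) :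
    DPT fun a => Matrix.vecCons (x a) (v a) :=
  (DPT.cons hx (dpt_ofFn hv)).of_enc fun a => by rw [enc_vec, List.ofFn_succ]; rfl

variable {E : ℕ} {pp : α → ℕ} {dat : ∀ a, Dat (pp a) E}

theorem comp {κ : Type} [Enc κ] {c : κ → α} (h : PTDat pp dat) (hc : DPT c) :
    PTDat (fun x => pp (c x)) fun x => dat (c x) where
  p := h.p.comp hc
  bd := pbd_comp (b := fun a => 2 ^ pp a) h.bd hc
  th := DPT.comp (f := fun q : Σ x, V (pp (c x)) => (⟨c q.1, q.2⟩ : Σ a, V (pp a))) h.th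
    (DPT.smk (hc.comp DPT.id.sfst) DPT.ssnd)
  r := h.r.comp hc
  T := DPT.comp (f := fun q : Σ x, Fin (pp (c x)) => (⟨c q.1, q.2⟩ : Σ a, Fin (pp a))) h.T
    (DPT.smk (hc.comp DPT.id.sfst) DPT.ssnd)
  f := DPT.comp (f := fun q : Σ x, ℕ × V (pp (c x)) => (⟨c q.1, q.2⟩ : Σ a, ℕ × V (pp a))) h.f
    (DPT.smk (hc.comp DPT.id.sfst) DPT.ssnd)
  A := DPT.comp (f := fun q : Σ x, ℕ × V (pp (c x)) => (⟨c q.1, q.2⟩ : Σ a, ℕ × V (pp a))) h.A
    (DPT.smk (hc.comp DPT.id.sfst) DPT.ssnd)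

theorem dpt_f (h : PTDat pp dat) {i : α → ℕ} {x : ∀ a, V (pp a)} (hi : DPT i) (hx : DPT x) :
    DPT fun a => (dat a).f (i a) (x a) := DPT.app2 (F := fun a i x => (dat a).f i x) h.f hi hx

theorem dpt_A (h : PTDat pp dat) {i : α → ℕ} {x : ∀ a, V (pp a)} (hi : DPT i) (hx : DPT x) :
    DPT fun a => (dat a).A (i a) (x a) := DPT.app2 (F := fun a i x => (dat a).A i x) h.A hi hx

theorem dpt_fac (h : PTDat pp dat) {l : α → Lit} {x : ∀ a, V (pp a)} (hl : DPT l) (hx : DPT x)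
    (y : ZMod 2) : DPT fun a => fac (dat a) (l a) (x a) y :=
  DPT.mul (by fun_prop) (dpt_A h hl.fst hx) (DPT.add (by fun_prop) (DPT.const y)
    (DPT.mul (by fun_prop) (DPT.ite (dpr_true hl.snd) (DPT.const _) (DPT.const _))
      (dpt_f h hl.fst hx)))

theorem dpt_Rf (h : PTDat pp dat) {cl : α → CNF} {z : ∀ a, G (pp a)} (hc : DPT cl) (hz : DPT z)
    (y1 y2 y3 : ZMod 2) : DPT fun a => Rf (dat a) (cl a) (z a) y1 y2 y3 := by
  refine DPT.sum_range (S := fun _ => ZMod 2) (by fun_prop) hc.length (pbd_length hc) ?_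
  have h' := comp (c := fun q : Σ a, {x // x ∈ List.range (cl a).length} => q.1) h DPT.id.sfst
  have hz' := hz.comp (f := fun q : Σ a, {x // x ∈ List.range (cl a).length} => q.1) DPT.id.sfst
  have hg : DPT fun q : Σ a, {x // x ∈ List.range (cl a).length} =>
      (cl q.1).getD q.2.1 default := by fun_prop
  exact DPT.mul (by fun_prop) (dpt_f h' DPT.ssnd.val (dpt_at hz' 0)) (DPT.mul (by fun_prop)
    (DPT.mul (by fun_prop) (dpt_fac h' hg.fst (dpt_at hz' 1) y1)
      (dpt_fac h' hg.snd.fst (dpt_at hz' 2) y2)) (dpt_fac h' hg.snd.snd (dpt_at hz' 3) y3))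

theorem dpt_cnd (h : PTDat pp dat) {cl : α → CNF} {z : ∀ a, G (pp a)} (hc : DPT cl) (hz : DPT z)
    (t : Fin 5) (δ : Fin 10 → ZMod 2) : DPT fun a => cnd (dat a) (cl a) (z a) t δ :=
  DPT.ite (DPr.const _) (DPT.add (S := fun _ => ZMod 2) (by fun_prop) (DPT.const _)
    (dpt_Rf h hc hz _ _ _)) (DPT.const _)

theorem dpt_ux (h : PTDat pp dat) {e : ∀ a, Fin E × Fin (pp a)} {j : α → Fin 9} {k : α → Fin 3}
    (he : DPT e) (hj : DPT j) (hk : DPT k) : DPT fun a => ux (dat a) (e a) (j a) (k a) := by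
  have hb := pbd_of_two_pow h.bd
  exact dpt_single (n := fun _ => 6) (DPT.const 6) (PBd.const 6) (PTV.v h.p hb) (DPT.const _)
    (dpt_app (n := fun _ => 6) (dpt_dir h.p hb h.th h.r he.fst (dpt_finVal he.snd) (pbd_fin hb) hj)
      (dpt_finMk (DPT.natAdd (dpt_finVal hk) (DPT.const 1))))

theorem dpt_pt (h : PTDat pp dat) {o : ∀ a, J (pp a) E} (ho : DPT o) (t : Fin 5) :
    DPT fun a => pt (dat a) (o a) t := by
  have hp := h.p
  have hb := pbd_of_two_pow h.bd
  have hU := dpt_ux h ho.snd.fst ho.snd.snd.snd.snd.snd.fst ho.snd.snd.snd.snd.snd.snd.snd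
  have hU' := dpt_ux h ho.snd.fst ho.snd.snd.snd.snd.snd.snd.fst ho.snd.snd.snd.snd.snd.snd.snd
  have hy := dpt_thG (th := fun a => (dat a).th) h.th ho.fst
  have h1 := dpt_res (T := fun a => (dat a).T) hp hb h.T true ho.snd.snd.fst
  have h2 := dpt_res (T := fun a => (dat a).T) hp hb h.T false ho.snd.snd.fst
  unfold pt
  dsimp only
  refine dpt_at (β := fun a => Fin 10 → G (pp a) × G (pp a)) ?_ t
  fun_prop

theorem dpt_rd (h : PTDat pp dat) {cl : α → CNF} {o : ∀ a, J (pp a) E} (hc : DPT cl) (ho : DPT o) :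
    DPT fun a => (rd (dat a) (cl a) (o a)).map raw := by
  have hb := pbd_of_two_pow h.bd
  have hg := PTV.g h.p hb
  refine DPT.pair (dpt_funMk fun k => dpt_funMk fun c => DPT.ofPT (DPT.rawPT ?_))
    (dpt_funMk fun t => dpt_funMk fun x => DPT.decide (DPr.eq ?_ (DPT.const _)))
  · cases k with
    | none => exact dpt_add hg ho.fst (dpt_uu h.p hb h.th h.r ho.snd.fst (DPT.const c))
    | some t =>
      have hq := dpt_at (dpt_pt h ho t) (prj c).1
      exact DPT.cond (DPT.const _) (dpt_add hg hq.fst hq.snd) hq.fst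
  · exact dpt_cnd h hc ho.fst t _

@[fun_prop]
theorem dpt_idxOf {l : α → List ℕ} {x : α → ℕ} (hl : DPT l) (hx : DPT x) :
    DPT fun a => (l a).idxOf (x a) := DPT.ofPT (PT.idxOf hl.toPT hx.toPT)

@[fun_prop]
theorem dpt_vars {c : α → CNF} (hc : DPT c) : DPT fun a => vars (c a) := by
  unfold vars
  fun_prop

theorem dpt_ren {c : α → CNF} (hc : DPT c) : DPT fun a => ren (c a) := by
  unfold ren
  fun_prop

/-- all random choices -/
def enum (p E : ℕ) : List (J p E) :=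
  allG 6 p ×ˢ (List.finRange E ×ˢ List.finRange p) ×ˢ allV p ×ˢ allV p ×ˢ allG 6 p ×ˢ
    List.finRange 9 ×ˢ List.finRange 9 ×ˢ List.finRange 3

theorem nodup_enum (p E : ℕ) : (enum p E).Nodup :=
  (nodup_allG _ _).product (((List.nodup_finRange _).product (List.nodup_finRange _)).product
    ((nodup_allV _).product ((nodup_allV _).product ((nodup_allG _ _).product
      ((List.nodup_finRange _).product ((List.nodup_finRange _).product (List.nodup_finRange _)))))))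

theorem mem_enum {p E : ℕ} (o : J p E) : o ∈ enum p E := by
  obtain ⟨z, ⟨e, i⟩, a, a', s, j, j', k⟩ := o
  simp only [enum, List.mem_product, List.mem_finRange, mem_allG, mem_allV, and_self]

theorem dpt_enum (h : PTDat pp dat) : DPT fun a => enum (pp a) E :=
  dpt_product (dpt_allG 6 h.p h.bd) (dpt_product (dpt_product (DPT.const _)
    (dpt_finRange h.p (pbd_of_two_pow h.bd))) (dpt_product (dpt_allV h.p h.bd)
      (dpt_product (dpt_allV h.p h.bd) (dpt_product (dpt_allG 6 h.p h.bd) (DPT.const _)))))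

/-- the block `ProgS` -/
theorem progS : ProgS := fun E pp dat h =>
  ⟨fun a => enum (pp a) E, fun a => ⟨nodup_enum _ _, mem_enum⟩,
    (DPT.map (dpt_enum h) (dpt_rd (comp h DPT.id.sfst) (dpt_ren DPT.id.sfst) DPT.ssnd.val)).toPT⟩

end Vale.Agent.P318B.Pg
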