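import Vale.Agent.P318B.Tl26

/-!
# P318B / Seed : the search for the companion map and the seeds
-/

namespace Vale.Agent.P318B

open Finset Vale.Agent.Lib.Dep Tl
open Vale.Agent.Lib.PolyTime hiding C P
open scoped BigOperators

namespace Se

variable {p E : ℕ}

/-- the linear functional given by a position -/
def dotL (a : G p) : G p →ₗ[ZMod 2] ZMod 2 where
  toFun z := ∑ k, ∑ i, a k i * z k i
  map_add' x y := by simp [mul_add, sum_add_distrib]
  map_smul' c x := by simp [mul_sum, mul_left_comm]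

theorem dotL_apply (a z : G p) : dotL a z = ∑ k, ∑ i, a k i * z k i := rfl

theorem dotL_single (a : G p) (k : Fin 6) (i : Fin p) :
    dotL a (Pi.single k (Pi.single i 1)) = a k i := by
  rw [dotL_apply, sum_eq_single k (fun k' _ h => by simp [Pi.single_eq_of_ne h]) (by simp),
    sum_eq_single i (fun i' _ h => by simp [Pi.single_eq_of_ne h]) (by simp)]
  simp

theorem dotL_ne {a : G p} (h : a ≠ 0) : dotL a ≠ 0 := fun h1 => h (funext fun k => funext fun i => by
  rw [← dotL_single a k i, h1]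
  rfl)

theorem exists_dotL (φ : G p →ₗ[ZMod 2] ZMod 2) : ∃ a, dotL a = φ := by
  refine ⟨fun k i => φ (Pi.single k (Pi.single i 1)), ?_⟩
  refine LinearMap.pi_ext' fun k => LinearMap.pi_ext' fun i => LinearMap.ext_ring ?_
  exact dotL_single (fun k i => φ (Pi.single k (Pi.single i 1))) k i

/-- the list of all indices -/
def allE (E p : ℕ) : List (Fin E × Fin p) := List.finRange E ×ˢ List.finRange p

theorem mem_allE (e : Fin E × Fin p) : e ∈ allE E p :=
  List.mem_product.2 ⟨List.mem_finRange _, List.mem_finRange _⟩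

theorem nodup_allE (E p : ℕ) : (allE E p).Nodup :=
  (List.nodup_finRange E).product (List.nodup_finRange p)

theorem expect_le_iff {L : ℕ} (hL : 0 < L) (hE : 0 < E) (hp : 0 < p)
    (g : Fin E × Fin p → ZMod 2) : 𝔼 e, Cd.sg (g e) ≤ 1 / (L : ℝ) ↔
      L * (2 * (allE E p).countP fun e => decide (g e = 0)) ≤ (L + 1) * (E * p) := by
  have h1 : ∑ e, Cd.sg (g e) =
      2 * (((allE E p).countP fun e => decide (g e = 0) : ℕ) : ℝ) - E * p := by
    have h2 : ∀ e, Cd.sg (g e) = 2 * (if decide (g e = 0) = true then (1 : ℝ) else 0) - 1 :=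
      fun e => by rcases Cd.bit (g e) with h | h <;> rw [h] <;> norm_num
    rw [Gd.countP_enum (nodup_allE E p) mem_allE, ← sum_boole]
    simp only [h2, sum_sub_distrib, ← mul_sum]
    simp
  have hL' : (0 : ℝ) < L := by exact_mod_cast hL
  have hn : (0 : ℝ) < E * p := by positivity
  rw [Fintype.expect_eq_sum_div_card, h1, Fintype.card_prod, Fintype.card_fin, Fintype.card_fin,
    Nat.cast_mul, div_le_div_iff₀ hn hL', ← @Nat.cast_le ℝ]
  push_cast
  constructor <;> intro h <;> linarith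

/-- the condition which is checked -/
def Chk (L : ℕ) (s : V p × (Fin E → Fin 9 → G p)) : Prop :=
  (∀ x, Bs.comp s.1 x = 0 → x = 0) ∧ ∀ c : W, c ≠ 0 → ∀ a : G p, a ≠ 0 →
    L * (2 * (allE E p).countP fun e => decide (dotL a (uu (Bs.comp s.1) s.2 e c) = 0))
      ≤ (L + 1) * (E * p)

theorem chk_iff {L : ℕ} (hL : 0 < L) (hE : 0 < E) (hp : 0 < p)
    (s : V p × (Fin E → Fin 9 → G p)) : Chk L s ↔ SeedOk (Bs.comp s.1) s.2 (1 / L) := by
  constructor
  · rintro ⟨h1, h2⟩
    refine ⟨(injective_iff_map_eq_zero _).2 h1, fun k hk => ?_, fun c hc φ hφ => ?_⟩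
    · exact (congrArg _ (bas_eq ⟨k, by omega⟩)).trans
        ((Bs.comp_single _ ⟨k, by omega⟩ hk).trans (bas_eq ⟨k + 1, hk⟩).symm)
    · obtain ⟨a, rfl⟩ := exists_dotL φ
      refine (expect_le_iff hL hE hp _).2 (h2 c hc a fun h => hφ ?_)
      rw [h]
      exact LinearMap.ext fun z => by simp [dotL_apply]
  · rintro ⟨h1, -, h2⟩
    exact ⟨(injective_iff_map_eq_zero _).1 h1, fun c hc a ha =>
      (expect_le_iff hL hE hp _).1 (h2 c hc _ (dotL_ne ha))⟩

theorem exists_comp_inj (hp : 0 < p) :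
    ∃ P : V p, Bs.Fld (Bs.comp P) p ∧ Function.Injective (Bs.comp P) := by
  rcases Nat.lt_or_ge 1 p with h | h
  · obtain ⟨P, hP⟩ := Bs.exists_comp hp
    refine ⟨P, hP, Finite.injective_iff_surjective.2 fun y => ?_⟩
    obtain ⟨x, hx⟩ := hP (Pi.single ⟨1, h⟩ 1) (by simp) y
    rw [sum_eq_single ⟨1, h⟩ (fun i _ hi => by rw [Pi.single_eq_of_ne hi, zero_smul]) (by simp)]
      at hx
    exact ⟨x, by simpa using hx⟩
  · obtain rfl : p = 1 := by omega
    have h1 : ∀ x, Bs.comp (fun _ : Fin 1 => 1) x = x := fun x => funext fun k => by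
      rw [Bs.comp_apply, Subsingleton.elim k 0]
      simp
    refine ⟨fun _ => 1, fun a ha y => ⟨y, ?_⟩, fun x y h => by rwa [h1, h1] at h⟩
    have h2 : a 0 = 1 := (Cd.bit _).resolve_left fun h3 => ha (funext fun k => by
      rw [Subsingleton.elim k 0, h3]
      rfl)
    simp [h2]

theorem uu_eq (th : V p →ₗ[ZMod 2] V p) (r : Fin E → Fin 9 → G p) (e : Fin E × Fin p) (c : W) :
    uu th r e c = ∑ j, c j • (Bs.diag (Fin 6) th ^ (e.2 : ℕ)) (r e.1 j) :=
  sum_congr rfl fun j _ => congrArg _ (funext fun k => by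
    rw [Bs.diag_pow_apply, Module.End.pow_apply]
    rfl)

theorem exists_chk {L : ℕ} (hL : 0 < L) (hE : 30 * L ^ 2 ≤ E) (hp : 0 < p) :
    ∃ s : V p × (Fin E → Fin 9 → G p), Chk L s := by
  obtain ⟨P, hP, hi⟩ := exists_comp_inj hp
  have hL' : (0 : ℝ) < L := by exact_mod_cast hL
  have hE' : (30 : ℝ) * L ^ 2 ≤ E := by exact_mod_cast hE
  have h2 : (1 : ℝ) ≤ p := by exact_mod_cast hp
  obtain ⟨r, hr⟩ := Bs.exists_seeds Cd.sg_zero Cd.sg_one (hP.pi (n := Fin 6)) (Fin 9) (Fin E)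
    (lam := 1 / L) (by positivity) (by
      rw [Fintype.card_fun, Fintype.card_fun, ZMod.card, Fintype.card_fin, Fintype.card_fin,
        Fintype.card_fin, Fintype.card_fin]
      push_cast
      rw [← pow_mul, ← pow_add]
      refine (Bs.two_pow_le_exp _).trans (Real.exp_le_exp.2 ?_)
      have h3 : (30 : ℝ) ≤ (1 / L) ^ 2 * E := by
        rw [div_pow, one_pow, div_mul_eq_mul_div, one_mul, le_div_iff₀ (by positivity)]
        exact hE'
      push_cast
      nlinarith [mul_le_mul_of_nonneg_right h3 (by linarith : (0 : ℝ) ≤ p)])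
  have hE0 : 0 < E := lt_of_lt_of_le (by positivity) hE
  refine ⟨(P, r), (chk_iff hL hE0 hp _).2 ⟨hi, fun k hk => ?_, fun c hc φ hφ => ?_⟩⟩
  · exact (congrArg _ (bas_eq ⟨k, by omega⟩)).trans
      ((Bs.comp_single _ ⟨k, by omega⟩ hk).trans (bas_eq ⟨k + 1, hk⟩).symm)
  · simp only [uu_eq]
    exact hr c hc φ hφ

/-- all candidates -/
def allS (E p : ℕ) : List (V p × (Fin E → Fin 9 → G p)) :=
  allV p ×ˢ allFn E (allFn 9 (allG 6 p) 0) 0

theorem mem_allS (s : V p × (Fin E → Fin 9 → G p)) : s ∈ allS E p :=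
  List.mem_product.2 ⟨mem_allV _, mem_allFn _ fun _ => mem_allFn _ fun _ => mem_allG _⟩

/-- the result of the search -/
noncomputable def seed (L E p : ℕ) : V p × (Fin E → Fin 9 → G p) := pick (allS E p) (Chk L) (0, 0)

section PT

variable {α : Type} [Enc α] {n : α → ℕ}

theorem dpt_dotL (hn : DPT n) (hb : PBd n) {a z : ∀ x, G (n x)} (ha : DPT a) (hz : DPT z) :
    DPT fun x => dotL (a x) (z x) :=
  dpt_sum_const PTV.f2 _ fun k => dpt_sum_fin PTV.f2 hn hb (DPT.mul (by fun_prop)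
    (dpt_app ((dpt_at ha k).comp DPT.id.sfst) DPT.ssnd)
    (dpt_app ((dpt_at hz k).comp DPT.id.sfst) DPT.ssnd))

theorem dpt_allE (E : ℕ) (hn : DPT n) (hb : PBd n) : DPT fun x => allE E (n x) :=
  dpt_product (DPT.const _) (dpt_finRange hn hb)

theorem dpr_chk (L E : ℕ) (hn : DPT n) (h2 : PBd fun x => 2 ^ n x)
    {s : ∀ x, V (n x) × (Fin E → Fin 9 → G (n x))} (hs : DPT s) : DPr fun x => Chk L (s x) := by
  have hb := pbd_of_two_pow h2
  refine DPr.and (dpr_forall (dpt_allV hn h2) (fun _ => mem_allV) (dpr_imp (DPr.eq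
    (dpt_comp (by fun_prop) (by fun_prop) (by fun_prop) (by fun_prop)) (by fun_prop))
      (by fun_prop))) (dpr_forall_const fun c => dpr_imp (DPr.const _)
        (dpr_forall (dpt_allG 6 hn h2) (fun _ => mem_allG) (dpr_imp (by fun_prop)
          (DPr.le ?_ (by fun_prop)))))
  refine DPT.natMul (DPT.const _) (DPT.natMul (DPT.const _) (dpt_countP
    (dpt_allE E (by fun_prop) (by fun_prop)) (DPT.decide (DPr.eq ?_ (DPT.const _)))))
  refine dpt_dotL (by fun_prop) (by fun_prop) (by fun_prop) (dpt_uu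
    (th := fun q : Σ a : (Σ a, G (n a)), {x // x ∈ allE E (n a.1)} => Bs.comp (s q.1.1).1)
    (by fun_prop) (by fun_prop) ?_ (by fun_prop) (by fun_prop) (DPT.const c))
  exact dpt_comp (by fun_prop) (by fun_prop) (by fun_prop) (by fun_prop)

theorem dpt_seed (L E : ℕ) (hn : DPT n) (h2 : PBd fun x => 2 ^ n x) :
    DPT fun x => seed L E (n x) := by
  have hb := pbd_of_two_pow h2
  refine dpt_pick (dpt_product (dpt_allV hn h2) (dpt_allFnc E (dpt_allFnc 9 (dpt_allG 6 hn h2)
    (by fun_prop)) (by fun_prop))) (dpr_chk L E (by fun_prop)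
      (pbd_comp (b := fun x => 2 ^ n x) h2 DPT.id.sfst) DPT.ssnd) (by fun_prop)

end PT

end Se

/-- **the block `SeedS`** -/
theorem seedS : SeedS := by
  intro L hL
  refine ⟨30 * L ^ 2, by positivity, fun p => Bs.comp (Se.seed L (30 * L ^ 2) p).1,
    fun p => (Se.seed L (30 * L ^ 2) p).2, fun p hp => (Se.chk_iff hL (by positivity) hp _).1
      (pick_spec _ ((Se.exists_chk hL le_rfl hp).imp fun s hs => ⟨Se.mem_allS s, hs⟩)),
    fun pp hn h2 => ?_⟩
  have hb := pbd_of_two_pow h2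
  have hs := Se.dpt_seed L (30 * L ^ 2) hn h2
  exact ⟨dpt_comp (by fun_prop) (by fun_prop) (hs.fst.comp DPT.id.sfst) DPT.ssnd, hs.snd⟩

end Vale.Agent.P318B
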