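import Mathlib.Algebra.Module.ZMod
import Mathlib.Algebra.Field.ZMod
import Mathlib.Algebra.CharP.Two
import Mathlib.Algebra.BigOperators.Pi
import Mathlib.Algebra.BigOperators.Group.Finset.Powerset
import Mathlib.Algebra.BigOperators.Ring.Finset
import Mathlib.Algebra.Order.Field.GeomSum
import Mathlib.Algebra.Order.BigOperators.Ring.Finset
import Mathlib.LinearAlgebra.FiniteDimensional.Lemmas
import Mathlib.LinearAlgebra.Dimension.Constructions
import Mathlib.Data.Nat.Choose.Sum
import Mathlib.Data.Real.Basic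
import Mathlib.Algebra.Order.Ring.Pow
import Mathlib.Tactic.Linarith
import Mathlib.Tactic.Positivity
import Mathlib.Tactic.FieldSimp
import Mathlib.Tactic.LinearCombination

/-!
# P318B: derivatives and degrees of functions with values in `F_2`, the dimension count,
and the dual families
-/

set_option linter.all false

namespace Vale.Agent.P318B.Dg

open Finset

/-- the field with two elements -/
abbrev F2 := ZMod 2

lemma two (x : F2) : x + x = 0 := CharTwo.add_self_eq_zero x

section calc_

variable {G H : Type*} [AddCommGroup G] [AddCommGroup H]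

/-- the derivative along `a` -/
def Dv (a : G) (F : G → F2) : G → F2 := fun z => F z + F (z + a)

/-- translation -/
def Tr (a : G) (F : G → F2) : G → F2 := fun z => F (z + a)

lemma Dv_apply (a : G) (F : G → F2) (z : G) : Dv a F z = F z + F (z + a) := rfl

lemma Dv_add (a : G) (F F' : G → F2) : Dv a (F + F') = Dv a F + Dv a F' := by
  funext z; simp only [Dv, Pi.add_apply]; ring

lemma Dv_zero (a : G) : Dv a (0 : G → F2) = 0 := by funext z; simp [Dv]

lemma Dv_const (a : G) (c : F2) : Dv a (fun _ : G => c) = 0 := by funext z; simp [Dv, two]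

lemma Dv_smul (a : G) (c : F2) (F : G → F2) : Dv a (c • F) = c • Dv a F := by
  funext z; simp only [Dv, Pi.smul_apply, smul_eq_mul]; ring

lemma Dv_at_zero (F : G → F2) : Dv 0 F = 0 := by funext z; simp [Dv, two]

lemma Dv_comm (a b : G) (F : G → F2) : Dv a (Dv b F) = Dv b (Dv a F) := by
  funext z; simp only [Dv, add_right_comm z a b]; ring

lemma Dv_Tr (a b : G) (F : G → F2) : Dv a (Tr b F) = Tr b (Dv a F) := by
  funext z; simp only [Dv, Tr, add_right_comm z a b]

lemma Dv_add_dir (a b : G) (F : G → F2) : Dv (a + b) F = Dv a F + Tr a (Dv b F) := by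
  funext z
  simp only [Dv, Tr, Pi.add_apply, add_assoc z a b]
  linear_combination (exp := 1) - two (F (z + a))

lemma Dv_mul (a : G) (F F' : G → F2) : Dv a (F * F') = Dv a F * F' + Tr a F * Dv a F' := by
  funext z
  simp only [Dv, Tr, Pi.add_apply, Pi.mul_apply]
  linear_combination (exp := 1) - two (F (z + a) * F' z)

lemma Dv_mul' (a : G) (F F' : G → F2) :
    Dv a (F * F') = Dv a F * F' + F * Dv a F' + Dv a F * Dv a F' := by
  funext z
  simp only [Dv, Pi.add_apply, Pi.mul_apply]
  linear_combination (exp := 1) - two (F (z + a) * F' z) - two (F z * F' (z + a)) - two (F z * F' z)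

lemma Dv_Dv {a : G} (ha : a + a = 0) (F : G → F2) : Dv a (Dv a F) = 0 := by
  funext z
  simp only [Dv, add_assoc z a a, ha, add_zero, Pi.zero_apply]
  linear_combination (exp := 1) two (F (z + a)) + two (F z)

lemma Dv_comp (π : G →+ H) (a : G) (f : H → F2) : Dv a (fun z => f (π z)) = fun z => Dv (π a) f (π z) := by
  funext z; simp only [Dv, map_add]

lemma Dv_sum {ι : Type*} (s : Finset ι) (a : G) (F : ι → G → F2) :
    Dv a (∑ i ∈ s, F i) = ∑ i ∈ s, Dv a (F i) := by
  funext z; simp only [Dv, Finset.sum_apply, sum_add_distrib]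

/-- `Dv` as a linear map -/
def DvL (a : G) : (G → F2) →ₗ[F2] G → F2 := ⟨⟨Dv a, Dv_add a⟩, Dv_smul a⟩

lemma DvL_apply (a : G) (F : G → F2) : DvL a F = Dv a F := rfl

/-- degree less than `n` along the directions in `U` -/
def Lo (U : Set G) : ℕ → (G → F2) → Prop
  | 0, F => F = 0
  | n + 1, F => ∀ u ∈ U, Lo U n (Dv u F)

variable {U U' : Set G} {m n : ℕ} {F F' : G → F2}

lemma lo_zero (U : Set G) : ∀ n, Lo U n (0 : G → F2)
  | 0 => rfl
  | n + 1 => fun u _ => by rw [Dv_zero]; exact lo_zero U n

lemma Lo.eq0 (h : Lo U 0 F) : F = 0 := h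

lemma lo_two : Lo U 2 F ↔ ∀ u ∈ U, ∀ u' ∈ U, Dv u' (Dv u F) = 0 := Iff.rfl

lemma lo_one : Lo U 1 F ↔ ∀ u ∈ U, Dv u F = 0 := Iff.rfl

lemma lo_const (U : Set G) (c : F2) : Lo U 1 (fun _ : G => c) := fun u _ => Dv_const u c

lemma Lo.add : ∀ {n : ℕ} {F F' : G → F2}, Lo U n F → Lo U n F' → Lo U n (F + F')
  | 0, _, _, h, h' => by rw [h.eq0, h'.eq0, add_zero]; rfl
  | n + 1, _, _, h, h' => fun u hu => by rw [Dv_add]; exact (h u hu).add (h' u hu)

lemma Lo.smul (c : F2) : ∀ {n : ℕ} {F : G → F2}, Lo U n F → Lo U n (c • F)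
  | 0, _, h => by rw [h.eq0, smul_zero]; rfl
  | n + 1, _, h => fun u hu => by rw [Dv_smul]; exact Lo.smul c (h u hu)

lemma Lo.tr (a : G) : ∀ {n : ℕ} {F : G → F2}, Lo U n F → Lo U n (Tr a F)
  | 0, _, h => by rw [h.eq0]; rfl
  | n + 1, _, h => fun u hu => by rw [Dv_Tr]; exact Lo.tr a (h u hu)

lemma Lo.dv (a : G) : ∀ {n : ℕ} {F : G → F2}, Lo U n F → Lo U n (Dv a F)
  | 0, _, h => by rw [h.eq0, Dv_zero]; rfl
  | n + 1, _, h => fun u hu => by rw [Dv_comm]; exact Lo.dv a (h u hu)

lemma Lo.succ : ∀ {n : ℕ} {F : G → F2}, Lo U n F → Lo U (n + 1) F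
  | _, _, h => fun u _ => h.dv u

lemma Lo.mono (h : Lo U m F) (e : m ≤ n) : Lo U n F := by
  induction e with
  | refl => exact h
  | step _ ih => exact ih.succ

lemma Lo.anti (e : U' ⊆ U) : ∀ {n : ℕ} {F : G → F2}, Lo U n F → Lo U' n F
  | 0, _, h => h
  | n + 1, _, h => fun u hu => Lo.anti e (h u (e hu))

lemma Lo.sum {ι : Type*} (s : Finset ι) {F : ι → G → F2} (h : ∀ i ∈ s, Lo U n (F i)) :
    Lo U n (∑ i ∈ s, F i) :=
  Finset.sum_induction F (Lo U n) (fun _ _ => Lo.add) (lo_zero U n) h

lemma Lo.sum' {ι : Type*} (s : Finset ι) {F : ι → G → F2} (h : ∀ i ∈ s, Lo U n (F i)) :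
    Lo U n (fun z => ∑ i ∈ s, F i z) := by
  have := Lo.sum s h
  rwa [show (∑ i ∈ s, F i) = fun z => ∑ i ∈ s, F i z from funext fun z => Finset.sum_apply _ _ _]
    at this

lemma lo_mul_aux : ∀ (k m n : ℕ) {F F' : G → F2}, m + n = k → Lo U m F → Lo U n F' →
    Lo U (k - 1) (F * F')
  | _, 0, _, _, _, _, h, _ => by rw [h.eq0, zero_mul]; exact lo_zero _ _
  | _, _ + 1, 0, _, _, _, _, h => by rw [h.eq0, mul_zero]; exact lo_zero _ _
  | 0, _ + 1, _ + 1, _, _, e, _, _ => by omega
  | 1, _ + 1, _ + 1, _, _, e, _, _ => by omega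
  | k + 2, m + 1, n + 1, F, F', e, h, h' => fun u hu => by
    rw [Dv_mul]
    exact (lo_mul_aux (k + 1) m (n + 1) (by omega) (h u hu) h').add
      (lo_mul_aux (k + 1) (m + 1) n (by omega) (Lo.tr u h) (h' u hu))

/-- degrees add -/
lemma Lo.mul (h : Lo U (m + 1) F) (h' : Lo U (n + 1) F') : Lo U (m + n + 1) (F * F') :=
  lo_mul_aux (m + n + 2) (m + 1) (n + 1) (by omega) h h'

lemma Lo.mul' (h : Lo U m F) (h' : Lo U n F') : Lo U (m + n - 1) (F * F') :=
  lo_mul_aux _ m n rfl h h'

lemma Lo.comp (π : G →+ H) {W : Set H} (e : ∀ u ∈ U, π u ∈ W) :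
    ∀ {n : ℕ} {f : H → F2}, Lo W n f → Lo U n fun z => f (π z)
  | 0, _, h => by rw [h.eq0]; rfl
  | n + 1, _, h => fun u hu => by rw [Dv_comp]; exact Lo.comp π e (h _ (e u hu))

/-- additive functions have degree one -/
lemma lo_hom (U : Set G) (φ : G →+ F2) : Lo U 2 φ := fun u _ => by
  rw [show Dv u φ = fun _ => φ u from funext fun z => by
    rw [Dv_apply, map_add, ← add_assoc, two, zero_add]]
  exact lo_const U _

lemma Lo.closure : ∀ {n : ℕ} {F : G → F2}, Lo U n F → Lo (AddSubmonoid.closure U) n F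
  | 0, _, h => h
  | n + 1, F, h => fun u hu => Lo.closure (by
    induction hu using AddSubmonoid.closure_induction with
    | mem x hx => exact h x hx
    | zero => rw [Dv_at_zero]; exact lo_zero _ _
    | add x y _ _ hx hy => rw [Dv_add_dir]; exact hx.add (hy.tr x))

/-- the functions of degree less than `n` -/
def LoS (U : Set G) (n : ℕ) : Submodule F2 (G → F2) where
  carrier := {F | Lo U n F}
  add_mem' := Lo.add
  zero_mem' := lo_zero U n
  smul_mem' c _ := Lo.smul c

/-! ## iterated derivatives -/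

variable {ι : Type*} [DecidableEq ι] (b : ι → G)

/-- the derivative along all `b k`, `k ∈ T`: the sum over the cube -/
def DT (T : Finset ι) (F : G → F2) : G → F2 := fun z => ∑ S ∈ T.powerset, F (z + ∑ k ∈ S, b k)

lemma DT_empty (F : G → F2) : DT b ∅ F = F := by funext z; simp [DT]

lemma DT_insert {T : Finset ι} {k : ι} (hk : k ∉ T) (F : G → F2) :
    DT b (insert k T) F = Dv (b k) (DT b T F) := by
  funext z
  simp only [DT, Dv]
  rw [sum_powerset_insert hk]
  congr 1
  refine sum_congr rfl fun S hS => ?_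
  rw [sum_insert fun h => hk (mem_powerset.1 hS h), add_assoc]

lemma DT_Dv (T : Finset ι) (a : G) (F : G → F2) : DT b T (Dv a F) = Dv a (DT b T F) := by
  funext z
  simp only [DT, Dv, sum_add_distrib, add_right_comm z a]

lemma DT_Tr (T : Finset ι) (a : G) (F : G → F2) : DT b T (Tr a F) = Tr a (DT b T F) := by
  funext z
  simp only [DT, Tr, add_right_comm z a]

lemma DT_add (T : Finset ι) (F F' : G → F2) : DT b T (F + F') = DT b T F + DT b T F' := by
  funext z; simp only [DT, Pi.add_apply, sum_add_distrib]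

lemma DT_smul (T : Finset ι) (c : F2) (F : G → F2) : DT b T (c • F) = c • DT b T F := by
  funext z; simp only [DT, Pi.smul_apply, smul_eq_mul, mul_sum]

lemma DT_zero (T : Finset ι) : DT b T (0 : G → F2) = 0 := by funext z; simp [DT]

lemma DT_sum {κ : Type*} (T : Finset ι) (s : Finset κ) (F : κ → G → F2) :
    DT b T (∑ i ∈ s, F i) = ∑ i ∈ s, DT b T (F i) := by
  funext z
  simp only [DT, Finset.sum_apply]
  exact sum_comm

lemma DT_comp (π : G →+ H) (T : Finset ι) (f : H → F2) :
    DT b T (fun z => f (π z)) = fun z => DT (fun k => π (b k)) T f (π z) := by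
  funext z; simp only [DT, map_add, map_sum]

lemma DT_union {S T : Finset ι} (h : Disjoint S T) (F : G → F2) :
    DT b (S ∪ T) F = DT b S (DT b T F) := by
  induction S using Finset.induction_on with
  | empty => rw [empty_union, DT_empty]
  | insert k S hk ih =>
    rw [disjoint_insert_left] at h
    rw [insert_union, DT_insert b (by simp [hk, h.1]), DT_insert b hk, ih h.2]

variable {b}

lemma Dv_DT_mem (hb : ∀ k, b k + b k = 0) {T : Finset ι} {k : ι} (hk : k ∈ T) (F : G → F2) :
    Dv (b k) (DT b T F) = 0 := by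
  rw [← insert_erase hk, DT_insert b (notMem_erase k T), Dv_Dv (hb k)]

lemma Lo.dt_same (h : Lo U n F) (T : Finset ι) : Lo U n (DT b T F) := by
  induction T using Finset.induction_on with
  | empty => rwa [DT_empty]
  | insert k T hk ih => rw [DT_insert b hk]; exact ih.dv _

lemma Lo.dt {T : Finset ι} (hT : ∀ k ∈ T, b k ∈ U) (h : Lo U (m + T.card) F) :
    Lo U m (DT b T F) := by
  induction T using Finset.induction_on generalizing m with
  | empty => rwa [DT_empty]
  | insert k T hk ih =>
    rw [card_insert_of_notMem hk, ← add_assoc, add_right_comm] at h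
    rw [DT_insert b hk]
    exact ih (fun j hj => hT j (mem_insert_of_mem hj)) h _ (hT k (mem_insert_self _ _))

/-- a function of degree less than `n` has sum zero on cubes of dimension at least `n` -/
lemma Lo.dt_zero {T : Finset ι} (hT : ∀ k ∈ T, b k ∈ U) (h : Lo U n F) (e : n ≤ T.card) :
    DT b T F = 0 :=
  Lo.dt (m := 0) hT (h.mono (by omega))

lemma lo_of_DT (hb : ∀ k, b k + b k = 0) (h : ∀ T : Finset ι, T.card = n → DT b T F = 0) :
    Lo (Set.range b) n F := by
  have key : ∀ (m : ℕ) (S : Finset ι), S.card + m = n → Lo (Set.range b) m (DT b S F) := by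
    intro m
    induction m with
    | zero => exact fun S e => h S e
    | succ m ih =>
      rintro S e _ ⟨k, rfl⟩
      by_cases hk : k ∈ S
      · rw [Dv_DT_mem hb hk]; exact lo_zero _ _
      · rw [← DT_insert b hk]
        exact ih _ (by rw [card_insert_of_notMem hk]; omega)
  simpa only [DT_empty] using key n ∅ (by simp)

/-! ## dual families -/

lemma pair_aux (hb : ∀ k, b k + b k = 0) {T : Finset ι} {f : G → F2} (hT : ∀ k ∈ T, b k ∈ U)
    (hf : Lo U (T.card + 1) f) (h1 : DT b T f = 1) (R : Finset ι) : ∀ P P' : Finset ι, R ⊆ T →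
    P ⊆ T → P' ⊆ T → R.card = P.card + P'.card →
      DT b R (DT b (T \ P) f * DT b (T \ P') f) = if R = P ∪ P' then 1 else 0 := by
  have lo : ∀ P ⊆ T, Lo U (P.card + 1) (DT b (T \ P) f) := fun P hP =>
    Lo.dt (fun k hk => hT k (mem_sdiff.1 hk).1) (by
      rwa [add_right_comm, add_comm P.card, card_sdiff_add_card_eq_card hP])
  have d1 : ∀ P ⊆ T, ∀ k ∈ P, Dv (b k) (DT b (T \ P) f) = DT b (T \ P.erase k) f :=
    fun P hP k hk => by
      rw [← DT_insert b (by simp [hk])]
      congr 1
      ext j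
      by_cases e : j = k <;> simp [e, hP hk]
  have d0 : ∀ P : Finset ι, ∀ k ∈ T, k ∉ P → Dv (b k) (DT b (T \ P) f) = 0 := fun P k hk hk' =>
    Dv_DT_mem hb (mem_sdiff.2 ⟨hk, hk'⟩) f
  induction R using Finset.induction_on with
  | empty =>
    intro P P' _ _ _ e
    obtain rfl : P = ∅ := card_eq_zero.1 (by simp at e; omega)
    obtain rfl : P' = ∅ := card_eq_zero.1 (by simp at e; omega)
    simp [DT_empty, h1]
  | insert k R hk ih =>
    intro P P' hR hP hP' e
    have kT : k ∈ T := hR (mem_insert_self _ _)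
    have RT : R ⊆ T := fun j hj => hR (mem_insert_of_mem hj)
    rw [card_insert_of_notMem hk] at e
    rw [DT_insert b hk, ← DT_Dv, Dv_mul', DT_add, DT_add,
      Lo.dt_zero (fun j hj => hT j (RT hj)) ((lo P hP _ (hT k kT)).mul' (lo P' hP' _ (hT k kT)))
        (by omega), add_zero]
    by_cases a : k ∈ P <;> by_cases a' : k ∈ P'
    · have c := card_erase_add_one a
      have c' := card_erase_add_one a'
      rw [d1 P hP k a, d1 P' hP' k a', ih _ _ RT ((erase_subset _ _).trans hP) hP' (by omega),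
        ih _ _ RT hP ((erase_subset _ _).trans hP') (by omega), if_neg, if_neg, if_neg, add_zero]
      · intro h
        have h2 := card_union_add_card_inter P P'
        have h3 : 0 < (P ∩ P').card := card_pos.2 ⟨k, mem_inter.2 ⟨a, a'⟩⟩
        rw [← h, card_insert_of_notMem hk] at h2
        omega
      · exact fun h => hk (h ▸ mem_union_left _ a)
      · exact fun h => hk (h ▸ mem_union_right _ a')
    · have c := card_erase_add_one a
      rw [d1 P hP k a, d0 P' k kT a', mul_zero, DT_zero, add_zero,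
        ih _ _ RT ((erase_subset _ _).trans hP) hP' (by omega)]
      refine if_congr ⟨fun h => ?_, fun h => ?_⟩ rfl rfl
      · rw [h, ← insert_union, insert_erase a]
      · rw [← erase_insert hk, h, erase_union_distrib, erase_eq_of_notMem a']
    · have c := card_erase_add_one a'
      rw [d1 P' hP' k a', d0 P k kT a, zero_mul, DT_zero, zero_add,
        ih _ _ RT hP ((erase_subset _ _).trans hP') (by omega)]
      refine if_congr ⟨fun h => ?_, fun h => ?_⟩ rfl rfl
      · rw [h, ← union_insert, insert_erase a']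
      · rw [← erase_insert hk, h, erase_union_distrib, erase_eq_of_notMem a]
    · rw [d0 P k kT a, d0 P' k kT a', zero_mul, mul_zero, DT_zero, add_zero, if_neg]
      intro h
      have : k ∈ P ∪ P' := h ▸ mem_insert_self k R
      rcases mem_union.1 this with h | h
      exacts [a h, a' h]

/-- **Dual families.** -/
theorem pairing (hb : ∀ k, b k + b k = 0) {T : Finset ι} {f : G → F2} (hT : ∀ k ∈ T, b k ∈ U)
    (hf : Lo U (T.card + 1) f) (h1 : DT b T f = 1) {S S' : Finset ι} (hS : S ⊆ T) (hS' : S' ⊆ T)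
    (e : S.card = S'.card) :
    DT b T (DT b (T \ S) f * DT b S' f) = if S = S' then 1 else 0 := by
  have c := card_sdiff_add_card_eq_card hS'
  have := pair_aux hb hT hf h1 T S (T \ S') Subset.rfl hS sdiff_subset (by omega)
  rw [Finset.sdiff_sdiff_eq_self hS'] at this
  rw [this]
  refine if_congr ⟨fun h => (eq_of_subset_of_card_le (fun k hk => ?_) e.le).symm, ?_⟩ rfl rfl
  · have := hS' hk
    rw [h] at this
    exact (mem_union.1 this).resolve_right fun h' => (mem_sdiff.1 h').2 hk
  · rintro rfl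
    rw [union_sdiff_of_subset hS]

end calc_

end Vale.Agent.P318B.Dg
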