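import Vale.Agent.P318B.Code
import Vale.Agent.P318B.Deg

/-! Tools for the soundness proof: large subgroups, families of codewords of small weight. -/

set_option linter.unusedSectionVars false

open Finset
open scoped BigOperators

namespace Vale.Agent.P318B.Cd

open Dg

open Classical in
/-- the indicator of a failure -/
noncomputable def bad (P : Prop) : ℝ := if P then 0 else 1

lemma bad_pos {P : Prop} (h : P) : bad P = 0 := if_pos h

lemma bad_neg {P : Prop} (h : ¬ P) : bad P = 1 := if_neg h

lemma bad_nonneg (P : Prop) : 0 ≤ bad P := by unfold bad; split_ifs <;> norm_num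

lemma bad_le_one (P : Prop) : bad P ≤ 1 := by unfold bad; split_ifs <;> norm_num

/-- a subgroup of density larger than one half is everything -/
lemma sub_all {A : Type*} [AddCommGroup A] [Fintype A] {P : A → Prop}
    (hP : ∀ a b, P a → P b → P (a + b)) (h : 𝔼 a, bad (P a) < 1 / 2) (a : A) : P a := by
  by_contra c
  have h1 : 𝔼 b, bad (P (a - b)) = 𝔼 b, bad (P b) :=
    Fintype.expect_equiv (Equiv.subLeft a) _ _ fun _ => rfl
  have h2 : 𝔼 _b : A, (1 : ℝ) ≤ 𝔼 b, (bad (P b) + bad (P (a - b))) := by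
    refine expect_le_expect fun b _ => ?_
    by_cases h3 : P b
    · rw [bad_neg (P := P (a - b)) fun d => c (by simpa using hP _ _ h3 d)]
      linarith [bad_nonneg (P b)]
    · rw [bad_neg h3]
      linarith [bad_nonneg (P (a - b))]
  rw [Fintype.expect_const, expect_add_distrib, h1] at h2
  linarith

lemma sub_all₂ {A : Type*} [AddCommGroup A] [Fintype A] {P : A → A → Prop}
    (h1 : ∀ a b b', P a b → P a b' → P a (b + b'))
    (h2 : ∀ a a', (∀ b, P a b) → (∀ b, P a' b) → ∀ b, P (a + a') b)
    (h : 𝔼 a, 𝔼 b, bad (P a b) < 1 / 4) (a b : A) : P a b := by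
  refine sub_all (P := fun a => ∀ b, P a b) h2 ?_ a b
  have : 𝔼 a, bad (∀ b, P a b) ≤ 𝔼 a, 2 * 𝔼 b, bad (P a b) := by
    refine expect_le_expect fun a _ => ?_
    by_cases c : ∀ b, P a b
    · rw [bad_pos c]
      exact mul_nonneg two_pos.le (expect_nonneg fun _ _ => bad_nonneg _)
    · rw [bad_neg c]
      linarith [not_lt.1 fun d => c (sub_all (h1 a) d)]
  rw [← mul_expect] at this
  linarith

lemma dens_filter {I : Type*} [Fintype I] [Nonempty I] (P : I → Prop) [DecidablePred P] :
    dens (univ.filter P) = 1 - 𝔼 e, bad (P e) := by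
  classical
  rw [← mul_one (dens _), ← expect_chi, ← Fintype.expect_const (ι := I) (1 : ℝ),
    ← expect_sub_distrib]
  refine expect_congr rfl fun e _ => ?_
  by_cases c : P e <;> simp [bad, c]

lemma bad_mem {I : Type*} [Fintype I] [Nonempty I] (E : Finset I) :
    𝔼 e, bad (e ∈ E) = 1 - dens E := by
  classical
  have := dens_filter fun e => e ∈ E
  rw [filter_mem_eq_inter, univ_inter] at this
  linarith

lemma bad_and (P Q : Prop) : bad (P ∧ Q) ≤ bad P + bad Q := by
  by_cases c : P <;> by_cases d : Q <;> simp [bad, c, d]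

lemma bad_forall {α : Type*} [Fintype α] (P : α → Prop) : bad (∀ a, P a) ≤ ∑ a, bad (P a) := by
  by_cases c : ∀ a, P a
  · rw [bad_pos c]; exact sum_nonneg fun _ _ => bad_nonneg _
  · obtain ⟨a, ha⟩ := not_forall.1 c
    rw [bad_neg c, ← bad_neg ha]
    exact single_le_sum (f := fun a => bad (P a)) (fun _ _ => bad_nonneg _) (mem_univ a)

variable {G C I : Type*} [AddCommGroup G] [Fintype G] [AddCommGroup C] [Fintype C] [Fintype I]
  {u : I → C → G} {lam : ℝ} {E : Finset I} {F : G → ZMod 2}

lemma bad_le (hu : Lin u) (h : Mix u lam) (h0 : 0 ≤ lam) {d : ℝ}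
    (hd : Fintype.card C * (d + lam) ≤ dens E) (hF : Code u E F) : d * bad (F = 0) ≤ wt F := by
  by_cases c : F = 0
  · rw [bad_pos c, mul_zero]; exact wt_nonneg _
  · rw [bad_neg c, mul_one]
    refine not_lt.1 fun d => c (dist hu h h0 hF (lt_of_lt_of_le ?_ hd))
    have : (0 : ℝ) < Fintype.card C := by exact_mod_cast Fintype.card_pos
    gcongr

lemma Code.tr (h : Code u E F) (a : G) : Code u E (Tr a F) := fun e he z => by
  rw [← h e he (z + a)]
  simp only [bt, Tr, add_right_comm z a]

lemma Code.dv (h : Code u E F) (a : G) : Code u E (Dv a F) := h.add (h.tr a)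

lemma code_zero (u : I → C → G) (E : Finset I) : Code u E 0 := fun _ _ _ => sum_const_zero

lemma Code.sum {α : Type*} (s : Finset α) {f : α → G → ZMod 2} (h : ∀ a ∈ s, Code u E (f a)) :
    Code u E (∑ a ∈ s, f a) :=
  sum_induction f (Code u E) (fun _ _ => Code.add) (code_zero u E) h

lemma Code.comp (h : Code u E F) (θ : G →+ G) {E' : Finset I}
    (hE : ∀ e ∈ E', ∃ e' ∈ E, ∀ c, θ (u e c) = u e' c) : Code u E' fun z => F (θ z) :=
  fun e he z => by
    obtain ⟨e', h1, h2⟩ := hE e he
    rw [← h e' h1 (θ z)]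
    simp only [bt, map_add, h2]

lemma wt_tr (a : G) (F : G → ZMod 2) : wt (Tr a F) = wt F := wt_shift F a

lemma wt_dv (a : G) (F : G → ZMod 2) : wt (Dv a F) ≤ 2 * wt F := by
  have := wt_add_le F (Tr a F)
  rw [wt_tr, ← two_mul] at this
  exact this

lemma wt_comp {X : Type*} [Fintype X] {σ : X → X} (hσ : Function.Bijective σ) (F : X → ZMod 2) :
    wt (fun z => F (σ z)) = wt F :=
  Fintype.expect_bijective σ hσ _ _ fun _ => rfl

end Vale.Agent.P318B.Cd
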