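import Vale.Agent.P318B.Sound1
import Vale.Agent.P318B.Code2

/-! Soundness of the tests. -/

set_option linter.unusedSectionVars false

open Finset
open scoped BigOperators

namespace Vale.Agent.P318B.Sd

open Vale.Agent.Lib.PCP Cd
open Dg (Dv)

section

variable {X : Type*} [AddCommGroup X] {a b : X} {F : X → ZMod 2}

lemma dv_add_zero (h : Dv a F = 0) (h' : Dv b F = 0) : Dv (a + b) F = 0 :=
  (Dg.Dv_add_dir a b F).trans (by rw [h, h']; rfl)

lemma eq_of_dv (h : Dv a F = 0) (z : X) : F (z + a) = F z := by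
  have := congrFun h z
  rw [Dv, Pi.zero_apply, add_eq_zero_iff_eq_neg, CharTwo.neg_eq] at this
  exact this.symm

lemma dv_dir (h : Dv a (Dv b F) = 0) : Dv (a + b) F = Dv a F + Dv b F :=
  (Dg.Dv_add_dir a b F).trans (congrArg _ (funext (eq_of_dv h)))

variable [Fintype X]

lemma wt_dv' (a : X) {c : ℝ} (h : wt F ≤ c) : wt (Dv a F) ≤ 2 * c :=
  (wt_dv a F).trans (by linarith)

end

lemma lin_step {G C I X : Type*} [AddCommGroup G] [Fintype G] [AddCommGroup C] [Fintype C]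
    [Fintype I] [Fintype X] [Nonempty X] {u : I → C → G} {lam d c η : ℝ} {E : Finset I}
    (hu : Lin u) (h : Mix u lam) (h0 : 0 ≤ lam) (hd : Fintype.card C * (d + lam) ≤ Cd.dens E)
    {Φ Φ' : X → G → ZMod 2} (h1 : ∀ x, wt (Φ' x) ≤ wt (Φ x) + c) (h2 : 𝔼 x, wt (Φ x) ≤ η)
    (h3 : ∀ x, Code u E (Φ' x)) : d * 𝔼 x, bad (Φ' x = 0) ≤ η + c := by
  rw [mul_expect]
  refine (expect_le_expect fun x _ => (bad_le hu h h0 hd (h3 x)).trans (h1 x)).trans ?_
  rw [expect_add_distrib, Fintype.expect_const]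
  linarith

lemma expect_prod {A B : Type*} [Fintype A] [Fintype B] (f : A × B → ℝ) :
    𝔼 x, f x = 𝔼 a, 𝔼 b, f (a, b) := by rw [← univ_product_univ, expect_product]

variable {p E : ℕ} (d : Dat p E) (cl : CNF)

lemma th_uu (e0 : Fin E) {i i' : Fin p} (h : (i' : ℕ) = i + 1) (c : W) :
    thH d.th (uu d.th d.r (e0, i) c) = uu d.th d.r (e0, i') c := funext fun k => by
  change d.th _ = _
  simp only [uu, dir, Finset.sum_apply, Pi.smul_apply, map_sum, map_smul, h,
    Function.iterate_succ_apply']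

/-- the link test -/
def L4 (a : V p) (F : G p → ZMod 2) : G p → ZMod 2 := Dv (io (sh a)) F + fun z =>
  (Dv (io (res d.T false a)) F + D3 (Dv (io (res d.T true a)) F)) (thG d.th z)

/-- the product test -/
def L3 (F : G p → ZMod 2) : G p → ZMod 2 := fun z => Dv (io (bas p 0)) F z +
  Rf d cl z (Dv (es p) F z) (Dv (es p) F (sw 2 z)) (Dv (es p) F (sw 3 z))

lemma D3_add (F F' : G p → ZMod 2) : D3 (F + F') = D3 F + D3 F' := by simp only [D3, Dg.Dv_add]

lemma L4_add (a : V p) (F F' : G p → ZMod 2) : L4 d a (F + F') = L4 d a F + L4 d a F' := by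
  funext z
  simp only [L4, Dg.Dv_add, D3_add, Pi.add_apply]
  ring

lemma io_add (a b : V p) : io (a + b) = io a + io b := Pi.single_add _ _ _

lemma io_zero : io (0 : V p) = 0 := Pi.single_zero _

lemma sh_add (a b : V p) : sh (a + b) = sh a + sh b := funext fun k => by
  simp only [sh, Pi.add_apply]; split_ifs <;> simp

lemma res_add (T : Fin p → Bool) (c : Bool) (a b : V p) :
    res T c (a + b) = res T c a + res T c b := funext fun k => by
  simp only [res, Pi.add_apply]; split_ifs <;> simp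

lemma sw_bij (k : Fin 6) : Function.Bijective (sw k : G p → G p) :=
  Function.Involutive.bijective fun z => funext fun m => by simp [sw]

lemma wt_L3 (F Δ : G p → ZMod 2) : wt (L3 d cl (F + Δ)) ≤ wt (L3 d cl F) + 8 * wt Δ := by
  have h1 := wt_dv' (io (bas p 0)) (le_refl (wt Δ))
  have h2 := wt_dv' (es p) (le_refl (wt Δ))
  have h3 := wt_comp (sw_bij 2) (Dv (es p) Δ)
  have h4 := wt_comp (sw_bij 3) (Dv (es p) Δ)
  have h5 : wt (L3 d cl (F + Δ)) ≤ 𝔼 z, (ind (L3 d cl F z) + ind (Dv (io (bas p 0)) Δ z) +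
      ind (Dv (es p) Δ z) + ind (Dv (es p) Δ (sw 2 z)) + ind (Dv (es p) Δ (sw 3 z))) := by
    refine expect_le_expect fun z _ => ?_
    have := ind_le_one (L3 d cl (F + Δ) z)
    have := ind_nonneg (L3 d cl F z)
    rcases bit (Dv (io (bas p 0)) Δ z) with a | a <;> rcases bit (Dv (es p) Δ z) with b | b <;>
      rcases bit (Dv (es p) Δ (sw 2 z)) with c | c <;>
      rcases bit (Dv (es p) Δ (sw 3 z)) with e | e <;>
      simp only [a, b, c, e, ind_zero, ind_one] <;> first | linarith | skip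
    simp only [L3, Dg.Dv_add, Pi.add_apply, a, b, c, e, add_zero, le_refl]
  simp only [expect_add_distrib] at h5
  unfold wt at *
  linarith

variable {d cl} {n : ℕ} {lam : ℝ}

/-- from the five bounds to an assignment -/
theorem core {q : ℕ} {d : Dat (q + 1) E} [Nonempty (Fin E)] (hq : 7 ≤ q) (h0 : 0 ≤ lam)
    {k : ℝ} (hk : k = 1 / 2 ^ 34) (hl : lam ≤ k) (hd : Good d n lam) (hb : Bd n cl)
    {F : G (q + 1) → ZMod 2} (m : 𝔼 e, wt (bt (uu d.th d.r e) F) ≤ k ^ 2)
    (t0 : 𝔼 x : V (q + 1) × V (q + 1), wt (Dv (io x.2) (Dv (io x.1) F)) ≤ k ^ 2)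
    (t1 : 𝔼 s : G (q + 1), wt (Dv (Function.update s 1 0) (Dv (es _) F)) ≤ k ^ 2)
    (t2 : 𝔼 x : (Fin E × Fin (q + 1)) × Fin 9 × Fin 9 × Fin 3, wt (Dv (ux d x.1 x.2.1 x.2.2.2)
      (Dv (ux d x.1 x.2.2.1 x.2.2.2) (Dv (es _) F))) ≤ k ^ 2)
    (t3 : wt (L3 d cl F) ≤ k ^ 2) (t4 : 𝔼 a, wt (L4 d a F) ≤ k ^ 2) : Satisfiable cl := by
  classical
  have hu := uu_lin d.th d.r
  have hm := mix_of_bias h0 hd.seed.bias
  have cW : (512 : ℝ) = Fintype.card W := by simp
  obtain ⟨E', F', a1, -, a2, a3⟩ := ltc hu hm h0 cW (k := k) (by rw [hk]; positivity) m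
    (by rw [hk] at hl ⊢; linarith)
  obtain ⟨Δ, rfl⟩ : ∃ Δ, F' = F + Δ := ⟨F' - F, by abel⟩
  rw [← add_assoc, ZModModule.add_self, zero_add] at a2
  have dn : ∀ E'' : Finset (Fin E × Fin (q + 1)), 3 / 4 ≤ Cd.dens E'' →
      Fintype.card W * (1 / 1024 + lam) ≤ Cd.dens E'' := fun E'' h => by
    rw [← cW]; rw [hk] at hl; linarith
  have d1 := dn E' (by rw [hk] at a1; linarith)
  have b1 := bad_mem E'
  have s0 := lin_step hu hm h0 d1 (c := 2 * (2 * k))
    (Φ' := fun x : V (q + 1) × V (q + 1) => Dv (io x.2) (Dv (io x.1) (F + Δ))) (fun x => by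
      rw [Dg.Dv_add, Dg.Dv_add]
      exact (wt_add_le _ _).trans (add_le_add_right (wt_dv' _ (wt_dv' _ a2)) _)) t0
    fun x => (a3.dv _).dv _
  have e0 : ∀ a b, Dv (io b) (Dv (io a) (F + Δ)) = 0 := by
    refine sub_all₂ (fun a b b' h h' => io_add b b' ▸ dv_add_zero h h') (fun a a' h h' b => ?_) ?_
    · rw [io_add, dv_dir (h' a), Dg.Dv_add, h, h', add_zero]
    · rw [expect_prod, hk] at s0
      linarith
  have s1 := lin_step hu hm h0 d1 (c := 2 * (2 * k))
    (Φ' := fun s : G (q + 1) => Dv (Function.update s 1 0) (Dv (es _) (F + Δ))) (fun x => by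
      rw [Dg.Dv_add, Dg.Dv_add]
      exact (wt_add_le _ _).trans (add_le_add_right (wt_dv' _ (wt_dv' _ a2)) _)) t1
    fun x => (a3.dv _).dv _
  have e1 : ∀ s : G (q + 1), Dv (Function.update s 1 0) (Dv (es _) (F + Δ)) = 0 := by
    refine sub_all (fun a b h h' => ?_) (by rw [hk] at s1; linarith)
    rw [← add_zero (0 : V (q + 1)), Function.update_add]
    exact dv_add_zero h h'
  set γ : V (q + 1) → ZMod 2 := fun x => Dv (es _) (F + Δ) (Pi.single 1 x) with hγ
  have g1 : ∀ z, Dv (es _) (F + Δ) z = γ (z 1) := fun z => by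
    rw [hγ]
    refine Eq.trans (congrArg _ ?_) (eq_of_dv (e1 z) _)
    funext m
    by_cases c : m = 1 <;> simp [c]
  have s2 := lin_step hu hm h0 d1 (c := 2 * (2 * (2 * k)))
    (Φ' := fun x : (Fin E × Fin (q + 1)) × Fin 9 × Fin 9 × Fin 3 => Dv (ux d x.1 x.2.1 x.2.2.2)
      (Dv (ux d x.1 x.2.2.1 x.2.2.2) (Dv (es _) (F + Δ)))) (fun x => by
      rw [Dg.Dv_add, Dg.Dv_add, Dg.Dv_add]
      exact (wt_add_le _ _).trans (add_le_add_right (wt_dv' _ (wt_dv' _ (wt_dv' _ a2))) _)) t2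
    fun x => ((a3.dv _).dv _).dv _
  have e3 : L3 d cl (F + Δ) = 0 := by
    set P := fun (e : Fin E × Fin (q + 1)) (t : Fin 9 × Fin 9 × Fin 3) =>
      Dv (ux d e t.1 t.2.2) (Dv (ux d e t.2.1 t.2.2) (Dv (es _) (F + Δ))) = 0 with hP
    have c1 : 𝔼 e, bad (e ∈ E' ∧ ∀ t, P e t) ≤ 𝔼 e, (bad (e ∈ E') + 243 * 𝔼 t, bad (P e t)) := by
      refine expect_le_expect fun e _ => (bad_and _ _).trans (add_le_add_right
        ((bad_forall _).trans (le_of_eq ?_)) _)
      rw [← Fintype.card_mul_expect]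
      simp
    rw [expect_add_distrib, ← mul_expect] at c1
    rw [expect_prod] at s2
    have c2 := dn (univ.filter fun e => e ∈ E' ∧ ∀ t, P e t) (by
      rw [dens_filter]; rw [hk] at s2 a1; linarith)
    have c4 : Code (uu d.th d.r) (univ.filter fun e => e ∈ E' ∧ ∀ t, P e t) (L3 d cl (F + Δ)) := by
      refine Code.add ((a3.dv _).mono fun e he => (mem_filter.1 he).2.1) fun e he z => ?_
      have lo : ∀ m : Fin 3, Dg.Lo (Set.range (dir d.th d.r e.1 e.2)) 2
          fun z : G (q + 1) => γ (z (xs m)) := fun m => lo_proj _ (by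
        rintro _ ⟨j', rfl⟩ _ ⟨j, rfl⟩
        funext x
        have := congrFun ((mem_filter.1 he).2.2 (j, j', m)) (Pi.single 1 x)
        simpa only [Dv, hγ, ux, Pi.single_add, Pi.zero_apply] using this)
      simp only [g1]
      exact bt_zero ((lo_Rf d hd hb (by have := e.2.2; omega) (lo 0) (lo 1) (lo 2)).succ) z
    have c3 := bad_le hu hm h0 c2 c4
    by_contra c
    rw [bad_neg c] at c3
    have := wt_L3 d cl F Δ
    rw [hk] at t3 a2
    linarith
  have s4 : 1 / 1024 * 𝔼 a, bad (L4 d a (F + Δ) = 0) ≤ k ^ 2 + 20 * k := by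
    have bj : Function.Bijective (thG d.th) := Finite.injective_iff_bijective.1
      fun z z' h => funext fun m => hd.seed.inj (congrFun h m)
    have c1 : 𝔼 e : Fin E × Fin (q + 1), bad (e ∈ E' ∧ (e.1, e.2 + 1) ∈ E' ∧ e.2 ≠ Fin.last q) ≤
        𝔼 e : Fin E × Fin (q + 1),
          (bad (e ∈ E') + (bad ((e.1, e.2 + 1) ∈ E') + bad (e.2 ≠ Fin.last q))) :=
      expect_le_expect fun e _ => (bad_and _ _).trans (add_le_add_right (bad_and _ _) _)
    have c2 : 𝔼 e : Fin E × Fin (q + 1), bad ((e.1, e.2 + 1) ∈ E') = 𝔼 e, bad (e ∈ E') :=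
      Fintype.expect_equiv ((Equiv.refl _).prodCongr (Equiv.addRight 1)) _ _ fun _ => rfl
    have c3 : 𝔼 e : Fin E × Fin (q + 1), bad (e.2 ≠ Fin.last q) ≤ 1 / 8 := by
      rw [expect_prod]
      change 𝔼 _a : Fin E, 𝔼 b : Fin (q + 1), bad (b ≠ Fin.last q) ≤ _
      rw [Fintype.expect_const, Fintype.expect_eq_sum_div_card,
        sum_eq_single (Fin.last q) (fun i _ h => bad_pos h) (by simp), bad_neg (by simp),
        Fintype.card_fin]
      exact one_div_le_one_div_of_le (by norm_num) (by exact_mod_cast Nat.succ_le_succ hq)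
    rw [expect_add_distrib, expect_add_distrib, c2] at c1
    refine lin_step hu hm h0 (dn (univ.filter fun e : Fin E × Fin (q + 1) =>
      e ∈ E' ∧ (e.1, e.2 + 1) ∈ E' ∧ e.2 ≠ Fin.last q) (by
        rw [dens_filter]; rw [hk] at a1; linarith)) (fun a => ?_) t4 fun a => ?_
    · rw [L4_add]
      refine (wt_add_le _ _).trans (add_le_add_right ((wt_add_le _ _).trans ?_) _)
      have c4 : wt (D3 (Dv (io (res d.T true a)) Δ)) ≤ 2 * (2 * (2 * (2 * k))) :=
        wt_dv' _ (wt_dv' _ (wt_dv' _ (wt_dv' _ a2)))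
      rw [wt_comp bj]
      linarith [wt_dv' (io (sh a)) a2, wt_dv' (io (res d.T false a)) a2,
        wt_add_le (Dv (io (res d.T false a)) Δ) (D3 (Dv (io (res d.T true a)) Δ))]
    · refine Code.add ((a3.dv _).mono fun e he => (mem_filter.1 he).2.1)
        (Code.comp ((a3.dv _).add ((((a3.dv _).dv _).dv _).dv _)) (thH d.th) fun e he => ?_)
      obtain ⟨-, -, c4, c5⟩ := mem_filter.1 he
      exact ⟨_, c4, th_uu d e.1 (Fin.val_add_one_of_lt (Fin.lt_last_iff_ne_last.2 c5))⟩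
  have e4 : ∀ a, L4 d a (F + Δ) = 0 := by
    refine sub_all (fun a b h h' => ?_) (by rw [hk] at s4; linarith)
    rw [← add_zero (0 : G (q + 1) → ZMod 2), ← congrArg₂ (· + ·) h h']
    funext z
    simp only [L4, sh_add, res_add, io_add, dv_dir (e0 _ _), D3_add, Pi.add_apply]
    ring
  refine exact hd hb (γ := γ) (H := fun i => Dv (io (bas _ i)) (F + Δ)) (fun z => ?_)
    (fun i hi z => ?_) (by rw [bas_top, io_zero]; exact Dg.Dv_at_zero _)
  · have := congrFun e3 z
    rwa [L3, Pi.zero_apply, add_eq_zero_iff_eq_neg, CharTwo.neg_eq, g1, g1, g1] at this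
  · have := congrFun (e4 (bas _ i)) z
    rw [L4, Pi.add_apply, Pi.zero_apply, add_eq_zero_iff_eq_neg, CharTwo.neg_eq, sh_bas,
      res_bas _ _ hi, res_bas _ _ hi] at this
    have z0 : Dv (io 0) (F + Δ) = 0 := by rw [io_zero]; exact Dg.Dv_at_zero _
    rw [this]
    cases Tn d i
    · simp [z0, D3, Dv]
    · simp [z0]

theorem sound_proof : SoundS := by
  classical
  refine ⟨1 / 2 ^ 34, (1 / 2 ^ 34) ^ 2, 8, by positivity, by positivity,
    fun p E n d cl lam hp hE h0 hl hd hb F h => ?_⟩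
  obtain ⟨q, rfl⟩ : ∃ q, p = q + 1 := ⟨p - 1, by omega⟩
  have : Nonempty (Fin E) := ⟨⟨0, hE⟩⟩
  have h1 : 𝔼 o, bad (Pass d cl F o) ≤ (1 / 2 ^ 34) ^ 2 := by
    rw [Fintype.expect_eq_sum_div_card, div_le_iff₀ (by exact_mod_cast Fintype.card_pos)]
    refine le_of_eq_of_le ?_ h.le
    rw [card_filter, Nat.cast_sum]
    refine sum_congr rfl fun o _ => ?_
    by_cases c : Pass d cl F o <;> simp [bad, c]
  have key : ∀ φ : J (q + 1) E → ZMod 2, (∀ o, Pass d cl F o → φ o = 0) →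
      𝔼 o, ind (φ o) ≤ (1 / 2 ^ 34) ^ 2 := fun φ hφ => le_trans (expect_le_expect fun o _ => by
    by_cases c : Pass d cl F o
    · rw [hφ o c, bad_pos c, ind_zero]
    · rw [bad_neg c]; exact ind_le_one _) h1
  have m := key (fun o => bt (uu d.th d.r o.2.1) F o.1) fun o c => c.1
  have t := fun t => key (fun o => resid d cl F o t) fun o c => c.2 t
  have t0 := t 0
  have t1 := t 1
  have t2 := t 2
  have t3 := t 3
  have t4 := t 4
  rw [expect_prod, expect_comm] at m t0 t1 t2 t4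
  simp only [expect_prod, resid_0, resid_1, resid_2, resid_3, resid_4, Fintype.expect_const]
    at m t0 t1 t2 t3 t4
  refine core (by omega) h0 rfl hl hd hb (F := F) ?_ ?_ t1 ?_ t3 t4
  · rw [expect_prod]; exact m
  · rw [expect_prod]; exact t0
  · simp only [expect_prod]; exact t2

end Vale.Agent.P318B.Sd
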