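import Vale.Agent.P318B.All0
import Vale.Agent.P318B.Seed
import Vale.Agent.P318B.Sound
import Vale.Agent.P318B.Prog22

/-!
# P318B / All: hardness of approximation of Uniform Sparsest Cut within some constant factor
-/

namespace Vale.Agent.P318B

theorem gap_all : ∃ C : ℝ, 1 < C ∧ GapHard C := gap_of Sd.sound_proof seedS Pg.progS

theorem main_all : Main := main_of Sd.sound_proof seedS Pg.progS

end Vale.Agent.P318B
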