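import Vale.Agent.P318B.Defs
import Vale.Agent.P325.Bridge
import Vale.Agent.Lib.PolyTime.NatArith2
import Vale.Agent.Lib.PolyTime.Lists2
import Vale.Agent.Lib.PolyTime.Bitwise

/-!
From the hardness of the gap problem to the hardness of approximation.
-/

namespace Vale.Agent.P318B

open Vale.Agent.P318 Vale.Agent.P325 Vale.Agent.Lib.PolyTime Finset

namespace Ax

/-- numerator and denominator -/
def nd (q : ℚ) : ℕ × ℕ := (q.num.natAbs, q.den)

theorem enc_nd (q : ℚ) : enc (nd q) = codeQ q := by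
  rw [nd, enc_pair, codeQ, pair_eq_pr]; rfl

/-- the matrix of an instance -/
def mat (I : Inst) : List (List (ℕ × ℕ)) :=
  List.ofFn fun i => List.ofFn fun j => nd (I.cap i j)

theorem enc_mat (I : Inst) : enc (mat I) = I.code := by
  rw [← codeList_eq, mat, List.map_ofFn, Inst.code]
  congr 2
  funext i
  rw [Function.comp_apply, ← codeList_eq, List.map_ofFn]
  congr 2
  funext j
  exact enc_nd _

theorem nd_cast {q : ℚ} (h : 0 ≤ q) : ((nd q).1 : ℝ) = q * (nd q).2 := by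
  have h1 : ((q.num.natAbs : ℕ) : ℤ) = q.num := Int.natAbs_of_nonneg (Rat.num_nonneg.2 h)
  have h2 : ((q.num.natAbs : ℕ) : ℝ) = (q.num : ℝ) := by
    conv_rhs => rw [← h1]
    rw [Int.cast_natCast]
  have h3 : (q : ℝ) * q.den = q.num := by exact_mod_cast Rat.mul_den_eq_num q
  simp only [nd]
  rw [h2, h3]

/-- the common denominator -/
def den (M : List (List (ℕ × ℕ))) : ℕ := (M.flatten.map fun e => e.2).prod

/-- the capacity of a cut times the common denominator -/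
def cutN (M : List (List (ℕ × ℕ))) (s : List Bool) : ℕ :=
  ((M.zip s).map fun r => bif r.2 then
    ((r.1.zip s).map fun e => bif e.2 then 0 else e.1.1 * (den M / e.1.2)).sum else 0).sum

/-- the number of elements -/
def crd (s : List Bool) : ℕ := (s.map fun b => bif b then 1 else 0).sum

/-- the test: ratio at most `c * τ` -/
def test (c t : ℕ × ℕ) (M : List (List (ℕ × ℕ))) (s : List Bool) : Bool :=
  decide (cutN M s * (c.2 * t.2) ≤ c.1 * t.1 * (den M * (crd s * (s.length - crd s))))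

theorem PT_den : PT ∅ den :=
  PT.prod (PT.map (f := fun _ (e : ℕ × ℕ) => e.2) (PT.flatten PT.id) PT.snd'.snd)

theorem PT_crd : PT ∅ crd :=
  PT.sum (PT.map (f := fun _ (b : Bool) => bif b then 1 else 0) PT.id
    (PT.cond PT.snd' (PT.const 1) (PT.const 0)))

theorem PT_cutN : PT ∅ fun p : List (List (ℕ × ℕ)) × List Bool => cutN p.1 p.2 := by
  refine PT.sum (PT.map (PT.zip PT.fst' PT.snd') ?_)
  refine PT.cond PT.snd'.snd (PT.sum (PT.map (PT.zip PT.snd'.fst PT.fst'.snd) ?_)) (PT.const 0)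
  exact PT.cond PT.snd'.snd (PT.const 0)
    (PT.mul PT.snd'.fst.fst (PT.div (PT_den.comp PT.fst'.fst.fst) PT.snd'.fst.snd))

theorem PT_test (c : ℕ × ℕ) :
    PT ∅ fun p : (ℕ × ℕ) × List (List (ℕ × ℕ)) × List Bool => test c p.1 p.2.1 p.2.2 := by
  have hc : PT ∅ fun p : (ℕ × ℕ) × List (List (ℕ × ℕ)) × List Bool => crd p.2.2 :=
    PT_crd.comp PT.snd'.snd
  exact PT.le (PT.mul (PT_cutN.comp PT.snd') (PT.mul (PT.const _) PT.fst'.snd))
    (PT.mul (PT.mul (PT.const _) PT.fst'.fst) (PT.mul (PT_den.comp PT.snd'.fst)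
      (PT.mul hc (PT.sub (PT.length PT.snd'.snd) hc))))

theorem zip_ofFn {α β : Type} {n : ℕ} (f : Fin n → α) (g : Fin n → β) :
    (List.ofFn f).zip (List.ofFn g) = List.ofFn fun i => (f i, g i) := by
  rw [List.ofFn_eq_map, List.ofFn_eq_map, List.ofFn_eq_map, List.zip_map']

theorem den_pos (I : Inst) : 0 < den (mat I) := by
  refine List.prod_pos fun a ha => ?_
  obtain ⟨e, he, rfl⟩ := List.mem_map.1 ha
  obtain ⟨r, hr, he⟩ := List.mem_flatten.1 he
  obtain ⟨i, rfl⟩ := List.mem_ofFn.1 hr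
  obtain ⟨j, rfl⟩ := List.mem_ofFn.1 he
  exact (I.cap i j).den_pos

theorem dvd_den (I : Inst) (i j : Fin I.n) : (nd (I.cap i j)).2 ∣ den (mat I) :=
  List.dvd_prod (List.mem_map.2 ⟨nd (I.cap i j), List.mem_flatten.2
    ⟨_, List.mem_ofFn.2 ⟨i, rfl⟩, List.mem_ofFn.2 ⟨j, rfl⟩⟩, rfl⟩)

theorem entry (I : Inst) (i j : Fin I.n) :
    (((nd (I.cap i j)).1 * (den (mat I) / (nd (I.cap i j)).2) : ℕ) : ℝ) =
      I.cap i j * den (mat I) := by
  obtain ⟨k, hk⟩ := dvd_den I i j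
  have h0 : 0 < (nd (I.cap i j)).2 := (I.cap i j).den_pos
  have h2 : (0 : ℝ) ≤ I.cap i j := I.isCap.2.1 i j
  have h1 : (0 : ℚ) ≤ I.cap i j := by exact_mod_cast h2
  rw [hk, Nat.mul_div_cancel_left _ h0]
  push_cast
  rw [nd_cast h1, mul_assoc]

theorem cutN_eq (I : Inst) (S : Finset (Fin I.n)) :
    (cutN (mat I) (List.ofFn fun i => decide (i ∈ S)) : ℝ) =
      (∑ i ∈ S, ∑ j ∈ Sᶜ, (I.cap i j : ℝ)) * den (mat I) := by
  have h1 : ∀ D : ℕ, (((mat I).zip (List.ofFn fun i => decide (i ∈ S))).map fun r => bif r.2 then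
      ((r.1.zip (List.ofFn fun i => decide (i ∈ S))).map
        fun e => bif e.2 then 0 else e.1.1 * (D / e.1.2)).sum else 0).sum =
      ∑ i ∈ S, ∑ j ∈ Sᶜ, (nd (I.cap i j)).1 * (D / (nd (I.cap i j)).2) := fun D => by
    rw [mat, zip_ofFn, List.map_ofFn, List.sum_ofFn, ← Finset.sum_subset (Finset.subset_univ S)
      fun i _ hi => by simp [hi]]
    refine Finset.sum_congr rfl fun i hi => ?_
    simp only [Function.comp_apply, hi, decide_true, cond_true]
    rw [zip_ofFn, List.map_ofFn, List.sum_ofFn, ← Finset.sum_subset (Finset.subset_univ Sᶜ)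
      fun j _ hj => by simp [not_not.1 (mt Finset.mem_compl.2 hj)]]
    refine Finset.sum_congr rfl fun j hj => ?_
    simp [Finset.mem_compl.1 hj]
  rw [cutN, h1, Finset.sum_mul, Nat.cast_sum]
  refine Finset.sum_congr rfl fun i _ => ?_
  rw [Finset.sum_mul, Nat.cast_sum]
  exact Finset.sum_congr rfl fun j _ => entry I i j

theorem crd_eq {n : ℕ} (S : Finset (Fin n)) :
    crd (List.ofFn fun i => decide (i ∈ S)) = S.card := by
  rw [crd, List.map_ofFn, List.sum_ofFn, Finset.card_eq_sum_ones,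
    ← Finset.sum_subset (Finset.subset_univ S) fun i _ hi => by simp [hi]]
  exact Finset.sum_congr rfl fun i hi => by simp [hi]

theorem test_iff {c t : ℚ} (hc : 0 ≤ c) (ht : 0 ≤ t) (I : Inst) {S : Finset (Fin I.n)}
    (h0 : S.Nonempty) (h1 : S ≠ univ) :
    test (nd c) (nd t) (mat I) (List.ofFn fun i => decide (i ∈ S)) = true ↔
      I.ratio S ≤ c * t := by
  have k0 : (0 : ℝ) < S.card := by exact_mod_cast h0.card_pos
  have k1 : S.card < I.n := by
    simpa using Finset.card_lt_card (Finset.ssubset_univ_iff.2 h1)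
  have k2 : (0 : ℝ) < (I.n : ℝ) - S.card := sub_pos.2 (by exact_mod_cast k1)
  have d0 : (0 : ℝ) < den (mat I) := by exact_mod_cast den_pos I
  have c0 : (0 : ℝ) < (nd c).2 := by exact_mod_cast c.den_pos
  have t0 : (0 : ℝ) < (nd t).2 := by exact_mod_cast t.den_pos
  rw [test, decide_eq_true_iff, crd_eq, List.length_ofFn, ← Nat.cast_le (α := ℝ)]
  push_cast [Nat.cast_sub k1.le]
  rw [cutN_eq, nd_cast hc, nd_cast ht, Inst.ratio, cutRatio, div_le_iff₀ (mul_pos k0 k2)]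
  have e : (c : ℝ) * (nd c).2 * (t * (nd t).2) * (den (mat I) * (S.card * ((I.n : ℝ) - S.card))) =
      c * t * (S.card * ((I.n : ℝ) - S.card)) * den (mat I) * ((nd c).2 * (nd t).2) := by ring
  rw [e, mul_le_mul_iff_left₀ (mul_pos c0 t0), mul_le_mul_iff_left₀ d0]

theorem phi_le (I : Inst) {S : Finset (Fin I.n)} (h0 : S.Nonempty) (h1 : S ≠ univ) :
    I.phi ≤ I.ratio S := by
  refine csInf_le (Set.Finite.bddBelow ?_) ⟨S, h0, h1, rfl⟩
  exact (Set.finite_range (cutRatio fun i j => (I.cap i j : ℝ))).subset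
    fun r ⟨T, _, _, e⟩ => ⟨T, e.symm⟩

end Ax

open Ax

theorem GapHard.mono {C C' : ℝ} (h : GapHard C) (hC : C' ≤ C) : GapHard C' := fun L hL => by
  obtain ⟨I, τ, hp, h⟩ := h L hL
  refine ⟨I, τ, hp, fun x => ⟨(h x).1, (h x).2.1, fun hx => lt_of_le_of_lt ?_ ((h x).2.2 hx)⟩⟩
  exact mul_le_mul_of_nonneg_right hC (by exact_mod_cast (h x).1.le)

/-- an approximation algorithm decides the gap problem -/
theorem np_of_approx {c : ℚ} (hc : 0 ≤ c) (h : GapHard c) {A : List Bool → List Bool}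
    (hA : PolyTime A) (ha : Approx c A) : NP ⊆ P := fun L hL => by
  obtain ⟨I, τ, hp, h⟩ := h L hL
  have h1 : PT ∅ fun x : Raw => (nd (τ x.w), mat (I x.w)) :=
    ⟨_, polyTime_iff.1 hp, fun x => by rw [enc_pair, enc_nd, enc_mat, pair_eq_pr]; rfl⟩
  have h2 : PT ∅ fun x : Raw => Raw.mk (A x.w) := ⟨_, polyTime_iff.1 hA, fun _ => rfl⟩
  have h3 : PT ∅ fun x : Raw => A (enc (mat (I x.w))) :=
    PT.listOfRaw (h2.comp (PT_raw h1.snd))
  obtain ⟨g, hg, hg'⟩ := (PT_test (nd c)).comp (h1.fst.pair (h1.snd.pair h3))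
  refine ⟨g, polyTime_iff.2 hg, fun x => ?_⟩
  obtain ⟨S, s0, s1, sA, sr⟩ := ha (I x)
  have e : g x = [test (nd c) (nd (τ x)) (mat (I x)) (List.ofFn fun i => decide (i ∈ S))] := by
    rw [← sA, ← enc_mat]
    exact hg' ⟨x⟩
  rw [e, List.singleton_inj, test_iff hc (h x).1.le _ s0 s1]
  refine ⟨fun hx => sr.trans (mul_le_mul_of_nonneg_left ((h x).2.1 hx) (by exact_mod_cast hc)),
    fun hr => by_contra fun hx => ?_⟩
  exact absurd (((h x).2.2 hx).trans_le (phi_le _ s0 s1)) (not_lt.2 hr)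

theorem main_of_gap {C : ℝ} (h1 : 1 < C) (h : GapHard C) : Main := by
  obtain ⟨c, c1, c2⟩ := exists_rat_btwn h1
  have hc : (0 : ℚ) ≤ c := by exact_mod_cast (zero_le_one.trans c1.le : (0 : ℝ) ≤ c)
  exact ⟨c, c1, h.mono c2.le, fun ⟨A, hA, ha⟩ => np_of_approx hc (h.mono c2.le) hA ha⟩

end Vale.Agent.P318B
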