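import Vale.Agent.P318B.Deg

/-!
# P318B: sums over cubes and the Golod-Shafarevich dimension count
-/

set_option linter.all false

namespace Vale.Agent.P318B.Dg

open Finset Module

section cube

variable {ι : Type*} [Fintype ι] [DecidableEq ι]

/-- the standard basis -/
def bs (k : ι) : ι → F2 := Pi.single k 1

lemma bs_two (k : ι) : bs k + bs k = 0 := funext fun _ => two _

lemma sum_bs_apply (S : Finset ι) (j : ι) : (∑ k ∈ S, bs k) j = if j ∈ S then 1 else 0 := by
  simp [bs, Finset.sum_apply, Pi.single_apply]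

/-- the support of a vector -/
def supp (z : ι → F2) : Finset ι := univ.filter fun k => z k = 1

lemma sum_supp (z : ι → F2) : ∑ k ∈ supp z, bs k = z := by
  funext j
  rw [sum_bs_apply]
  simp only [supp, mem_filter, mem_univ, true_and]
  generalize z j = x
  revert x
  decide

lemma supp_sum (S : Finset ι) : supp (∑ k ∈ S, bs k) = S := by
  ext j
  rw [supp, mem_filter, sum_bs_apply]
  simp

/-- subsets and vectors -/
def cubeEquiv : Finset ι ≃ (ι → F2) := ⟨fun S => ∑ k ∈ S, bs k, supp, supp_sum, sum_supp⟩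

variable {G : Type*} [AddCommGroup G]

/-- the sum over the image of a cube is an iterated derivative -/
lemma cube_sum {v : (ι → F2) → G} (hv : ∀ c c', v (c + c') = v c + v c') (F : G → F2) (z : G) :
    ∑ c, F (z + v c) = DT (fun k => v (bs k)) univ F z := by
  rw [DT, powerset_univ, ← cubeEquiv.sum_comp]
  exact sum_congr rfl fun S _ => congrArg (fun y => F (z + y)) (map_sum (AddMonoidHom.mk' v hv) bs S)

lemma cube_zero {v : (ι → F2) → G} (hv : ∀ c c', v (c + c') = v c + v c') {U : Set G} {n : ℕ}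
    {F : G → F2} (hU : ∀ k, v (bs k) ∈ U) (h : Lo U n F) (e : n ≤ Fintype.card ι) (z : G) :
    ∑ c, F (z + v c) = 0 := by
  rw [cube_sum hv, h.dt_zero (fun k _ => hU k) e]; rfl

lemma lo_univ {n : ℕ} {F : (ι → F2) → F2} (h : Lo (Set.range bs) n F) : Lo Set.univ n F :=
  h.closure.anti fun z _ => by
    rw [← sum_supp z]
    exact sum_mem fun k _ => AddSubmonoid.subset_closure ⟨k, rfl⟩

lemma eq_zero_of_coef {F : (ι → F2) → F2} (h : ∀ T, DT bs T F 0 = 0) : F = 0 := by
  have key : ∀ S : Finset ι, F (∑ k ∈ S, bs k) = 0 := by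
    intro S
    induction S using Finset.strongInduction with
    | H S ih =>
      have := h S
      rwa [DT, sum_eq_single_of_mem S (mem_powerset_self S) fun S' hS' e => by
        rw [zero_add, ih S' (lt_of_le_of_ne (mem_powerset.1 hS') e)], zero_add] at this
  funext z
  rw [← sum_supp z, key]; rfl

lemma lo_of_coef {n : ℕ} {F : (ι → F2) → F2} (h : ∀ T : Finset ι, n ≤ T.card → DT bs T F 0 = 0) :
    Lo Set.univ n F := by
  refine lo_univ (lo_of_DT bs_two fun T hT => eq_zero_of_coef fun S => ?_)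
  by_cases d : Disjoint S T
  · rw [← DT_union bs d]
    exact h _ (hT ▸ card_le_card subset_union_right)
  · obtain ⟨k, hk, hk'⟩ := not_disjoint_iff.1 d
    rw [← insert_erase hk, DT_insert bs (notMem_erase k S), ← DT_Dv, Dv_DT_mem bs_two hk', DT_zero]
    rfl

lemma lo_top (F : (ι → F2) → F2) : Lo Set.univ (Fintype.card ι + 1) F :=
  lo_of_coef fun T hT => absurd (card_le_univ T) (by omega)

lemma rank_le {E E' : Type*} [AddCommGroup E] [Module F2 E] [AddCommGroup E'] [Module F2 E']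
    [FiniteDimensional F2 E] [FiniteDimensional F2 E'] (φ : E →ₗ[F2] E') (A B : Submodule F2 E)
    (C : Submodule F2 E') (h1 : ∀ x ∈ A, φ x ∈ C) (h2 : ∀ x ∈ A, φ x = 0 → x ∈ B) :
    finrank F2 A ≤ finrank F2 B + finrank F2 C := by
  have := LinearMap.finrank_range_add_finrank_ker (φ.domRestrict A)
  have a : finrank F2 (LinearMap.range (φ.domRestrict A)) ≤ finrank F2 C :=
    Submodule.finrank_mono (by rintro _ ⟨x, rfl⟩; exact h1 x x.2)
  have b : finrank F2 (LinearMap.ker (φ.domRestrict A)) ≤ finrank F2 B := by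
    rw [← Submodule.finrank_map_subtype_eq A]
    exact Submodule.finrank_mono (by rintro _ ⟨x, hx, rfl⟩; exact h2 x x.2 hx)
  omega

/-- some of the coefficients of a function -/
def coefL (P : Finset ι → Prop) : ((ι → F2) → F2) →ₗ[F2] ({T // P T} → F2) where
  toFun F T := DT bs T.1 F 0
  map_add' F F' := funext fun T => congrFun (DT_add bs T.1 F F') 0
  map_smul' c F := funext fun T => congrFun (DT_smul bs T.1 c F) 0

lemma rank_lo_le (n : ℕ) : finrank F2 (LoS (Set.univ : Set (ι → F2)) n) ≤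
    (univ.filter fun T : Finset ι => T.card < n).card := by
  have := rank_le (coefL fun T : Finset ι => T.card < n) (LoS Set.univ n) ⊥ ⊤ (fun _ _ => trivial)
    fun F hF h => eq_zero_of_coef fun T => by
      by_cases e : T.card < n
      · exact congrFun h ⟨T, e⟩
      · rw [Lo.dt_zero (U := Set.univ) (fun _ _ => trivial) hF (not_lt.1 e)]; rfl
  rwa [finrank_bot, zero_add, finrank_top, finrank_fintype_fun_eq_card, Fintype.card_subtype] at this

lemma le_rank_lo (n : ℕ) : (univ.filter fun T : Finset ι => T.card < n).card ≤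
    finrank F2 (LoS (Set.univ : Set (ι → F2)) n) := by
  have := rank_le (coefL fun T : Finset ι => ¬ T.card < n) ⊤ (LoS Set.univ n) ⊤ (fun _ _ => trivial)
    fun F _ h => lo_of_coef fun T e => congrFun h ⟨T, not_lt.2 e⟩
  rw [finrank_top, finrank_top, finrank_fintype_fun_eq_card, finrank_fintype_fun_eq_card,
    Fintype.card_subtype, ← Fintype.card_congr (cubeEquiv (ι := ι)), ← card_univ,
    ← card_filter_add_card_filter_not fun T : Finset ι => T.card < n] at this
  omega

/-- the functions killed by a list of second derivatives -/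
def NS (l : List (G × G)) : Submodule F2 (G → F2) where
  carrier := {F | ∀ r ∈ l, Dv r.1 (Dv r.2 F) = 0}
  add_mem' h h' r hr := by rw [Dv_add, Dv_add, h r hr, h' r hr, add_zero]
  zero_mem' r _ := by rw [Dv_zero, Dv_zero]
  smul_mem' c _ h r hr := by rw [Dv_smul, Dv_smul, h r hr, smul_zero]

lemma NS_dv {l : List (G × G)} {F : G → F2} (h : F ∈ NS l) (u : G) : Dv u F ∈ NS l :=
  fun r hr => by rw [Dv_comm r.2, Dv_comm r.1, h r hr, Dv_zero]

/-- the dimension of the part of degree less than `n` -/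
noncomputable def dm (l : List ((ι → F2) × (ι → F2))) (n : ℕ) : ℕ :=
  finrank F2 (NS l ⊓ LoS Set.univ n : Submodule F2 ((ι → F2) → F2))

lemma dm_zero (l : List ((ι → F2) × (ι → F2))) : dm l 0 = 0 :=
  Submodule.finrank_eq_zero.2 (eq_bot_iff.2 fun F hF => Lo.eq0 (U := Set.univ) hF.2)

lemma dm_cons (r : (ι → F2) × (ι → F2)) (l : List ((ι → F2) × (ι → F2))) (n : ℕ) :
    dm l n ≤ dm (r :: l) n + dm (r :: l) (n - 2) := by
  refine rank_le (DvL r.1 ∘ₗ DvL r.2) _ _ _ (fun F hF => ⟨?_, ?_⟩) fun F hF h => ⟨?_, hF.2⟩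
  · refine List.forall_mem_cons.2 ⟨?_, NS_dv (NS_dv hF.1 _) _⟩
    show Dv r.1 (Dv r.2 (Dv r.1 (Dv r.2 F))) = 0
    rw [Dv_comm r.2, Dv_Dv (a := r.1) (funext fun _ => two _)]
  · show Lo Set.univ (n - 2) (Dv r.1 (Dv r.2 F))
    have h2 : Lo Set.univ (n - 2 + 2) F := Lo.mono hF.2 (by omega)
    exact h2 _ trivial _ trivial
  · exact List.forall_mem_cons.2 ⟨h, hF.1⟩

/-- the generating polynomial -/
noncomputable def gen (t : ℝ) (l : List ((ι → F2) × (ι → F2))) : ℝ :=
  ∑ n ∈ range (Fintype.card ι + 2), t ^ n * dm l n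

lemma gen_cons {t : ℝ} (ht : 0 ≤ t) (r : (ι → F2) × (ι → F2)) (l : List ((ι → F2) × (ι → F2))) :
    gen t l ≤ (1 + t ^ 2) * gen t (r :: l) := by
  have h1 : gen t l ≤ gen t (r :: l) +
      ∑ n ∈ range (Fintype.card ι + 2), t ^ n * dm (r :: l) (n - 2) := by
    rw [gen, gen, ← sum_add_distrib]
    refine sum_le_sum fun n _ => ?_
    rw [← mul_add]
    exact mul_le_mul_of_nonneg_left (by exact_mod_cast dm_cons r l n) (pow_nonneg ht n)
  have h2 : ∑ n ∈ range (Fintype.card ι + 2), t ^ n * dm (r :: l) (n - 2) ≤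
      t ^ 2 * gen t (r :: l) := by
    rw [sum_range_succ', sum_range_succ', gen, mul_sum]
    simp only [Nat.reduceSubDiff, Nat.zero_sub, zero_add, dm_zero, Nat.cast_zero, mul_zero, add_zero,
      show ∀ n, n + 1 + 1 - 2 = n from fun n => rfl, show 1 - 2 = 0 from rfl]
    refine (sum_le_sum fun n _ => le_of_eq ?_).trans
      (sum_le_sum_of_subset_of_nonneg (range_subset_range.2 (Nat.le_add_right _ 2))
        fun n _ _ => by positivity)
    ring
  linarith

lemma gen_nil_le {t : ℝ} (ht : 0 ≤ t) (l : List ((ι → F2) × (ι → F2))) :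
    gen t ([] : List ((ι → F2) × (ι → F2))) ≤ (1 + t ^ 2) ^ l.length * gen t l := by
  induction l with
  | nil => simp
  | cons r l ih =>
    rw [List.length_cons, pow_succ, mul_assoc]
    exact ih.trans (mul_le_mul_of_nonneg_left (gen_cons ht r l) (by positivity))

lemma sum_pow_card (t : ℝ) : ∑ T : Finset ι, t ^ T.card = (1 + t) ^ Fintype.card ι := by
  rw [add_comm, ← Fintype.sum_pow_mul_eq_add_pow]
  simp

lemma sum_swap (t : ℝ) (N : ℕ) (g : ℕ → ℕ) :
    ∑ n ∈ range N, t ^ n * ((univ.filter fun T : Finset ι => T.card < g n).card : ℝ) =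
      ∑ T : Finset ι, ∑ n ∈ range N, if T.card < g n then t ^ n else 0 := by
  rw [sum_comm]
  refine sum_congr rfl fun n _ => ?_
  rw [← sum_filter, sum_const, nsmul_eq_mul, mul_comm]

lemma le_gen_nil {t : ℝ} (ht : 0 ≤ t) :
    t * (1 + t) ^ Fintype.card ι ≤ gen t ([] : List ((ι → F2) × (ι → F2))) := by
  have : ∑ n ∈ range (Fintype.card ι + 2),
      t ^ n * ((univ.filter fun T : Finset ι => T.card < n).card : ℝ) ≤
      gen t ([] : List ((ι → F2) × (ι → F2))) := by
    refine sum_le_sum fun n _ => mul_le_mul_of_nonneg_left ?_ (pow_nonneg ht n)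
    have e : NS ([] : List ((ι → F2) × (ι → F2))) = ⊤ := eq_top_iff.2 fun F _ r hr => nomatch hr
    rw [dm, e, top_inf_eq]
    exact_mod_cast le_rank_lo n
  refine le_trans ?_ this
  rw [sum_swap t _ fun n => n, ← sum_pow_card, mul_sum]
  refine sum_le_sum fun T _ => ?_
  refine le_trans (le_of_eq ?_) (single_le_sum (a := T.card + 1) (fun n _ => by positivity)
    (mem_range.2 (by have := card_le_univ T; omega)))
  rw [if_pos (Nat.lt_succ_self _), pow_succ']

lemma gen_le {t : ℝ} (ht : 0 < t) (ht' : t ≤ 1 / 2) {l : List ((ι → F2) × (ι → F2))} {a : ℕ}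
    (h : ∀ F ∈ NS l, Lo Set.univ (a + 1) F) :
    gen t l ≤ t * (2 ^ (a + 1) * (1 + t / 2) ^ Fintype.card ι) := by
  have : gen t l ≤ ∑ n ∈ range (Fintype.card ι + 2),
      t ^ n * ((univ.filter fun T : Finset ι => T.card < min n (a + 1)).card : ℝ) := by
    refine sum_le_sum fun n _ => mul_le_mul_of_nonneg_left ?_ (pow_nonneg ht.le n)
    have : dm l n ≤ finrank F2 (LoS (Set.univ : Set (ι → F2)) (min n (a + 1))) :=
      Submodule.finrank_mono fun F hF => by
        rcases min_choice n (a + 1) with e | e <;> rw [e]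
        exacts [hF.2, h F hF.1]
    exact_mod_cast this.trans (rank_lo_le _)
  refine this.trans ?_
  rw [sum_swap, ← sum_pow_card, mul_sum, mul_sum]
  refine sum_le_sum fun T _ => ?_
  by_cases e : T.card ≤ a
  · have h1 : ∑ n ∈ range (Fintype.card ι + 2), (if T.card < min n (a + 1) then t ^ n else 0) ≤
        ∑ n ∈ Ico (T.card + 1) (Fintype.card ι + 2), t ^ n := by
      rw [← sum_filter]
      refine sum_le_sum_of_subset_of_nonneg (fun n hn => ?_) fun n _ _ => by positivity
      simp only [mem_filter, mem_range, mem_Ico, lt_min_iff] at hn ⊢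
      omega
    refine h1.trans ((geom_sum_Ico_le_of_lt_one ht.le (by linarith)).trans ?_)
    rw [div_le_iff₀ (by linarith), div_pow, pow_succ']
    have h2 : (2 : ℝ) ^ T.card ≤ 2 ^ a := pow_le_pow_right₀ one_le_two e
    have h3 : t ^ T.card ≤ 2 ^ a * (t ^ T.card / 2 ^ T.card) := by
      rw [← mul_div_assoc, le_div_iff₀ (by positivity), mul_comm]
      exact mul_le_mul_of_nonneg_right h2 (by positivity)
    have h4 : 0 ≤ 2 ^ a * (t ^ T.card / 2 ^ T.card) := by positivity
    rw [pow_succ 2 a, mul_assoc t]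
    refine mul_le_mul_of_nonneg_left (h3.trans ?_) ht.le
    nlinarith
  · rw [sum_eq_zero fun n _ => if_neg (by rw [lt_min_iff]; omega)]
    positivity

lemma numeric {μ M p a : ℕ} (hμ : 0 < μ) (hM : M ≤ μ * p) (hp : 48 * μ * (a + 2) ≤ p) {t : ℝ}
    (e : 8 * μ * t = 1) :
    (1 + t ^ 2) ^ M * (2 ^ (a + 1) * (1 + t / 2) ^ p) < (1 + t) ^ p := by
  have m1 : (1 : ℝ) ≤ μ := by exact_mod_cast hμ
  have t0 : 0 < t := by by_contra h; nlinarith
  have t1 : t ≤ 1 / 8 := by nlinarith
  have b1 : 1 + (μ : ℝ) * (-t ^ 2) ≤ (1 + -t ^ 2) ^ μ := one_add_mul_le_pow (by nlinarith) μ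
  have b2 : (1 + t ^ 2) ^ μ * (1 + -t ^ 2) ^ μ ≤ 1 := by
    rw [← mul_pow]
    exact pow_le_one₀ (mul_nonneg (by positivity) (by nlinarith)) (by nlinarith [sq_nonneg (t ^ 2)])
  have b3 : (1 + t ^ 2) ^ μ ≤ 1 + t / 7 := by
    have x0 : 0 ≤ (1 + t ^ 2) ^ μ := by positivity
    have e2 : (μ : ℝ) * (-t ^ 2) = -t / 8 := by linear_combination (-t / 8) * e
    rw [e2] at b1
    have := (mul_le_mul_of_nonneg_left b1 x0).trans b2
    by_contra h
    nlinarith [mul_lt_mul_of_pos_right (not_le.1 h) (show 0 < 1 + -t / 8 by linarith)]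
  have b4 : (1 + t ^ 2) ^ M ≤ (1 + t / 7) ^ p :=
    (pow_le_pow_right₀ (by nlinarith) hM).trans
      (by rw [pow_mul]; exact pow_le_pow_left₀ (by positivity) b3 p)
  have b5 : (2 : ℝ) ≤ (1 + t / 4) ^ (48 * μ) :=
    le_trans (by push_cast; nlinarith) (one_add_mul_le_pow (by linarith) (48 * μ))
  have b6 : (2 : ℝ) ^ (a + 1) < (1 + t / 4) ^ p :=
    (pow_lt_pow_right₀ one_lt_two (Nat.lt_succ_self _)).trans_le
      ((pow_le_pow_left₀ zero_le_two b5 _).trans
        (by rw [← pow_mul]; exact pow_le_pow_right₀ (by linarith) hp))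
  calc (1 + t ^ 2) ^ M * (2 ^ (a + 1) * (1 + t / 2) ^ p)
      ≤ (1 + t / 7) ^ p * (2 ^ (a + 1) * (1 + t / 2) ^ p) :=
        mul_le_mul_of_nonneg_right b4 (by positivity)
    _ < (1 + t / 7) ^ p * ((1 + t / 4) ^ p * (1 + t / 2) ^ p) :=
        mul_lt_mul_of_pos_left (mul_lt_mul_of_pos_right b6 (by positivity)) (by positivity)
    _ ≤ (1 + t) ^ p := by
        rw [← mul_pow, ← mul_pow]
        exact pow_le_pow_left₀ (by positivity) (by nlinarith [mul_pos t0 t0]) p

lemma exists_high {μ a : ℕ} (hμ : 0 < μ) (l : List ((ι → F2) × (ι → F2)))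
    (hl : l.length ≤ μ * Fintype.card ι) (hp : 48 * μ * (a + 2) ≤ Fintype.card ι) :
    ∃ F ∈ NS l, ¬ Lo Set.univ (a + 1) F := by
  by_contra! h
  have m1 : (1 : ℝ) ≤ μ := by exact_mod_cast hμ
  obtain ⟨t, e⟩ : ∃ t : ℝ, 8 * μ * t = 1 := ⟨1 / (8 * μ), by field_simp⟩
  have t0 : 0 < t := by by_contra h; nlinarith
  have t1 : t ≤ 1 / 2 := by nlinarith
  have h1 := (le_gen_nil t0.le).trans ((gen_nil_le t0.le l).trans
    (mul_le_mul_of_nonneg_left (gen_le t0 t1 h) (by positivity)))
  rw [mul_left_comm] at h1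
  exact absurd (le_of_mul_le_mul_left h1 t0) (not_le.2 (numeric hμ hl hp e))

lemma eq_one_of_lo {F : G → F2} (h : Lo Set.univ 1 F) (h0 : F ≠ 0) : F = 1 := by
  have c : ∀ z, F z = F 0 := fun z => by
    have := congrFun (h z trivial).eq0 0
    rw [Dv_apply, zero_add, Pi.zero_apply] at this
    linear_combination (exp := 1) this - two (F 0)
  funext z
  have : F 0 ≠ 0 := fun e => h0 (funext fun y => (c y).trans e)
  rw [c z]
  revert this
  generalize F 0 = x
  revert x
  show ∀ x : F2, x ≠ 0 → x = 1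
  decide

/-- **The dimension count**: linearly many quadratic relations leave a function of linear degree. -/
theorem gs {μ a : ℕ} (hμ : 0 < μ) (l : List ((ι → F2) × (ι → F2)))
    (hl : l.length ≤ μ * Fintype.card ι) (hp : 48 * μ * (a + 2) ≤ Fintype.card ι) :
    ∃ (f : (ι → F2) → F2) (T : Finset ι), (∀ r ∈ l, Dv r.1 (Dv r.2 f) = 0) ∧
      Lo Set.univ (a + 1) f ∧ T.card = a ∧ DT bs T f = 1 := by
  have key : ∀ (n : ℕ), ∀ F ∈ NS l, Lo Set.univ (a + n) F → ¬ Lo Set.univ a F →
      ∃ f ∈ NS l, Lo Set.univ (a + 1) f ∧ ¬ Lo Set.univ a f := by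
    intro n
    induction n with
    | zero => exact fun F _ h h' => absurd h h'
    | succ n ih =>
      intro F hF h h'
      by_cases e : Lo Set.univ (a + 1) F
      · exact ⟨F, hF, e, h'⟩
      · obtain ⟨u, hu⟩ := not_forall.1 e
        exact ih _ (NS_dv hF u) (h u trivial) fun x => hu fun _ => x
  obtain ⟨F, hF, h⟩ := exists_high hμ l hl hp
  obtain ⟨f, hf, h1, h2⟩ := key _ F hF ((lo_top F).mono (Nat.le_add_left _ _)) fun x => h x.succ
  obtain ⟨T, hT⟩ := not_forall.1 fun x => h2 (lo_univ (lo_of_DT bs_two x))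
  obtain ⟨c, hT⟩ := Classical.not_imp.1 hT
  exact ⟨f, T, hf, h1, c, eq_one_of_lo (Lo.dt (fun _ _ => trivial) (by rwa [c, add_comm])) hT⟩

end cube

end Vale.Agent.P318B.Dg
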