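import Mathlib.FieldTheory.Finite.GaloisField
import Mathlib.FieldTheory.PrimitiveElement
import Mathlib.Analysis.SpecialFunctions.Trigonometric.Series
import Mathlib.Algebra.Order.BigOperators.Expect
import Mathlib.LinearAlgebra.Dual.Lemmas

/-!
# P318B / Bias : seeds whose rotations have small bias
-/

namespace Vale.Agent.P318B.Bs

open Finset
open scoped BigOperators

/-- averages are preserved by surjective homomorphisms -/
theorem expect_comp_surj {A B : Type*} [AddCommGroup A] [AddCommGroup B] [Fintype A] [Fintype B]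
    (L : A →+ B) (hL : Function.Surjective L) (f : B → ℝ) : 𝔼 a, f (L a) = 𝔼 b, f b := by
  have h1 : ∀ b : B, 𝔼 a, f (L a) = 𝔼 a, f (L a + b) := fun b => by
    obtain ⟨a0, rfl⟩ := hL b
    exact (Fintype.expect_equiv (Equiv.addRight a0) _ _ fun a => by simp).symm
  have h2 : ∀ a : A, 𝔼 b, f (L a + b) = 𝔼 b, f b := fun a =>
    Fintype.expect_equiv (Equiv.addLeft (L a)) _ _ fun b => by simp
  calc 𝔼 a, f (L a) = 𝔼 _b : B, 𝔼 a, f (L a) := (Fintype.expect_const _).symm
    _ = 𝔼 b : B, 𝔼 a, f (L a + b) := expect_congr rfl fun b _ => h1 b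
    _ = 𝔼 a, 𝔼 b : B, f (L a + b) := expect_comm _ _ _
    _ = 𝔼 _a : A, 𝔼 b, f b := expect_congr rfl fun a _ => h2 a
    _ = 𝔼 b, f b := Fintype.expect_const _

section moment

variable {sg : ZMod 2 → ℝ}

theorem moment (h0 : sg 0 = 1) (h1 : sg 1 = -1) {ι : Type*} [Fintype ι] [DecidableEq ι] (t : ℝ) :
    𝔼 x : ι → ZMod 2, Real.exp (t * ∑ e, sg (x e)) ≤ Real.exp (t ^ 2 * Fintype.card ι / 2) := by
  have e1 : ∑ a : ZMod 2, Real.exp (t * sg a) = 2 * Real.cosh t := by
    change ∑ a : Fin 2, Real.exp (t * sg a) = _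
    rw [Fin.sum_univ_two]
    change Real.exp (t * sg 0) + Real.exp (t * sg 1) = _
    rw [h0, h1, Real.cosh_eq, mul_one, mul_neg_one]
    ring
  have e2 : ∑ x : ι → ZMod 2, Real.exp (t * ∑ e, sg (x e))
      = (2 * Real.cosh t) ^ Fintype.card ι := by
    simp only [mul_sum, Real.exp_sum]
    rw [← Fintype.piFinset_univ, ← prod_univ_sum (fun _ => univ)
      fun (_ : ι) a => Real.exp (t * sg a)]
    simp only [e1, prod_const, card_univ]
  rw [Fintype.expect_eq_sum_div_card, e2, Fintype.card_fun, ZMod.card, mul_pow]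
  push_cast
  rw [mul_div_cancel_left₀ _ (by positivity)]
  calc Real.cosh t ^ Fintype.card ι ≤ Real.exp (t ^ 2 / 2) ^ Fintype.card ι :=
        pow_le_pow_left₀ (Real.cosh_pos t).le (Real.cosh_le_exp_half_sq t) _
    _ = _ := by rw [← Real.exp_nat_mul]; congr 1; ring

/-- a finite family of surjections has a common point of small bias -/
theorem exists_small (h0 : sg 0 = 1) (h1 : sg 1 = -1) {ι A T : Type*} [Fintype ι]
    [AddCommGroup A] [Finite A] [Fintype T] (L : T → A →+ (ι → ZMod 2))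
    (hL : ∀ τ, Function.Surjective (L τ)) {lam : ℝ} (hl : 0 < lam)
    (hT : (Fintype.card T : ℝ) ≤ Real.exp (lam ^ 2 * Fintype.card ι / 2)) :
    ∃ r : A, ∀ τ, 𝔼 e, sg (L τ r e) ≤ lam := by
  classical
  have := Fintype.ofFinite A
  have h2 : 𝔼 r : A, ∑ τ, Real.exp (lam * ∑ e, sg (L τ r e))
      ≤ Real.exp (lam ^ 2 * Fintype.card ι) := by
    rw [expect_sum_comm]
    calc ∑ τ, 𝔼 r : A, Real.exp (lam * ∑ e, sg (L τ r e))
        ≤ ∑ _τ : T, Real.exp (lam ^ 2 * Fintype.card ι / 2) := sum_le_sum fun τ _ => by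
          rw [expect_comp_surj (L τ) (hL τ) fun x => Real.exp (lam * ∑ e, sg (x e))]
          exact moment h0 h1 lam
      _ = Fintype.card T * Real.exp (lam ^ 2 * Fintype.card ι / 2) := by
          rw [sum_const, card_univ, nsmul_eq_mul]
      _ ≤ Real.exp (lam ^ 2 * Fintype.card ι / 2) * Real.exp (lam ^ 2 * Fintype.card ι / 2) :=
          mul_le_mul_of_nonneg_right hT (Real.exp_pos _).le
      _ = _ := by rw [← Real.exp_add]; congr 1; ring
  obtain ⟨r, -, hr⟩ := exists_le_of_expect_le univ_nonempty h2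
  refine ⟨r, fun τ => ?_⟩
  have h3 : lam * ∑ e, sg (L τ r e) ≤ lam ^ 2 * Fintype.card ι :=
    Real.exp_le_exp.1 ((single_le_sum (f := fun τ => Real.exp (lam * ∑ e, sg (L τ r e)))
      (fun _ _ => (Real.exp_pos _).le) (mem_univ τ)).trans hr)
  rw [Fintype.expect_eq_sum_div_card]
  rcases Nat.eq_zero_or_pos (Fintype.card ι) with h | h
  · rw [h, Nat.cast_zero, div_zero]
    exact hl.le
  · rw [div_le_iff₀ (by exact_mod_cast h)]
    refine le_of_mul_le_mul_left ?_ hl
    calc _ ≤ _ := h3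
      _ = _ := by ring

end moment

section fld

variable {G : Type*} [AddCommGroup G] [Module (ZMod 2) G]

/-- every nonzero polynomial of degree `< p` in `th` is surjective -/
def Fld (th : G →ₗ[ZMod 2] G) (p : ℕ) : Prop :=
  ∀ a : Fin p → ZMod 2, a ≠ 0 → ∀ y : G, ∃ x, ∑ i, a i • (th ^ (i : ℕ)) x = y

theorem Fld.surj {th : G →ₗ[ZMod 2] G} {p : ℕ} (h : Fld th p) {φ : G →ₗ[ZMod 2] ZMod 2}
    (hφ : φ ≠ 0) (x : Fin p → ZMod 2) : ∃ g, ∀ i : Fin p, φ ((th ^ (i : ℕ)) g) = x i := by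
  let L : G →ₗ[ZMod 2] (Fin p → ZMod 2) := LinearMap.pi fun i => φ ∘ₗ (th ^ (i : ℕ))
  have hL : LinearMap.range L = ⊤ := by
    by_contra h1
    obtain ⟨ψ, h2, h3⟩ := Submodule.exists_le_ker_of_lt_top _ (lt_top_iff_ne_top.2 h1)
    have h4 : ∀ y : Fin p → ZMod 2, ψ y = ∑ i, ψ (Pi.single i 1) * y i := fun y => by
      conv_lhs => rw [pi_eq_sum_univ' y, map_sum]
      exact sum_congr rfl fun i _ => by rw [map_smul, smul_eq_mul, mul_comm]
    have h5 : (fun i => ψ (Pi.single i 1)) ≠ 0 := fun h5 => h2 (LinearMap.ext fun y => by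
      rw [h4]
      exact sum_eq_zero fun i _ => by rw [congrFun h5 i]; simp)
    refine hφ (LinearMap.ext fun y => ?_)
    obtain ⟨g, rfl⟩ := h _ h5 y
    have h6 : ψ (L g) = 0 := h3 ⟨g, rfl⟩
    rw [h4] at h6
    rw [map_sum]
    simpa [L] using h6
  obtain ⟨g, hg⟩ := LinearMap.range_eq_top.1 hL x
  exact ⟨g, fun i => congrFun hg i⟩

/-- the diagonal map on a power -/
def diag (n : Type*) (th : G →ₗ[ZMod 2] G) : (n → G) →ₗ[ZMod 2] (n → G) :=
  LinearMap.pi fun k => th ∘ₗ LinearMap.proj k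

@[simp] theorem diag_apply {n : Type*} (th : G →ₗ[ZMod 2] G) (x : n → G) (k : n) :
    diag n th x k = th (x k) := rfl

theorem diag_pow_apply {n : Type*} (th : G →ₗ[ZMod 2] G) (i : ℕ) (x : n → G) (k : n) :
    (diag n th ^ i) x k = (th ^ i) (x k) := by
  induction i with
  | zero => rfl
  | succ i ih => rw [pow_succ', pow_succ', Module.End.mul_apply, Module.End.mul_apply,
      diag_apply, ih]

/-- any map which acts as `th` on every coordinate -/
theorem Fld.pi' {n : Type*} {th : G →ₗ[ZMod 2] G} {p : ℕ} (h : Fld th p)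
    {Th : (n → G) →ₗ[ZMod 2] (n → G)} (hT : ∀ x k, Th x k = th (x k)) : Fld Th p := by
  obtain rfl : Th = diag n th := LinearMap.ext fun x => funext fun k => hT x k
  intro a ha y
  choose x hx using fun k => h a ha (y k)
  refine ⟨x, funext fun k => ?_⟩
  rw [← hx k, Finset.sum_apply]
  exact sum_congr rfl fun i _ => by rw [Pi.smul_apply, diag_pow_apply]

theorem Fld.pi {n : Type*} {th : G →ₗ[ZMod 2] G} {p : ℕ} (h : Fld th p) : Fld (diag n th) p :=
  h.pi' fun _ _ => rfl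

/-- **Seeds with small bias.** -/
theorem exists_seeds {sg : ZMod 2 → ℝ} (h0 : sg 0 = 1) (h1 : sg 1 = -1) [Fintype G]
    {th : G →ₗ[ZMod 2] G} {p : ℕ} (h : Fld th p) (J E0 : Type*) [Fintype J] [Fintype E0]
    {lam : ℝ} (hl : 0 < lam)
    (hc : (2 : ℝ) ^ Fintype.card J * Fintype.card G ≤
      Real.exp (lam ^ 2 * (Fintype.card E0 * p) / 2)) :
    ∃ r : E0 → J → G, ∀ c : J → ZMod 2, c ≠ 0 → ∀ φ : G →ₗ[ZMod 2] ZMod 2, φ ≠ 0 →
      𝔼 e : E0 × Fin p, sg (φ (∑ j, c j • (th ^ (e.2 : ℕ)) (r e.1 j))) ≤ lam := by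
  classical
  have : Finite (G →ₗ[ZMod 2] ZMod 2) := Finite.of_injective _ DFunLike.coe_injective
  have := Fintype.ofFinite (G →ₗ[ZMod 2] ZMod 2)
  have hd : Fintype.card (G →ₗ[ZMod 2] ZMod 2) = Fintype.card G :=
    (Fintype.card_congr (Module.finBasis (ZMod 2) G).toDualEquiv.toEquiv).symm
  let T := {τ : (J → ZMod 2) × (G →ₗ[ZMod 2] ZMod 2) // τ.1 ≠ 0 ∧ τ.2 ≠ 0}
  let L : T → (E0 → J → G) →+ (E0 × Fin p → ZMod 2) := fun τ =>
    { toFun := fun r e => τ.1.2 (∑ j, τ.1.1 j • (th ^ (e.2 : ℕ)) (r e.1 j))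
      map_zero' := by
        funext e
        simp
      map_add' := fun r r' => by
        funext e
        simp [sum_add_distrib] }
  have hs : ∀ τ, Function.Surjective (L τ) := fun τ x => by
    obtain ⟨j0, hj⟩ := Function.ne_iff.1 τ.2.1
    have hj1 : τ.1.1 j0 = 1 := by
      have h2 : ∀ a : ZMod 2, a ≠ 0 → a = 1 := by decide
      exact h2 _ hj
    choose g hg using fun e0 => h.surj τ.2.2 fun i => x (e0, i)
    refine ⟨fun e0 => Pi.single j0 (g e0), funext fun e => ?_⟩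
    change τ.1.2 (∑ j, τ.1.1 j • (th ^ (e.2 : ℕ)) ((Pi.single j0 (g e.1) : J → G) j)) = _
    rw [sum_eq_single j0 (fun j _ hj => by rw [Pi.single_eq_of_ne hj, map_zero, smul_zero])
      (fun hj => absurd (mem_univ _) hj), hj1, one_smul, Pi.single_eq_same, hg]
  have h2 : Fintype.card T ≤ 2 ^ Fintype.card J * Fintype.card G := by
    refine (Fintype.card_subtype_le _).trans ?_
    rw [Fintype.card_prod, hd, Fintype.card_fun, ZMod.card]
  obtain ⟨r, hr⟩ := exists_small h0 h1 L hs hl (by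
    rw [Fintype.card_prod, Fintype.card_fin, Nat.cast_mul]
    exact le_trans (by exact_mod_cast h2) hc)
  exact ⟨r, fun c hc φ hφ => hr ⟨(c, φ), hc, hφ⟩⟩

end fld

section comp

variable {p : ℕ}

/-- a shift map all of whose nonzero polynomials of degree `< p` are invertible -/
theorem exists_th (hp : 0 < p) : ∃ th : (Fin p → ZMod 2) →ₗ[ZMod 2] (Fin p → ZMod 2),
    (∀ (k : Fin p) (hk : (k : ℕ) + 1 < p), th (Pi.single k 1) = Pi.single ⟨k + 1, hk⟩ 1) ∧
      Fld th p := by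
  classical
  let K := GaloisField 2 p
  let pb : PowerBasis (ZMod 2) K := Field.powerBasisOfFiniteOfSeparable (ZMod 2) K
  have hd : pb.dim = p := by rw [← pb.finrank, GaloisField.finrank 2 hp.ne']
  let b : Module.Basis (Fin p) (ZMod 2) K := pb.basis.reindex (finCongr hd)
  have hb : ∀ k, b k = pb.gen ^ (k : ℕ) := fun k => by simp [b]
  let e := b.equivFun
  have he : ∀ k, e.symm (Pi.single k 1) = pb.gen ^ (k : ℕ) := fun k => by
    rw [← hb, LinearEquiv.symm_apply_eq]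
    funext i
    simp [e, Pi.single_apply, eq_comm]
  let th : (Fin p → ZMod 2) →ₗ[ZMod 2] (Fin p → ZMod 2) :=
    e.toLinearMap ∘ₗ LinearMap.mulLeft (ZMod 2) pb.gen ∘ₗ e.symm.toLinearMap
  have h1 : ∀ x, th x = e (pb.gen * e.symm x) := fun _ => rfl
  have h2 : ∀ (i : ℕ) x, (th ^ i) x = e (pb.gen ^ i * e.symm x) := fun i x => by
    induction i with
    | zero => simp
    | succ i ih => rw [pow_succ', Module.End.mul_apply, ih, h1, e.symm_apply_apply, pow_succ',
        mul_assoc]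
  refine ⟨th, fun k hk => ?_, fun a ha y => ?_⟩
  · rw [h1, he, ← pow_succ', ← LinearEquiv.eq_symm_apply, he]
  · have h3 : e.symm a = ∑ i, a i • pb.gen ^ (i : ℕ) := by
      rw [Module.Basis.equivFun_symm_apply]
      simp only [hb]
    have h4 : e.symm a ≠ 0 := fun h4 => ha (by simpa using h4)
    refine ⟨e ((e.symm a)⁻¹ * e.symm y), ?_⟩
    simp only [h2, e.symm_apply_apply, ← map_smul, ← map_sum, ← smul_mul_assoc, ← sum_mul, ← h3]
    rw [mul_inv_cancel_left₀ h4, e.apply_symm_apply]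

/-- the companion map of `X ^ p + ∑ P k X ^ k` -/
def comp (P : Fin p → ZMod 2) : (Fin p → ZMod 2) →ₗ[ZMod 2] (Fin p → ZMod 2) where
  toFun x k := (if h : 0 < (k : ℕ) then x ⟨k - 1, by omega⟩ else 0) +
    x ⟨p - 1, by have := k.2; omega⟩ * P k
  map_add' x y := by
    funext k
    simp only [Pi.add_apply]
    split_ifs <;> ring
  map_smul' c x := by
    funext k
    simp only [Pi.smul_apply, smul_eq_mul, RingHom.id_apply]
    split_ifs <;> ring

theorem comp_apply (P x : Fin p → ZMod 2) (k : Fin p) :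
    comp P x k = (if h : 0 < (k : ℕ) then x ⟨k - 1, by omega⟩ else 0) +
      x ⟨p - 1, by have := k.2; omega⟩ * P k := rfl

theorem comp_single (P : Fin p → ZMod 2) (k : Fin p) (hk : (k : ℕ) + 1 < p) :
    comp P (Pi.single k 1) = Pi.single ⟨k + 1, hk⟩ 1 := by
  funext i
  rw [comp_apply, Pi.single_eq_of_ne (i := k) (i' := ⟨p - 1, _⟩)
    (fun h => by have := congrArg Fin.val h; simp only at this; omega), zero_mul, add_zero]
  simp only [Pi.single_apply, Fin.ext_iff]
  split_ifs <;> first | rfl | omega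

theorem comp_last (P : Fin p → ZMod 2) (k : Fin p) (hk : (k : ℕ) + 1 = p) :
    comp P (Pi.single k 1) = P := by
  funext i
  have e : (⟨p - 1, by omega⟩ : Fin p) = k := Fin.ext (by simp only; omega)
  rw [comp_apply, e, Pi.single_eq_same, one_mul]
  simp only [Pi.single_apply, Fin.ext_iff]
  have := i.2
  split_ifs <;> first | exact zero_add _ | omega

theorem eq_comp (hp : 0 < p) {th : (Fin p → ZMod 2) →ₗ[ZMod 2] (Fin p → ZMod 2)}
    (h : ∀ (k : Fin p) (hk : (k : ℕ) + 1 < p), th (Pi.single k 1) = Pi.single ⟨k + 1, hk⟩ 1) :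
    th = comp (th (Pi.single ⟨p - 1, by omega⟩ 1)) := by
  refine (Pi.basisFun (ZMod 2) (Fin p)).ext fun k => ?_
  rw [Pi.basisFun_apply]
  rcases Nat.lt_or_ge ((k : ℕ) + 1) p with hk | hk
  · rw [h k hk, comp_single _ k hk]
  · have := k.2
    have e : (⟨p - 1, by omega⟩ : Fin p) = k := Fin.ext (by simp only; omega)
    rw [comp_last _ k (by omega), e]

theorem exists_comp (hp : 0 < p) : ∃ P : Fin p → ZMod 2, Fld (comp P) p := by
  obtain ⟨th, h1, h2⟩ := exists_th hp
  exact ⟨_, eq_comp hp h1 ▸ h2⟩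

theorem two_pow_le_exp (n : ℕ) : (2 : ℝ) ^ n ≤ Real.exp n := by
  rw [← mul_one (n : ℝ), Real.exp_nat_mul]
  exact pow_le_pow_left₀ (by norm_num) (by have := Real.add_one_le_exp 1; linarith) n

/-- **BIAS**: a companion map and seeds in `V ^ n` with small bias -/
theorem exists_bias {sg : ZMod 2 → ℝ} (h0 : sg 0 = 1) (h1 : sg 1 = -1) (hp : 0 < p)
    (n J E0 : Type*) [Fintype n] [Fintype J] [Fintype E0] {lam : ℝ} (hl : 0 < lam)
    (hE : 2 * (Fintype.card J + Fintype.card n : ℝ) ≤ lam ^ 2 * Fintype.card E0) :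
    ∃ (P : Fin p → ZMod 2) (r : E0 → J → n → Fin p → ZMod 2), ∀ c : J → ZMod 2, c ≠ 0 →
      ∀ φ : (n → Fin p → ZMod 2) →ₗ[ZMod 2] ZMod 2, φ ≠ 0 →
        𝔼 e : E0 × Fin p,
          sg (φ (∑ j, c j • (diag n (comp P) ^ (e.2 : ℕ)) (r e.1 j))) ≤ lam := by
  classical
  obtain ⟨P, hP⟩ := exists_comp hp
  refine ⟨P, exists_seeds h0 h1 hP.pi J E0 hl ?_⟩
  rw [Fintype.card_fun, Fintype.card_fun, ZMod.card, Fintype.card_fin]
  push_cast
  rw [← pow_mul, ← pow_add]
  refine (two_pow_le_exp _).trans (Real.exp_le_exp.2 ?_)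
  have h2 : (1 : ℝ) ≤ p := by exact_mod_cast hp
  have h3 : (0 : ℝ) ≤ Fintype.card J := Nat.cast_nonneg _
  push_cast
  nlinarith [mul_le_mul_of_nonneg_right hE (by linarith : (0 : ℝ) ≤ p)]

end comp

end Vale.Agent.P318B.Bs
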