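import Vale.Agent.Lib.Dep.Ring
import Vale.Agent.P318B.Bias

/-!
# P318B / Tl25 : vectors indexed by `Fin n` in the dependent polynomial time layer
-/

namespace Vale.Agent.P318B.Tl

open Vale.Agent.Lib.PolyTime hiding C P
open Vale.Agent.Lib.Dep

instance encVec {n : ℕ} {T : Type} [Enc T] : Enc (Fin n → T) := ⟨fun f => enc (List.ofFn f)⟩

theorem enc_vec {n : ℕ} {T : Type} [Enc T] (f : Fin n → T) : enc f = enc (List.ofFn f) := rfl

instance {n : ℕ} {T : Type} [Enc T] [EncInj T] : EncInj (Fin n → T) :=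
  ⟨fun _ _ h => List.ofFn_injective (EncInj.inj (α := List T) h)⟩

variable {α : Type} [Enc α] {β γ : α → Type} [∀ a, Enc (β a)] [∀ a, Enc (γ a)] {n : α → ℕ}

@[fun_prop]
theorem dpt_ofFn {f : ∀ a, Fin (n a) → β a} (hf : DPT f) : DPT (fun a => List.ofFn (f a)) := hf

@[fun_prop]
theorem dpt_finVal {i : ∀ a, Fin (n a)} (hi : DPT i) : DPT (fun a => (i a : ℕ)) := hi

@[fun_prop]
theorem dpt_finMk {i : α → ℕ} {h : ∀ a, i a < n a} (hi : DPT i) :
    DPT (fun a => (⟨i a, h a⟩ : Fin (n a))) := hi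

theorem pbd_fin {i : ∀ a, Fin (n a)} (hn : PBd n) : PBd (fun a => (i a : ℕ)) :=
  hn.mono fun a => (i a).2.le

theorem dpt_app {f : ∀ a, Fin (n a) → β a} {i : ∀ a, Fin (n a)} (hf : DPT f) (hi : DPT i) :
    DPT (fun a => f a (i a)) :=
  DPT.of_rawPT (PT.getD (dpt_ofFn hf).listPT (dpt_finVal hi).toPT (PT.const (raw ()))) fun a => by
    rw [List.getD_eq_getElem _ _ (by simp)]
    simp

theorem dpt_finRange (hn : DPT n) (hb : PBd n) : DPT (fun a => List.finRange (n a)) :=
  (hn.range hb).of_enc fun a => by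
    rw [← List.map_coe_finRange_eq_range, ← enc_map_raw, ← enc_map_raw (List.finRange _),
      List.map_map]
    rfl

theorem dpt_lam (hn : DPT n) (hb : PBd n) {f : ∀ a, Fin (n a) → β a}
    (hf : DPT (fun q : Σ a, Fin (n a) => f q.1 q.2)) : DPT f :=
  (DPT.map (f := f) (dpt_finRange hn hb) (DPT.comp (f := fun q : Σ a, {x // x ∈ List.finRange (n a)} =>
    (⟨q.1, q.2.1⟩ : Σ a, Fin (n a))) hf (by fun_prop))).of_enc fun a => by
      rw [enc_vec, List.ofFn_eq_map]

/-- all vectors with entries in a list -/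
def allFn {T : Type} (n : ℕ) (l : List T) (d : T) : List (Fin n → T) :=
  (List.range (l.length ^ n)).map fun m i => l.getD (m / l.length ^ (i : ℕ) % l.length) d

theorem mem_allFn {T : Type} {n : ℕ} {l : List T} (d : T) {f : Fin n → T} (h : ∀ i, f i ∈ l) :
    f ∈ allFn n l d := by
  choose g hg using fun i => List.get_of_mem (h i)
  refine List.mem_map.2 ⟨finFunctionFinEquiv g, List.mem_range.2 (finFunctionFinEquiv g).2,
    funext fun i => ?_⟩
  rw [← finFunctionFinEquiv_symm_apply_val, Equiv.symm_apply_apply, List.getD_eq_getElem _ _ (g i).2,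
    ← hg]
  rfl

theorem length_allFn {T : Type} (n : ℕ) (l : List T) (d : T) :
    (allFn n l d).length = l.length ^ n := by simp [allFn]

theorem dpt_allFn (hn : DPT n) (hb : PBd n) {l : ∀ a, List (β a)} {d : ∀ a, β a} (hl : DPT l)
    (hd : DPT d) (hp : PBd fun a => (l a).length ^ n a) : DPT (fun a => allFn (n a) (l a) (d a)) := by
  refine DPT.map (DPT.range (by fun_prop) hp) (dpt_lam (by fun_prop) (by fun_prop) ?_)
  have := pbd_fin (α := Σ q : (Σ a, {x // x ∈ List.range ((l a).length ^ n a)}), Fin (n q.1))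
    (i := fun q => q.2) (by fun_prop)
  fun_prop

theorem dpt_choose {l : ∀ a, List (β a)} (hl : DPT l) {q : ∀ a, β a → Prop}
    (hq : DPr (fun x : Σ a, β a => q x.1 x.2)) (h : ∀ a, ∃ x ∈ l a, q a x) :
    ∃ f : ∀ a, β a, DPT f ∧ ∀ a, q a (f a) := by
  classical
  have h1 : DPT (fun a => (l a).filter fun x => decide (q a x)) :=
    DPT.filter hl (DPT.decide (DPr.comp (f := fun x : Σ a, {y // y ∈ l a} =>
      (⟨x.1, x.2.1⟩ : Σ a, β a)) hq (by fun_prop)))
  have h2 : ∀ a, (l a).filter (fun x => decide (q a x)) ≠ [] := fun a => by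
    obtain ⟨x, hx, hx'⟩ := h a
    exact List.ne_nil_of_mem (List.mem_filter.2 ⟨hx, decide_eq_true hx'⟩)
  refine ⟨fun a => List.head _ (h2 a), ?_, fun a =>
    of_decide_eq_true (List.mem_filter.1 (List.head_mem (h2 a))).2⟩
  have h3 : ∀ {T : Type} [Enc T] (m : List T) (hm : m ≠ []),
      (m.map raw).headD (raw ()) = raw (m.head hm) := fun m hm => by
    cases m with
    | nil => exact absurd rfl hm
    | cons x m => rfl
  exact DPT.of_rawPT (PT.headD h1.listPT (PT.const (raw ()))) fun a => h3 _ _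

/-- application as a function symbol, for `fun_prop` -/
def vget {T : Type} {n : ℕ} (f : Fin n → T) (i : Fin n) : T := f i

@[fun_prop]
theorem dpt_vget {f : ∀ a, Fin (n a) → β a} {i : ∀ a, Fin (n a)} (hf : DPT f) (hi : DPT i) :
    DPT (fun a => vget (f a) (i a)) := dpt_app hf hi

/-- evaluation at a constant index -/
theorem dpt_at {m : ℕ} {f : ∀ a, Fin m → β a} (hf : DPT f) (i : Fin m) : DPT (fun a => f a i) :=
  dpt_app (n := fun _ => m) hf (DPT.const i)

theorem dpt_mapConst {κ : Type} (l : List κ) {f : ∀ a, κ → β a}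
    (hf : ∀ x, DPT (fun a => f a x)) : DPT (fun a => l.map (f a)) := by
  induction l with
  | nil => exact DPT.nil
  | cons x l ih => exact DPT.cons (hf x) ih

/-- vectors of constant length -/
theorem dpt_lamc {m : ℕ} {f : ∀ a, Fin m → β a} (hf : ∀ i, DPT (fun a => f a i)) : DPT f :=
  (dpt_mapConst (List.finRange m) hf).of_enc fun a => by rw [enc_vec, List.ofFn_eq_map]

/-- case distinction over a value in a constant finite type -/
theorem dpt_finCase {κ : Type} [Enc κ] [Finite κ] [EncInj κ] {c : α → κ} (hc : DPT c)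
    {f : ∀ a, κ → β a} (hf : ∀ x, DPT (fun a => f a x)) : DPT (fun a => f a (c a)) :=
  DPT.of_rawPT (PT.finCase (f := fun x a => raw (f a x)) hc.toPT fun x => (hf x).rawPT)
    fun _ => rfl

theorem nodup_allFn {T : Type} (n : ℕ) {l : List T} (hl : l.Nodup) (d : T) :
    (allFn n l d).Nodup := by
  refine List.Nodup.map_on (fun m hm m' hm' h => ?_) List.nodup_range
  rw [List.mem_range] at hm hm'
  have e : ∀ (k : ℕ) (hk : k < l.length ^ n) (i : Fin n),
      l.getD (k / l.length ^ (i : ℕ) % l.length) d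
        = l.get (finFunctionFinEquiv.symm ⟨k, hk⟩ i) := fun k hk i => by
    rw [← finFunctionFinEquiv_symm_apply_val (⟨k, hk⟩ : Fin (l.length ^ n)) i,
      List.getD_eq_getElem _ _ (Fin.is_lt _)]
    rfl
  have h1 : finFunctionFinEquiv.symm (⟨m, hm⟩ : Fin (l.length ^ n))
      = finFunctionFinEquiv.symm ⟨m', hm'⟩ := funext fun i => by
    have h2 := congrFun h i
    simp only [e m hm, e m' hm'] at h2
    exact List.nodup_iff_injective_get.1 hl h2
  exact congrArg Fin.val (finFunctionFinEquiv.symm.injective h1)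

@[fun_prop]
theorem dpt_countP {l : ∀ a, List (γ a)} {f : ∀ a, γ a → Bool} (hl : DPT l)
    (hf : DPT (fun p : Σ a, {x // x ∈ l a} => f p.1 p.2.1)) :
    DPT (fun a => (l a).countP (f a)) :=
  (DPT.filter hl hf).length.congr fun _ => List.countP_eq_length_filter.symm

theorem dpr_forall {l : ∀ a, List (γ a)} (hl : DPT l) (hc : ∀ a x, x ∈ l a) {q : ∀ a, γ a → Prop}
    (hq : DPr (fun p : Σ a, γ a => q p.1 p.2)) : DPr (fun a => ∀ x, q a x) :=
  (DPr.forall_mem (q := q) hl (DPr.comp (f := fun x : Σ a, {y // y ∈ l a} =>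
    (⟨x.1, x.2.1⟩ : Σ a, γ a)) hq (by fun_prop))).congr fun a =>
      ⟨fun h x => h x (hc a x), fun h x _ => h x⟩

theorem dpr_exists {l : ∀ a, List (γ a)} (hl : DPT l) (hc : ∀ a x, x ∈ l a) {q : ∀ a, γ a → Prop}
    (hq : DPr (fun p : Σ a, γ a => q p.1 p.2)) : DPr (fun a => ∃ x, q a x) :=
  (DPr.exists_mem (q := q) hl (DPr.comp (f := fun x : Σ a, {y // y ∈ l a} =>
    (⟨x.1, x.2.1⟩ : Σ a, γ a)) hq (by fun_prop))).congr fun a =>
      ⟨fun ⟨x, _, h⟩ => ⟨x, h⟩, fun ⟨x, h⟩ => ⟨x, hc a x, h⟩⟩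

theorem dpr_forall_fin (hn : DPT n) (hb : PBd n) {q : ∀ a, Fin (n a) → Prop}
    (hq : DPr (fun p : Σ a, Fin (n a) => q p.1 p.2)) : DPr (fun a => ∀ x, q a x) :=
  dpr_forall (dpt_finRange hn hb) (fun _ x => List.mem_finRange x) hq

theorem dpr_forall_const {κ : Type} [Finite κ] {q : α → κ → Prop}
    (hq : ∀ x, DPr (fun a => q a x)) : DPr (fun a => ∀ x, q a x) := by
  classical
  have := Fintype.ofFinite κ
  have h : ∀ s : Finset κ, DPr (fun a => ∀ x ∈ s, q a x) := fun s => by
    induction s using Finset.induction_on with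
    | empty => exact (DPr.const True).congr fun _ => by simp
    | insert x s _ ih => exact ((hq x).and ih).congr fun _ => by simp
  exact (h Finset.univ).congr fun _ => by simp

@[fun_prop]
theorem dpr_imp {p q : α → Prop} (hp : DPr p) (hq : DPr q) : DPr (fun a => p a → q a) :=
  (hp.not.or hq).congr fun _ => imp_iff_not_or.symm

@[fun_prop]
theorem dpr_true {f : α → Bool} (hf : DPT f) : DPr (fun a => f a = true) :=
  DPr.eq hf (DPT.const true)

@[fun_prop]
theorem dpt_update (hn : DPT n) (hb : PBd n) {f : ∀ a, Fin (n a) → β a} {i : ∀ a, Fin (n a)}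
    {x : ∀ a, β a} (hf : DPT f) (hi : DPT i) (hx : DPT x) :
    DPT (fun a => Function.update (f a) (i a) (x a)) := by
  have h : DPT (fun q : Σ a, Fin (n a) => if q.2 = i q.1 then x q.1 else vget (f q.1) q.2) := by
    fun_prop
  exact dpt_lam hn hb (h.congr fun q => by rw [Function.update_apply]; rfl)

/-! ### Families of vector spaces over the field with two elements -/

section PTV

variable [∀ a, AddCommGroup (β a)]

/-- addition and zero are computable, the codes are short -/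
@[fun_prop]
structure PTV (β : α → Type) [∀ a, Enc (β a)] [∀ a, AddCommGroup (β a)] : Prop where
  add : DPT (fun q : Σ a, β a × β a => q.2.1 + q.2.2)
  zero : DPT (fun a => (0 : β a))
  sz : ∃ b, PBd b ∧ ∀ a (x : β a), esize x ≤ b a

@[fun_prop]
theorem dpt_add {f g : ∀ a, β a} (h : PTV β) (hf : DPT f) (hg : DPT g) :
    DPT (fun a => f a + g a) := DPT.app2 (F := fun _ x y => x + y) h.add hf hg

@[fun_prop]
theorem dpt_zero (h : PTV β) : DPT (fun a => (0 : β a)) := h.zero

@[fun_prop]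
theorem PTV.comp {κ : Type} [Enc κ] {c : κ → α} (h : PTV β) (hc : DPT c) :
    PTV (fun x => β (c x)) where
  add := DPT.comp (f := fun p : Σ x, β (c x) × β (c x) => (⟨c p.1, p.2⟩ : Σ a, β a × β a)) h.add
    (DPT.smk (hc.comp DPT.id.sfst) DPT.ssnd)
  zero := h.zero.comp hc
  sz := by
    obtain ⟨b, hb, h'⟩ := h.sz
    exact ⟨_, pbd_comp hb hc, fun a x => h' _ x⟩

@[fun_prop]
theorem PTV.f2 : PTV (fun _ : α => ZMod 2) where
  add := by fun_prop
  zero := DPT.const _
  sz := ⟨fun _ => 2, PBd.const 2, fun _ x =>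
    (esize_nat_le_self x.val).trans (ZMod.val_lt x).le⟩

@[fun_prop]
theorem PTV.pi (hn : DPT n) (hb : PBd n) (h : PTV β) : PTV (fun a => Fin (n a) → β a) where
  add := by
    refine dpt_lam (by fun_prop) (by fun_prop) ?_
    change DPT fun q : Σ q : (Σ a, (Fin (n a) → β a) × (Fin (n a) → β a)), Fin (n q.1) =>
      vget q.1.2.1 q.2 + vget q.1.2.2 q.2
    fun_prop
  zero := dpt_lam hn hb (h.zero.comp DPT.id.sfst)
  sz := by
    obtain ⟨b, hb', h'⟩ := h.sz
    refine ⟨fun a => n a * (2 * b a + 1), by fun_prop, fun a x => ?_⟩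
    have := esize_list_le (l := List.ofFn x) (B := b a) fun y _ => h' a y
    rwa [List.length_ofFn] at this

theorem dpt_foldl_vec {l : ∀ a, List (γ a)} {s : ∀ a, β a} {f : ∀ a, β a → γ a → β a} (h : PTV β)
    (hl : DPT l) (hs : DPT s)
    (hf : DPT (fun p : Σ a, β a × {x // x ∈ l a} => f p.1 p.2.1 p.2.2.1)) :
    DPT (fun a => (l a).foldl (f a) (s a)) := by
  obtain ⟨b, hb, h'⟩ := h.sz
  exact DPT.foldl hl hs hf hb fun a _ => h' a _

theorem dpt_iter {k : α → ℕ} {s : ∀ a, β a} {f : ∀ a, β a → β a} (h : PTV β) (hk : DPT k)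
    (hkb : PBd k) (hs : DPT s) (hf : DPT (fun p : Σ a, β a => f p.1 p.2)) :
    DPT (fun a => (f a)^[k a] (s a)) := by
  obtain ⟨b, hb, h'⟩ := h.sz
  exact DPT.iterate hk hkb hs hf hb fun a _ _ => h' a _

@[fun_prop]
theorem dpt_listSum {l : ∀ a, List (β a)} (h : PTV β) (hl : DPT l) : DPT (fun a => (l a).sum) :=
  (dpt_foldl_vec (f := fun _ u x => u + x) h hl h.zero (by fun_prop)).congr fun _ => by
    rw [List.sum_eq_foldl]

/-- sums over `Fin (n a)` -/
theorem dpt_sum_fin (h : PTV β) (hn : DPT n) (hb : PBd n) {f : ∀ a, Fin (n a) → β a}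
    (hf : DPT (fun q : Σ a, Fin (n a) => f q.1 q.2)) : DPT (fun a => ∑ i, f a i) :=
  (dpt_listSum h (dpt_ofFn (dpt_lam hn hb hf))).congr fun _ => List.sum_ofFn

/-- sums over a type which is enumerated by a list -/
theorem dpt_sum_list (h : PTV β) [∀ a, Fintype (γ a)] {l : ∀ a, List (γ a)} (hl : DPT l)
    (hn : ∀ a, (l a).Nodup) (hc : ∀ a x, x ∈ l a) {f : ∀ a, γ a → β a}
    (hf : DPT (fun q : Σ a, γ a => f q.1 q.2)) : DPT (fun a => ∑ x, f a x) := by
  classical
  refine (dpt_listSum h (DPT.map (f := f) hl (DPT.comp (f := fun x : Σ a, {y // y ∈ l a} =>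
    (⟨x.1, x.2.1⟩ : Σ a, γ a)) hf (by fun_prop)))).congr fun a => ?_
  rw [← List.sum_toFinset _ (hn a)]
  exact Finset.sum_congr (Finset.eq_univ_of_forall fun x => List.mem_toFinset.2 (hc a x))
    fun _ _ => rfl

/-- sums over a constant finite set -/
theorem dpt_sum_const (h : PTV β) {κ : Type} (s : Finset κ) {f : ∀ a, κ → β a}
    (hf : ∀ x, DPT (fun a => f a x)) : DPT (fun a => ∑ x ∈ s, f a x) := by
  classical
  induction s using Finset.induction_on with
  | empty => exact h.zero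
  | insert x s hx ih => exact (dpt_add h (hf x) ih).congr fun _ => (Finset.sum_insert hx).symm

theorem dpt_prod_const {κ : Type} (s : Finset κ) {f : α → κ → ZMod 2}
    (hf : ∀ x, DPT (fun a => f a x)) : DPT (fun a => ∏ x ∈ s, f a x) := by
  classical
  induction s using Finset.induction_on with
  | empty => exact DPT.const (1 : ZMod 2)
  | insert x s hx ih =>
    exact (DPT.mul (by fun_prop) (hf x) ih).congr fun _ => (Finset.prod_insert hx).symm

@[fun_prop]
theorem dpt_single (hn : DPT n) (hb : PBd n) (h : PTV β) {i : ∀ a, Fin (n a)} {x : ∀ a, β a}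
    (hi : DPT i) (hx : DPT x) : DPT (fun a => (Pi.single (i a) (x a) : Fin (n a) → β a)) :=
  dpt_update hn hb (PTV.pi hn hb h).zero hi hx

variable [∀ a, Module (ZMod 2) (β a)]

@[fun_prop]
theorem dpt_smul {c : α → ZMod 2} {f : ∀ a, β a} (h : PTV β) (hc : DPT c) (hf : DPT f) :
    DPT (fun a => c a • f a) := by
  have h1 : DPT (fun a => if c a = 0 then 0 else f a) := by fun_prop
  refine h1.congr fun a => ?_
  have h2 : ∀ x : ZMod 2, x ≠ 0 → x = 1 := by decide
  split_ifs with h0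
  · rw [h0, zero_smul]
  · rw [h2 _ h0, one_smul]

theorem dpt_pow {th : ∀ a, β a →ₗ[ZMod 2] β a} (h : PTV β)
    (hth : DPT fun q : Σ a, β a => th q.1 q.2) {i : α → ℕ} {x : ∀ a, β a} (hi : DPT i)
    (hb : PBd i) (hx : DPT x) : DPT fun a => (th a ^ i a) (x a) :=
  (dpt_iter (f := fun a y => th a y) h hi hb hx hth).congr fun _ => (Module.End.pow_apply _ _ _).symm

theorem dpt_diag (hn : DPT n) (hb : PBd n) {th : ∀ a, β a →ₗ[ZMod 2] β a}
    (hth : DPT fun q : Σ a, β a => th q.1 q.2) {x : ∀ a, Fin (n a) → β a} (hx : DPT x) :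
    DPT fun a => Bs.diag (Fin (n a)) (th a) (x a) :=
  dpt_lam hn hb (DPT.comp (f := fun q : Σ a, Fin (n a) => (⟨q.1, vget (x q.1) q.2⟩ : Σ a, β a)) hth
    (by fun_prop))

end PTV

theorem dpt_comp (hn : DPT n) (hb : PBd n) {P x : ∀ a, Fin (n a) → ZMod 2} (hP : DPT P)
    (hx : DPT x) : DPT fun a => Bs.comp (P a) (x a) := by
  have h : DPT (fun q : Σ a, Fin (n a) =>
      (if 0 < (q.2 : ℕ) then vget (x q.1) ⟨q.2 - 1, by have := q.2.2; omega⟩ else 0) +
        vget (x q.1) ⟨n q.1 - 1, by have := q.2.2; omega⟩ * vget (P q.1) q.2) := by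
    fun_prop
  exact dpt_lam hn hb (h.congr fun q => rfl)

/-- the powers of the diagonal companion map -/
theorem dpt_thPow (hn : DPT n) (hb : PBd n) {m : ℕ} {P : ∀ a, Fin (n a) → ZMod 2} {i : α → ℕ}
    {x : ∀ a, Fin m → Fin (n a) → ZMod 2} (hP : DPT P) (hi : DPT i) (hib : PBd i) (hx : DPT x) :
    DPT fun a => (Bs.diag (Fin m) (Bs.comp (P a)) ^ i a) (x a) :=
  dpt_pow (th := fun a => Bs.diag (Fin m) (Bs.comp (P a))) (by fun_prop)
    (dpt_diag (n := fun _ => m) (by fun_prop) (by fun_prop)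
      (dpt_comp (by fun_prop) (by fun_prop) (by fun_prop) (by fun_prop)) (by fun_prop)) hi hib hx

/-! ### Enumerations -/

/-- all vectors -/
def allV (p : ℕ) : List (Fin p → ZMod 2) := allFn p [0, 1] 0

theorem mem_allV {p : ℕ} (x : Fin p → ZMod 2) : x ∈ allV p :=
  mem_allFn _ fun i => by
    have h : ∀ y : ZMod 2, y ∈ [0, 1] := by decide
    exact h _

theorem nodup_allV (p : ℕ) : (allV p).Nodup := nodup_allFn _ (by decide) _

theorem length_allV (p : ℕ) : (allV p).length = 2 ^ p := length_allFn _ _ _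

theorem pbd_of_two_pow (h : PBd fun a => 2 ^ n a) : PBd n :=
  h.mono fun _ => Nat.lt_two_pow_self.le

theorem dpt_allV (hn : DPT n) (h : PBd fun a => 2 ^ n a) : DPT fun a => allV (n a) :=
  dpt_allFn hn (pbd_of_two_pow h) (DPT.const _) (DPT.const _) h

/-- vectors of constant length with entries in a list -/
theorem dpt_allFnc (m : ℕ) {l : ∀ a, List (β a)} {d : ∀ a, β a} (hl : DPT l) (hd : DPT d) :
    DPT (fun a => allFn m (l a) (d a)) :=
  dpt_allFn (n := fun _ => m) (DPT.const m) (PBd.const m) hl hd ((pbd_length hl).pow m)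

/-- all tuples of vectors -/
def allG (m p : ℕ) : List (Fin m → Fin p → ZMod 2) := allFn m (allV p) 0

theorem mem_allG {m p : ℕ} (x : Fin m → Fin p → ZMod 2) : x ∈ allG m p :=
  mem_allFn _ fun _ => mem_allV _

theorem nodup_allG (m p : ℕ) : (allG m p).Nodup := nodup_allFn _ (nodup_allV p) _

theorem dpt_allG (m : ℕ) (hn : DPT n) (h : PBd fun a => 2 ^ n a) : DPT fun a => allG m (n a) :=
  dpt_allFnc m (dpt_allV hn h) (PTV.pi hn (pbd_of_two_pow h) PTV.f2).zero

@[fun_prop]
theorem dpt_product {l : ∀ a, List (β a)} {m : ∀ a, List (γ a)} (hl : DPT l) (hm : DPT m) :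
    DPT (fun a => l a ×ˢ m a) := by
  have h : DPT (fun a => (l a).flatMap fun x => (m a).map fun y => (x, y)) := by fun_prop
  exact h

end Vale.Agent.P318B.Tl
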