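import Vale.Agent.P318B.Spec
import Vale.Agent.P318B.Gs
import Vale.Agent.P318B.Tl25
import Mathlib.Data.Nat.Choose.Central

/-!
# P318B / Fam: the dual families are found by elimination on tables
-/

set_option linter.all false

namespace Vale.Agent.P318B.Fm

open Finset Vale.Agent.Lib.PolyTime Vale.Agent.Lib.Dep Vale.Agent.P318B.Dg

variable {p : ℕ}

/-- all vectors -/
def aV (p : ℕ) : List (V p) := Tl.allFn p [0, 1] 0

lemma mem_aV (z : V p) : z ∈ aV p :=
  Tl.mem_allFn _ fun i => by
    generalize z i = x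
    revert x
    decide

lemma toFinset_aV : (aV p).toFinset = univ :=
  eq_univ_iff_forall.2 fun z => List.mem_toFinset.2 (mem_aV z)

lemma nodup_aV : (aV p).Nodup := by
  have : (aV p).toFinset.card = (aV p).length := by
    rw [toFinset_aV, aV, Tl.length_allFn]; simp
  exact Multiset.toFinset_card_eq_card_iff_nodup.1 this

/-- the number of ones -/
def wt (s : V p) : ℕ := ((List.ofFn s).filter fun x => decide (x = 1)).length

lemma wt_eq (s : V p) : wt s = (supp s).card := by
  rw [wt, List.ofFn_eq_map, List.filter_map, List.length_map,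
    ← List.toFinset_card_of_nodup ((List.nodup_finRange p).filter _)]
  congr 1
  ext k
  simp [supp]

lemma le_iff (s t : V p) : s * t = s ↔ supp s ⊆ supp t := by
  simp only [funext_iff, subset_iff, supp, mem_filter, mem_univ, true_and, Pi.mul_apply]
  refine forall_congr' fun k => ?_
  generalize s k = x
  generalize t k = y
  revert x y
  decide

lemma supp_add {s t : V p} (h : s * t = s) : supp (t + s) = supp t \ supp s := by
  ext k
  have := congrFun h k
  simp only [supp, mem_sdiff, mem_filter, mem_univ, true_and, Pi.add_apply, Pi.mul_apply] at this ⊢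
  revert this
  generalize s k = x
  generalize t k = y
  revert x y
  decide

/-- the vectors below `t` -/
def low (t : V p) : List (V p) := (aV p).filter fun s => decide (s * t = s)

/-- the iterated derivative along the support of `t` -/
def dv (t : V p) (F : V p → ZMod 2) (z : V p) : ZMod 2 := ((low t).map fun y => F (z + y)).sum

lemma dv_eq (t : V p) (F : V p → ZMod 2) : dv t F = Dg.DT bs (supp t) F := by
  funext z
  rw [dv, low, ← List.sum_toFinset _ (nodup_aV.filter _), Dg.DT]
  refine (sum_equiv cubeEquiv (fun S => ?_) fun S _ => rfl).symm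
  rw [List.mem_toFinset, List.mem_filter, decide_eq_true_eq, le_iff, mem_powerset]
  exact ⟨fun h => ⟨mem_aV _, (supp_sum S).symm ▸ h⟩, fun h => supp_sum S ▸ h.2⟩

/-- tables of functions -/
structure Tb (p : ℕ) where
  /-- the function -/
  f : V p → ZMod 2

instance : Enc (Tb p) := ⟨fun F => enc ((aV p).filter fun z => decide (F.f z = 1))⟩

/-- the sum of the values at the points of a list -/
def ev (c : List (V p)) : (V p → ZMod 2) →ₗ[ZMod 2] ZMod 2 where
  toFun F := (c.map F).sum
  map_add' F F' := List.sum_map_add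
  map_smul' a F := List.sum_map_mul_left c F a

lemma ev_apply (c : List (V p)) (F : V p → ZMod 2) : ev c F = (c.map F).sum := rfl

/-- the pivot -/
def piv (L : List (Tb p)) (c : List (V p)) : Tb p :=
  (L.find? fun F => decide (ev c F.f = 1)).getD ⟨fun _ => 0⟩

/-- one step of the elimination -/
def step (L : List (Tb p)) (c : List (V p)) : List (Tb p) :=
  L.map fun F => ⟨fun z => F.f z + ev c F.f * (piv L c).f z⟩

lemma step_spec {L : List (Tb p)} {c : List (V p)} {F : Tb p} (h : F ∈ step L c) :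
    ∃ F' ∈ L, F.f = F'.f + ev c F'.f • (piv L c).f := by
  obtain ⟨F', h', rfl⟩ := List.mem_map.1 h
  exact ⟨F', h', rfl⟩

lemma step_keep {L : List (Tb p)} (c : List (V p)) {d : List (V p)} (h : ∀ F ∈ L, ev d F.f = 0) :
    ∀ F ∈ step L c, ev d F.f = 0 := by
  intro F hF
  obtain ⟨F', h', e⟩ := step_spec hF
  have : ev d (piv L c).f = 0 := by
    unfold piv
    cases e : L.find? fun F => decide (ev c F.f = 1) with
    | none => exact (ev d).map_zero
    | some g => exact h g (List.mem_of_find?_eq_some e)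
  rw [e, map_add, map_smul, h F' h', this, smul_zero, add_zero]

lemma step_new (L : List (Tb p)) (c : List (V p)) : ∀ F ∈ step L c, ev c F.f = 0 := by
  intro F hF
  obtain ⟨F', h', e⟩ := step_spec hF
  rw [e, map_add, map_smul, smul_eq_mul]
  unfold piv
  cases e : L.find? fun F => decide (ev c F.f = 1) with
  | none =>
    have := List.find?_eq_none.1 e F' h'
    rw [decide_eq_true_eq] at this
    rw [show ev c F'.f = 0 by revert this; generalize ev c F'.f = x; revert x; decide]
    simp
  | some g =>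
    have := List.find?_some e
    rw [decide_eq_true_eq] at this
    rw [Option.getD_some, this, mul_one, two]

lemma fold_keep (cs : List (List (V p))) : ∀ {L : List (Tb p)} {d : List (V p)},
    (d ∈ cs ∨ ∀ F ∈ L, ev d F.f = 0) → ∀ F ∈ cs.foldl step L, ev d F.f = 0 := by
  induction cs with
  | nil => exact fun h => h.resolve_left List.not_mem_nil
  | cons c cs ih =>
    intro L d h
    refine ih ?_
    rcases h with h | h
    · rcases List.mem_cons.1 h with rfl | h
      exacts [.inr (step_new L d), .inl h]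
    · exact .inr (step_keep c h)

lemma fold_span (x : V p → ZMod 2) (cs : List (List (V p))) : ∀ {L : List (Tb p)},
    (∀ c ∈ cs, ev c x = 0) →
    (∀ ψ : (V p → ZMod 2) →ₗ[ZMod 2] ZMod 2, (∀ F ∈ L, ψ F.f = 0) → ψ x = 0) →
    ∀ ψ : (V p → ZMod 2) →ₗ[ZMod 2] ZMod 2, (∀ F ∈ cs.foldl step L, ψ F.f = 0) → ψ x = 0 := by
  induction cs with
  | nil => exact fun _ h => h
  | cons c cs ih =>
    intro L hc h
    refine ih (fun d hd => hc d (List.mem_cons_of_mem _ hd)) fun ψ hψ => ?_
    have := h (ψ + ψ (piv L c).f • ev c) fun F hF => by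
      have := hψ _ (List.mem_map_of_mem hF)
      rw [show (Tb.mk fun z => F.f z + ev c F.f * (piv L c).f z).f = F.f + ev c F.f • (piv L c).f
        from rfl, map_add, map_smul, smul_eq_mul, mul_comm] at this
      exact this
    rwa [LinearMap.add_apply, LinearMap.smul_apply, hc c List.mem_cons_self, smul_zero,
      add_zero] at this

lemma length_fold (cs : List (List (V p))) : ∀ L : List (Tb p),
    (cs.foldl step L).length = L.length := by
  induction cs with
  | nil => exact fun _ => rfl
  | cons c cs ih => exact fun L => (ih _).trans (List.length_map _)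

/-- the point masses -/
def L0 (p : ℕ) : List (Tb p) := (aV p).map fun z => ⟨fun y => if z = y then 1 else 0⟩

/-- the constraints: the relations and the bound for the degree -/
def cons (b : ℕ) (rel : List (V p × V p)) : List (List (V p)) :=
  (rel.flatMap fun r => (aV p).map fun z => [z, z + r.2, z + r.1, z + r.1 + r.2]) ++
    ((aV p).filter fun t => decide (2 * b < wt t)).map low

lemma ev_low (t : V p) (F : V p → ZMod 2) : ev (low t) F = Dg.DT bs (supp t) F 0 := by
  rw [← dv_eq, dv, ev_apply]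
  simp only [zero_add]

lemma cons_iff (b : ℕ) (rel : List (V p × V p)) (F : V p → ZMod 2) :
    (∀ c ∈ cons b rel, ev c F = 0) ↔
      (∀ r ∈ rel, Dg.Dv r.1 (Dg.Dv r.2 F) = 0) ∧ Lo Set.univ (2 * b + 1) F := by
  simp only [cons, List.mem_append, List.mem_flatMap, List.mem_map, List.mem_filter, mem_aV,
    true_and, decide_eq_true_eq, wt_eq]
  have e : ∀ (r : V p × V p) z, ev [z, z + r.2, z + r.1, z + r.1 + r.2] F =
      Dg.Dv r.1 (Dg.Dv r.2 F) z := fun r z => by simp [ev_apply, Dg.Dv, add_assoc]
  refine ⟨fun h => ⟨fun r hr => funext fun z => (e r z).symm.trans (h _ (.inl ⟨r, hr, z, rfl⟩)),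
    lo_of_coef fun T hT => ?_⟩, ?_⟩
  · rw [← supp_sum T, ← ev_low]
    exact h _ (.inr ⟨_, by rw [supp_sum]; exact hT, rfl⟩)
  · rintro ⟨h1, h2⟩ c (⟨r, hr, z, rfl⟩ | ⟨t, ht, rfl⟩)
    · rw [e, h1 r hr]; rfl
    · rw [ev_low, h2.dt_zero (fun _ _ => Set.mem_univ _) ht]; rfl

/-- the result of the elimination -/
def elim (cs : List (List (V p))) : List (Tb p) := cs.foldl step (L0 p)

/-- the zero vector -/
def vz (p : ℕ) : V p := fun _ => 0

/-- the candidates -/
def cand (b : ℕ) (rel : List (V p × V p)) : List (V p × Tb p) :=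
  (aV p).flatMap fun t => (elim (cons b rel)).map fun F => (t, F)

/-- the chosen set of directions and function -/
def best (b : ℕ) (rel : List (V p × V p)) : V p × Tb p :=
  ((cand b rel).find? fun q => decide (wt q.1 = 2 * b ∧ ev (low q.1) q.2.f = 1)).getD
    (vz p, ⟨fun _ => 0⟩)

lemma best_spec {mu b : ℕ} {rel : List (V p × V p)} (hl : rel.length ≤ mu * p)
    (hp : 96 * (mu + 1) * (b + 1) ≤ p) :
    (∀ r ∈ rel, Dg.Dv r.1 (Dg.Dv r.2 (best b rel).2.f) = 0) ∧
      Lo Set.univ (2 * b + 1) (best b rel).2.f ∧ (supp (best b rel).1).card = 2 * b ∧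
        Dg.DT bs (supp (best b rel).1) (best b rel).2.f = 1 := by
  obtain ⟨f, T, h1, h2, h3, h4⟩ := gs (ι := Fin p) (μ := mu + 1) (a := 2 * b) mu.succ_pos rel
    (by rw [Fintype.card_fin]; nlinarith) (by rw [Fintype.card_fin]; nlinarith)
  unfold best
  cases e : (cand b rel).find? fun q => decide (wt q.1 = 2 * b ∧ ev (low q.1) q.2.f = 1) with
  | none =>
    have h5 := fold_span f (cons b rel) (L := L0 p) ((cons_iff b rel f).2 ⟨h1, h2⟩)
      (fun ψ h => by
        rw [LinearMap.pi_apply_eq_sum_univ]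
        exact sum_eq_zero fun z _ => by
          rw [h _ (List.mem_map_of_mem (mem_aV z)), smul_zero])
      (ev (low (∑ k ∈ T, bs k))) fun F hF => by
        have := List.find?_eq_none.1 e (∑ k ∈ T, bs k, F)
          (List.mem_flatMap.2 ⟨_, mem_aV _, List.mem_map_of_mem hF⟩)
        rw [decide_eq_true_eq, wt_eq, supp_sum, not_and] at this
        have := this h3
        revert this
        generalize ev (low (∑ k ∈ T, bs k)) F.f = x
        revert x
        decide
    rw [ev_low, supp_sum, h4] at h5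
    exact absurd h5 one_ne_zero
  | some q =>
    have h5 := List.find?_some e
    rw [decide_eq_true_eq, wt_eq, ev_low] at h5
    obtain ⟨t, -, h6⟩ := List.mem_flatMap.1 (List.mem_of_find?_eq_some e)
    obtain ⟨F, hF, rfl⟩ := List.mem_map.1 h6
    have h7 := (cons_iff b rel F.f).1 fun c hc => fold_keep _ (.inl hc) F hF
    refine ⟨h7.1, h7.2, h5.1, eq_one_of_lo (Lo.dt (fun _ _ => trivial) ?_) fun h => ?_⟩
    · exact h7.2.mono (by have := h5.1; dsimp only [Option.getD_some] at this ⊢; omega)
    · have := h5.2.symm.trans (congrFun h 0)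
      exact one_ne_zero this

/-- the halves of `t` -/
def halves (b : ℕ) (t : V p) : List (V p) := (low t).filter fun s => decide (wt s = b)

lemma two_pow_le_central : ∀ b : ℕ, 2 ^ b ≤ b.centralBinom
  | 0 => le_rfl
  | b + 1 => by
    have := Nat.succ_mul_centralBinom_succ b
    have := two_pow_le_central b
    rw [pow_succ]
    nlinarith

lemma mem_halves {b : ℕ} {t s : V p} : s ∈ halves b t ↔ s * t = s ∧ (supp s).card = b := by
  simp [halves, low, mem_aV, wt_eq, and_comm]

lemma nodup_halves (b : ℕ) (t : V p) : (halves b t).Nodup := (nodup_aV.filter _).filter _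

lemma le_length_halves {b : ℕ} {t : V p} (h : (supp t).card = 2 * b) :
    2 ^ b ≤ (halves b t).length := by
  rw [← List.toFinset_card_of_nodup (nodup_halves b t),
    ← card_equiv (s := powersetCard b (supp t)) cubeEquiv fun S => by
      rw [List.mem_toFinset, mem_halves, le_iff, mem_powersetCard]
      exact Iff.of_eq (by rw [show supp (cubeEquiv S) = S from supp_sum S]), card_powersetCard, h]
  exact two_pow_le_central b

/-- the set of directions -/
def fT (p b : ℕ) (rel : List (V p × V p)) (k : Fin p) : Bool := decide ((best b rel).1 k = 1)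

/-- the first family -/
def fF (p b : ℕ) (rel : List (V p × V p)) (i : ℕ) : V p → ZMod 2 :=
  dv ((halves b (best b rel).1).getD i (vz p)) (best b rel).2.f

/-- the dual family -/
def fA (p b : ℕ) (rel : List (V p × V p)) (i : ℕ) : V p → ZMod 2 :=
  dv ((best b rel).1 + (halves b (best b rel).1).getD i (vz p)) (best b rel).2.f

lemma DT_eq (t : V p) (φ : V p → ZMod 2) :
    DTb (fun k => decide (t k = 1)) φ = Dg.DT bs (supp t) φ := by
  rw [DTb, show (fun k : Fin p => bas p k) = bs from funext bas_eq]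
  congr 1
  ext k
  simp [supp]

lemma fam_spec {mu b : ℕ} {rel : List (V p × V p)} (hl : rel.length ≤ mu * p)
    (hp : 96 * (mu + 1) * (b + 1) ≤ p) :
    (∀ i < 2 ^ b, ∀ q ∈ rel, Dg.Dv q.1 (Dg.Dv q.2 (fF p b rel i)) = 0 ∧
      Dg.Dv q.1 (Dg.Dv q.2 (fA p b rel i)) = 0) ∧
      Dual (fT p b rel) (fF p b rel) (fA p b rel) (2 ^ b) := by
  obtain ⟨h1, h2, h3, h4⟩ := best_spec hl hp
  have k : ∀ q ∈ rel, ∀ s, Dg.Dv q.1 (Dg.Dv q.2 (dv s (best b rel).2.f)) = 0 := fun q hq s => by
    rw [dv_eq, ← DT_Dv, ← DT_Dv, h1 q hq, DT_zero]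
  refine ⟨fun i _ q hq => ⟨k q hq _, k q hq _⟩, fun i hi i' hi' x => ?_⟩
  have l := le_length_halves h3
  have m := mem_halves.1 (List.getElem_mem (hi.trans_le l))
  have m' := mem_halves.1 (List.getElem_mem (hi'.trans_le l))
  rw [show fT p b rel = fun k => decide ((best b rel).1 k = 1) from rfl, DT_eq, fF, fA,
    List.getD_eq_getElem _ _ (hi.trans_le l), List.getD_eq_getElem _ _ (hi'.trans_le l), dv_eq, dv_eq,
    supp_add m.1, pairing bs_two (fun _ _ => Set.mem_univ _) (h3.symm ▸ h2) h4 ((le_iff _ _).1 m.1)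
      ((le_iff _ _).1 m'.1) (m.2.trans m'.2.symm)]
  by_cases e : i = i'
  · subst e; simp
  · have ne : ¬ supp (halves b (best b rel).1)[i] = supp (halves b (best b rel).1)[i'] :=
      fun h => e ((nodup_halves _ _).getElem_inj_iff.1 (cubeEquiv.symm.injective h))
    rw [if_neg e, if_neg ne]
    rfl

/-! ### polynomial time -/

section PT

variable {α : Type} [Enc α] {pp : α → ℕ}

/-- the dimension is computable and logarithmically small -/
@[fun_prop]
structure Sm (pp : α → ℕ) : Prop where
  d : DPT pp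
  b : PBd fun a => 2 ^ pp a

@[fun_prop]
lemma Sm.comp {κ : Type} [Enc κ] {c : κ → α} (h : Sm pp) (hc : DPT c) : Sm fun x => pp (c x) :=
  ⟨h.d.comp hc, pbd_comp (b := fun a => 2 ^ pp a) h.b hc⟩

lemma Sm.pbd (h : Sm pp) : PBd pp := h.b.mono fun _ => Nat.lt_two_pow_self.le

@[fun_prop]
lemma dpt_aV (h : Sm pp) : DPT fun a => aV (pp a) :=
  Tl.dpt_allFn (β := fun _ => ZMod 2) h.d h.pbd (DPT.const _) (DPT.const _) h.b

@[fun_prop]
lemma dpt_ofFn {f : ∀ a, V (pp a)} (hf : DPT f) : DPT fun a => List.ofFn (f a) := hf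

@[fun_prop]
lemma dpt_add {f g : ∀ a, V (pp a)} (hf : DPT f) (hg : DPT g) : DPT fun a => f a + g a := by
  have : DPT fun a => List.zipWith (fun x y => x + y) (List.ofFn (f a)) (List.ofFn (g a)) := by
    fun_prop
  exact this.of_enc fun a => congrArg enc (List.ext_getElem (by simp) (by simp))

@[fun_prop]
lemma dpt_mul {f g : ∀ a, V (pp a)} (hf : DPT f) (hg : DPT g) : DPT fun a => f a * g a := by
  have : DPT fun a => List.zipWith (fun x y => x * y) (List.ofFn (f a)) (List.ofFn (g a)) := by
    fun_prop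
  exact this.of_enc fun a => congrArg enc (List.ext_getElem (by simp) (by simp))

@[fun_prop]
lemma dpt_zero (h : Sm pp) : DPT fun a => vz (pp a) :=
  (DPT.replicate h.d h.pbd (DPT.const (0 : ZMod 2))).of_enc fun a =>
    congrArg enc (List.ofFn_const _ _).symm

@[fun_prop]
lemma dpt_wt {f : ∀ a, V (pp a)} (hf : DPT f) : DPT fun a => wt (f a) := by
  unfold wt
  fun_prop

@[fun_prop]
lemma dpt_low {f : ∀ a, V (pp a)} (h : Sm pp) (hf : DPT f) : DPT fun a => low (f a) := by
  unfold low
  fun_prop

@[fun_prop]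
lemma dpt_tbApp {F : ∀ a, Tb (pp a)} {z : ∀ a, V (pp a)} (hF : DPT F) (hz : DPT z) :
    DPT fun a => (F a).f (z a) := by
  have h1 : DPT fun a => (aV (pp a)).filter fun z => decide ((F a).f z = 1) := hF
  refine (DPT.ite (DPr.mem h1 hz) (DPT.const (1 : ZMod 2)) (DPT.const 0)).congr fun a => ?_
  simp only [List.mem_filter, mem_aV, true_and, decide_eq_true_eq]
  generalize (F a).f (z a) = x
  revert x
  decide

@[fun_prop]
lemma dpt_tbMk {g : ∀ a, V (pp a) → ZMod 2} (h : Sm pp)
    (hg : DPT fun x : Σ a, V (pp a) => g x.1 x.2) : DPT fun a => Tb.mk (g a) :=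
  DPT.filter (dpt_aV h) (DPT.decide (DPr.eq (DPT.comp (f := fun q : Σ a, {x // x ∈ aV (pp a)} =>
    (⟨q.1, q.2.1⟩ : Σ a, V (pp a))) hg (by fun_prop)) (DPT.const _)))

@[fun_prop]
lemma dpt_piv {L : ∀ a, List (Tb (pp a))} {c : ∀ a, List (V (pp a))} (h : Sm pp) (hL : DPT L)
    (hc : DPT c) : DPT fun a => piv (L a) (c a) := by
  simp only [piv, ev_apply]
  fun_prop

@[fun_prop]
lemma dpt_step {L : ∀ a, List (Tb (pp a))} {c : ∀ a, List (V (pp a))} (h : Sm pp) (hL : DPT L)
    (hc : DPT c) : DPT fun a => step (L a) (c a) := by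
  simp only [step, ev_apply]
  fun_prop

@[fun_prop]
lemma dpt_L0 (h : Sm pp) : DPT fun a => L0 (pp a) := by
  unfold L0
  fun_prop

@[fun_prop]
lemma dpt_elim {c : ∀ a, List (List (V (pp a)))} (h : Sm pp) (hc : DPT c) :
    DPT fun a => elim (c a) := by
  refine DPT.foldl (f := fun a => step) hc (dpt_L0 h) (by fun_prop)
    (b := fun a => (aV (pp a)).length * (2 * esize (aV (pp a)) + 1)) (by fun_prop) fun a i => ?_
  refine (esize_list_le (B := esize (aV (pp a))) fun (x : Tb (pp a)) _ =>
    esize_le_of_sublist (l := (aV (pp a)).filter fun z => decide (x.f z = 1))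
      List.filter_sublist).trans_eq ?_
  rw [length_fold, L0, List.length_map]

variable {bb : α → ℕ} {rel : ∀ a, List (V (pp a) × V (pp a))}

@[fun_prop]
lemma dpt_cons (h : Sm pp) (hb : DPT bb) (hr : DPT rel) : DPT fun a => cons (bb a) (rel a) := by
  unfold cons
  fun_prop

@[fun_prop]
lemma dpt_cand (h : Sm pp) (hb : DPT bb) (hr : DPT rel) : DPT fun a => cand (bb a) (rel a) := by
  unfold cand
  fun_prop

@[fun_prop]
lemma dpt_best (h : Sm pp) (hb : DPT bb) (hr : DPT rel) : DPT fun a => best (bb a) (rel a) := by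
  simp only [best, ev_apply]
  fun_prop

@[fun_prop]
lemma dpt_dv {t z : ∀ a, V (pp a)} {F : ∀ a, Tb (pp a)} (h : Sm pp) (ht : DPT t) (hF : DPT F)
    (hz : DPT z) : DPT fun a => dv (t a) (F a).f (z a) := by
  unfold dv
  fun_prop

@[fun_prop]
lemma dpt_halves {t : ∀ a, V (pp a)} (h : Sm pp) (hb : DPT bb) (ht : DPT t) :
    DPT fun a => halves (bb a) (t a) := by
  unfold halves
  fun_prop

end PT

/-- the block `FamS` -/
theorem famS : FamS := fun mu => ⟨96 * (mu + 1), fT, fF, fA, fun _ _ _ hl hp => fam_spec hl hp,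
  fun pp bb rel hp hb hbb _ hr => by
    have h : Sm pp := ⟨hp, hb⟩
    have h1 := dpt_best h hbb hr
    refine ⟨DPT.decide (DPr.eq (Tl.dpt_app (β := fun _ => ZMod 2) (h1.fst.comp DPT.id.sfst)
      DPT.ssnd) (DPT.const _)), ?_, ?_⟩
    · unfold fF
      fun_prop
    · unfold fA
      fun_prop⟩

end Vale.Agent.P318B.Fm
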