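import Vale.Agent.P318B.Spec

/-!
# P318B / Find: good data from the seeds and the dual families
-/

namespace Vale.Agent.P318B

open Finset Vale.Agent.Lib.PolyTime Vale.Agent.Lib.PCP Vale.Agent.Lib.Dep
open scoped BigOperators
open Dg (Dv)

variable {p E : ℕ}

/-- the list of relations -/
noncomputable def rels (th : V p →ₗ[ZMod 2] V p) (r : Fin E → Fin 9 → G p) : List (V p × V p) :=
  (List.range (2 * p)).flatMap fun i =>
    (univ : Finset (Fin E × Fin 9 × Fin 9 × Fin 6)).toList.map fun q =>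
      (dir th r q.1 i q.2.1 q.2.2.2, dir th r q.1 i q.2.2.1 q.2.2.2)

theorem length_rels (th : V p →ₗ[ZMod 2] V p) (r : Fin E → Fin 9 → G p) :
    (rels th r).length = 972 * E * p := by
  simp [rels, List.length_flatMap]
  ring

theorem c1_of_rels {th : V p →ₗ[ZMod 2] V p} {r : Fin E → Fin 9 → G p} {φ : V p → ZMod 2}
    (h : ∀ q ∈ rels th r, Dv q.1 (Dv q.2 φ) = 0) : C1 th r φ := fun e0 i hi j j' k =>
  h (dir th r e0 i j k, dir th r e0 i j' k) (List.mem_flatMap.2 ⟨i, List.mem_range.2 hi,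
    List.mem_map.2 ⟨(e0, j, j', k), mem_toList.2 (mem_univ _), rfl⟩⟩)

theorem dpt_rels {α : Type} [Enc α] {pp : α → ℕ} (hp : DPT pp) (hb : PBd fun a => 2 ^ pp a)
    {th : ∀ a, V (pp a) →ₗ[ZMod 2] V (pp a)} {r : ∀ a, Fin E → Fin 9 → G (pp a)}
    (hth : DPT fun x : Σ a, V (pp a) => th x.1 x.2) (hr : DPT r) :
    DPT fun a => rels (th a) (r a) := by
  have hb' := Tl.pbd_of_two_pow hb
  have hv : Tl.PTV fun a => V (pp a) := Tl.PTV.pi hp hb' Tl.PTV.f2
  have key : ∀ (e0 : Fin E) (j : Fin 9) (k : Fin 6), DPT fun x : Σ a,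
      {i // i ∈ List.range (2 * pp a)} => dir (th x.1) (r x.1) e0 x.2.1 j k := fun e0 j k =>
    Tl.dpt_iter (f := fun (x : Σ a, {i // i ∈ List.range (2 * pp a)}) y => th x.1 y)
      (hv.comp DPT.id.sfst) DPT.ssnd.val (pbd_mem_range (by fun_prop))
      ((Tl.dpt_at (Tl.dpt_at (Tl.dpt_at hr e0) j) k).comp DPT.id.sfst)
      (DPT.comp (f := fun y : Σ x : (Σ a, {i // i ∈ List.range (2 * pp a)}), V (pp x.1) =>
        (⟨y.1.1, y.2⟩ : Σ a, V (pp a))) hth (DPT.smk DPT.id.sfst.sfst DPT.ssnd))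
  exact DPT.flatMap (DPT.range (by fun_prop) (by fun_prop))
    (Tl.dpt_mapConst _ fun q => (key _ _ _).pair (key _ _ _))

theorem two_pow_size_le (n : ℕ) : 2 ^ n.size ≤ 2 * n + 1 := by
  rcases Nat.eq_zero_or_pos n with rfl | h
  · simp
  · obtain ⟨k, hk⟩ : ∃ k, n.size = k + 1 := ⟨n.size - 1, by have := Nat.size_pos.2 h; omega⟩
    have : 2 ^ k ≤ n := Nat.lt_size.1 (by omega)
    rw [hk, pow_succ]
    omega

theorem find_of (hS : SeedS) (hF : FamS) : FindS := by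
  intro L p0 hL
  obtain ⟨E, hE, th, r, h1, h2⟩ := hS L hL
  obtain ⟨c, T, f, A, h3, h4⟩ := hF (972 * E)
  let bb : CNF → ℕ := fun a => (3 * a.length).size
  let pp : CNF → ℕ := fun a => bb a * (c + 1) + (c + p0 + 1)
  have hbb : DPT bb := by fun_prop
  have hpp : DPT pp := by fun_prop
  have hb : PBd fun a => 2 ^ pp a := by
    have h5 : PBd fun a : CNF => (2 * (3 * a.length) + 1) ^ (c + 1) * 2 ^ (c + p0 + 1) := by
      fun_prop
    refine h5.mono fun a => ?_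
    rw [pow_add, pow_mul]
    exact Nat.mul_le_mul_right _ (Nat.pow_le_pow_left (two_pow_size_le _) _)
  obtain ⟨t1, t2⟩ := h2 pp hpp hb
  obtain ⟨t3, t4, t5⟩ := h4 pp bb (fun a => rels (th (pp a)) (r (pp a))) hpp hb hbb
    (fun a => by simp only [pp]; nlinarith) (dpt_rels hpp hb t1 t2)
  refine ⟨E, hE, pp, fun a => ⟨th _, r _, T _ (bb a) (rels (th _) (r _)),
    f _ (bb a) (rels (th _) (r _)), A _ (bb a) (rels (th _) (r _))⟩, fun a => ⟨?_, ?_⟩,
    ⟨hpp, hb, t1, t2, t3, t4, t5⟩⟩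
  · simp only [pp]; omega
  · obtain ⟨u1, u2⟩ := h3 (pp a) (bb a) (rels (th _) (r _)) (length_rels _ _).le
      (by simp only [pp]; nlinarith)
    have hn : 3 * a.length < 2 ^ bb a := Nat.lt_size_self _
    exact ⟨h1 _ (by simp only [pp]; omega),
      fun i hi => c1_of_rels fun q hq => (u1 i (hi.trans hn) q hq).1,
      fun i hi => c1_of_rels fun q hq => (u1 i (hi.trans hn) q hq).2,
      fun i hi i' hi' => u2 i (hi.trans hn) i' (hi'.trans hn)⟩

end Vale.Agent.P318B
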