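import Vale.Agent.P318.Defs
import Vale.Agent.P325.Defs

/-!
Definitions for P318, question Q1: instances of Uniform Sparsest Cut with rational capacities in
binary, hardness of the gap problem, approximation algorithms, the class P.
`IsCap`, `cutRatio`, `Phi` are those of `P318/Defs`; `PolyTime`, `pair`, `codeList`, `NP` are
those of `P325/Defs`.
-/

namespace Vale.Agent.P318B

open Vale.Agent.P318 Vale.Agent.P325

/-- An instance of Uniform Sparsest Cut: `n ≥ 2` vertices and symmetric nonnegative rational
capacities with zero diagonal. -/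
structure Inst where
  n : ℕ
  two_le : 2 ≤ n
  cap : Fin n → Fin n → ℚ
  isCap : IsCap fun i j => (cap i j : ℝ)

/-- The ratio of the cut `S`. -/
noncomputable def Inst.ratio (I : Inst) (S : Finset (Fin I.n)) : ℝ :=
  cutRatio (fun i j => (I.cap i j : ℝ)) S

/-- The value `Φ` of the instance. -/
noncomputable def Inst.phi (I : Inst) : ℝ := Phi fun i j => (I.cap i j : ℝ)

/-- A nonnegative rational number in binary: numerator and denominator. -/
def codeQ (q : ℚ) : List Bool := pair q.num.natAbs.bits q.den.bits

/-- The code of an instance: the list of the rows of the matrix of capacities. -/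
def Inst.code (I : Inst) : List Bool :=
  codeList (List.ofFn fun i => codeList (List.ofFn fun j => codeQ (I.cap i j)))

/-- The gap problem with ratio `C` is NP-hard: every language in NP has a polynomial time map to
pairs (threshold `τ > 0`, instance) with `Φ ≤ τ` on members and `Φ > C τ` on non-members. -/
def GapHard (C : ℝ) : Prop :=
  ∀ L ∈ NP, ∃ (I : List Bool → Inst) (τ : List Bool → ℚ),
    PolyTime (fun x => pair (codeQ (τ x)) (I x).code) ∧
      ∀ x, 0 < τ x ∧ (x ∈ L → (I x).phi ≤ τ x) ∧ (x ∉ L → C * τ x < (I x).phi)

/-- `A` is a factor `C` approximation algorithm: on the code of an instance it outputs the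
indicator word of a nonempty proper subset whose ratio is at most `C Φ`. -/
def Approx (C : ℝ) (A : List Bool → List Bool) : Prop :=
  ∀ I : Inst, ∃ S : Finset (Fin I.n), S.Nonempty ∧ S ≠ Finset.univ ∧
    A I.code = List.ofFn (fun i => decide (i ∈ S)) ∧ I.ratio S ≤ C * I.phi

/-- The class P. -/
def P : Set (Set (List Bool)) :=
  {L | ∃ f : List Bool → List Bool, PolyTime f ∧ ∀ x, x ∈ L ↔ f x = [true]}

/-- The final statement. -/
def Main : Prop :=
  ∃ C : ℝ, 1 < C ∧ GapHard C ∧ ((∃ A, PolyTime A ∧ Approx C A) → NP ⊆ P)

end Vale.Agent.P318B
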