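import Vale.Agent.P318B.GadB
import Vale.Agent.P318B.Defs
import Vale.Agent.P325.CookLevin

/-!
# P318B / Gad : from quasi-random constraint systems to uniform sparsest cut
-/

namespace Vale.Agent.P318B.Gd

open Finset Vale.Agent.Lib.PCP Vale.Agent.Lib.PolyTime Vale.Agent.P318 Vale.Agent.P325
open scoped BigOperators

theorem exists_cst {w : ℕ} (hw : 2 ≤ w) (κ : ℕ) : ∃ q : Cst, q.Ok w κ ∧ 0 < q.D ∧
    ∀ lam ≤ lam0 w, q.nu * lam ≤ 1 / 2 := by
  obtain ⟨m, rfl⟩ : ∃ m, w = m + 2 := ⟨w - 2, by omega⟩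
  have h0 : 0 < 2 ^ (m + 1) := by positivity
  have h1 : 2 * (m + 2) ≤ 3 * ((m + 2) * (m + 2)) * 2 ^ (m + 1) := by nlinarith
  have h2 : 2 ≤ 3 * ((m + 2) * (m + 2)) * 2 ^ (m + 1) := by omega
  obtain ⟨A, hA⟩ : ∃ A, A = 4 * κ * ((m + 2) * (m + 2)) * 2 ^ (m + 2) + 1 := ⟨_, rfl⟩
  obtain ⟨a, ha⟩ : ∃ a, a = (A * (m + 2) + κ * ((m + 2) * (m + 2))) * 2 ^ (m + 1) := ⟨_, rfl⟩
  refine ⟨⟨A, 2 ^ m * ((m + 2) * (m + 1)), a, A * (2 ^ m * ((m + 2) * (m + 1))) + 1,
    2 + a + A * (3 * ((m + 2) * (m + 2)) * 2 ^ (m + 1) - 2)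
      + κ * (3 * ((m + 2) * (m + 2)) * 2 ^ (m + 1) - 2 * (m + 2))⟩, ⟨?_, ?_, ?_, ?_, ?_⟩, ?_, ?_⟩
  · push_cast; ring
  · rw [ha]; push_cast; ring
  · push_cast; ring
  · push_cast [Nat.cast_sub h1, Nat.cast_sub h2]; ring
  · rw [hA]; push_cast; exact le_rfl
  · unfold Cst.D; positivity
  · intro lam hl
    refine (mul_le_mul_of_nonneg_left hl (Nat.cast_nonneg _)).trans ?_
    rw [lam0, mul_one_div, div_le_div_iff₀ (by positivity) (by positivity)]
    push_cast
    have : (0 : ℝ) < 2 ^ m := by positivity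
    have h3 : (0 : ℝ) ≤ m := by positivity
    rw [pow_add]
    nlinarith [mul_nonneg this.le h3, mul_nonneg (mul_nonneg this.le h3) h3]

/-! ### cuts -/

theorem cut_equiv {N : ℕ} {V : Type} [Fintype V] (ε : Fin N ≃ V) {c : Fin N → Fin N → ℝ}
    {c' : V → V → ℝ} (h : ∀ i j, i ≠ j → c i j = c' (ε i) (ε j)) {x : V → Bool}
    {S : Finset (Fin N)} (hS : ∀ i, i ∈ S ↔ x (ε i) = true) :
    cutRatio c S = cutV c' x / (mass x * (Fintype.card V - mass x)) ∧ mass x = S.card := by
  have e1 : mass x = S.card := by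
    rw [mass, ← ε.sum_comp, card_eq_sum_ones, Nat.cast_sum, ← univ_inter S, ← sum_ite_mem]
    simp only [ib, hS, Nat.cast_one]
  refine ⟨?_, e1⟩
  rw [cutRatio, e1, ← Fintype.card_congr ε, Fintype.card_fin, cutV, ← ε.sum_comp]
  congr 1
  rw [← univ_inter S, ← sum_ite_mem, univ_inter]
  refine sum_congr rfl fun i _ => ?_
  rw [← ε.sum_comp, ← univ_inter Sᶜ, ← sum_ite_mem]
  by_cases hi : i ∈ S
  · rw [if_pos hi]
    refine sum_congr rfl fun j _ => ?_
    by_cases hj : j ∈ S
    · simp [hj, (hS j).1 hj]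
    · have : x (ε j) = false := by simpa using (hS j).not.1 hj
      simp [hj, this, (hS i).1 hi, h i j fun e => hj (e ▸ hi)]
  · have : x (ε i) = false := by simpa using (hS i).not.1 hi
    simp [hi, this]

theorem card_pos_cut {N : ℕ} {S : Finset (Fin N)} (h1 : S.Nonempty) (h2 : S ≠ univ) :
    (0 : ℝ) < S.card * ((N : ℝ) - S.card) := by
  have a1 : (0 : ℝ) < S.card := by exact_mod_cast h1.card_pos
  have a2 : S.card < N := by simpa using (card_lt_iff_ne_univ S).2 h2
  have a3 : (S.card : ℝ) < N := by exact_mod_cast a2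
  exact mul_pos a1 (by linarith)

theorem phi_le {N : ℕ} (c : Fin N → Fin N → ℝ) {S : Finset (Fin N)} (h1 : S.Nonempty)
    (h2 : S ≠ univ) : Phi c ≤ cutRatio c S := by
  refine csInf_le (Set.Finite.bddBelow ?_) ⟨S, h1, h2, rfl⟩
  exact (Set.finite_range (cutRatio c)).subset fun r ⟨S, _, _, e⟩ => ⟨S, e.symm⟩

theorem le_phi {N : ℕ} (hN : 2 ≤ N) (c : Fin N → Fin N → ℝ) {t : ℝ}
    (h : ∀ S : Finset (Fin N), S.Nonempty → S ≠ univ → t ≤ cutRatio c S) : t ≤ Phi c := by
  refine le_csInf ⟨_, {⟨0, by omega⟩}, singleton_nonempty _, fun e => ?_, rfl⟩ ?_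
  · have := congrArg card e
    simp at this
    omega
  · rintro r ⟨S, h1, h2, rfl⟩
    exact h S h1 h2

theorem phi_le_of {N : ℕ} {V : Type} [Fintype V] (ε : Fin N ≃ V) {c : Fin N → Fin N → ℝ}
    {c' : V → V → ℝ} (h : ∀ i j, i ≠ j → c i j = c' (ε i) (ε j)) {x : V → Bool} {v v' : V}
    (hv : x v = true) (hv' : x v' = false) {D : ℝ}
    (e : cutV c' x = D * (mass x * (Fintype.card V - mass x))) : Phi c ≤ D := by
  have hS : ∀ i, i ∈ ({i | x (ε i) = true} : Finset _) ↔ x (ε i) = true := by simp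
  have h1 : ({i | x (ε i) = true} : Finset _).Nonempty := ⟨ε.symm v, by simp [hv]⟩
  have h2 : ({i | x (ε i) = true} : Finset _) ≠ univ := fun e => by
    have := (hS (ε.symm v')).1 (by rw [e]; exact mem_univ _)
    simp [hv'] at this
  obtain ⟨e1, e2⟩ := cut_equiv ε h hS
  have h3 := card_pos_cut h1 h2
  refine (phi_le _ h1 h2).trans (e1.trans ?_).le
  rw [e, mul_div_assoc, div_self, mul_one]
  rw [e2, ← Fintype.card_congr ε, Fintype.card_fin]
  exact h3.ne'

theorem le_phi_of {N : ℕ} (hN : 2 ≤ N) {V : Type} [Fintype V] (ε : Fin N ≃ V)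
    {c : Fin N → Fin N → ℝ} {c' : V → V → ℝ} (h : ∀ i j, i ≠ j → c i j = c' (ε i) (ε j)) {t : ℝ}
    (e : ∀ x, t * (mass x * (Fintype.card V - mass x)) ≤ cutV c' x) : t ≤ Phi c := by
  refine le_phi hN _ fun S h1 h2 => ?_
  obtain ⟨e1, e2⟩ := cut_equiv ε h (x := fun v => decide (ε.symm v ∈ S)) (S := S) (by simp)
  have h3 := card_pos_cut h1 h2
  rw [e1, le_div_iff₀ (by rw [e2, ← Fintype.card_congr ε, Fintype.card_fin]; exact h3)]
  exact e _

/-! ### lists of rounds -/

variable {P K W : Type} [DecidableEq P] [Fintype K] [Fintype W] [DecidableEq W]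

theorem countP_fin {α : Type} (l : List α) (p : α → Bool) :
    l.countP p = #{j : Fin l.length | p l[j.1] = true} := by
  conv_lhs => rw [← List.map_getElem_finRange l, List.countP_map]
  exact countP_enum (List.nodup_finRange _) (List.mem_finRange) _

/-- the number of positions -/
def nPos (c0 : W) (r0 : Rnd P K W) (l : List (Rnd P K W)) : ℕ :=
  l.length / l.countP fun r => decide (r.1 none c0 = (l.headD r0).1 none c0)

omit [Fintype K] [DecidableEq W] in
theorem good_of_ok {lam : ℝ} {l : List (Rnd P K W)} (h : Ok lam l) (c0 : W) (r0 : Rnd P K W) :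
    Good (fun j : Fin l.length => l[j.1]) c0 (nPos c0 r0 l) lam := by
  obtain ⟨h0, G, hG, hc, hm⟩ := h
  have hl : 0 < l.length := List.length_pos_iff.2 h0
  have hh : l.headD r0 ∈ l := by
    cases l with
    | nil => exact absurd rfl h0
    | cons a l => exact List.mem_cons_self
  have hn : nPos c0 r0 l = G.card := by
    have := hc none c0 _ (hG _ hh none c0)
    rw [nPos, ← this]
    exact Nat.mul_div_cancel _ (Nat.pos_of_mul_pos_left (this ▸ hl))
  have hG0 : (0 : ℝ) < G.card := by exact_mod_cast card_pos.2 ⟨_, hG _ hh none c0⟩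
  have hl' : (0 : ℝ) < l.length := by exact_mod_cast hl
  have key : ∀ k c (g : P → ℝ),
      ∑ j : Fin l.length, g (l[j.1].1 k c) = l.length * 𝔼 p ∈ G, g p := fun k c g => by
    rw [← sum_fiberwise_of_maps_to (g := fun j : Fin l.length => l[j.1].1 k c)
      fun j _ => hG _ (List.getElem_mem _) k c, expect_eq_sum_div_card, mul_div_assoc',
      eq_div_iff hG0.ne', sum_mul, mul_sum]
    refine sum_congr rfl fun p hp => ?_
    rw [sum_congr rfl (g := fun _ => g p) fun j hj => by rw [(mem_filter.1 hj).2], sum_const,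
      nsmul_eq_mul]
    have := congrArg (Nat.cast (R := ℝ)) (hc k c p hp)
    rw [countP_fin] at this
    simp only [decide_eq_true_eq, Nat.cast_mul] at this
    rw [← this]; ring
  refine ⟨fun j k c => ?_, fun k c g => by rw [key, key], fun c c' hcc s => ?_⟩
  · have := hc none c0 _ (hG _ (List.getElem_mem j.2) k c)
    rw [countP_fin] at this
    rw [hn, Fintype.card_fin]
    simp only [decide_eq_true_eq] at this
    simpa only [eq_comm] using this
  · have := hm c c' hcc s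
    rw [div_le_iff₀ hl', ← Fin.sum_univ_fun_getElem] at this
    rw [key none c0 s, key none c0 fun p => s p ^ 2, Fintype.card_fin]
    refine (mul_le_mul_of_nonneg_left this hl'.le).trans (le_of_eq ?_)
    ring

theorem two_le_lam : 2 ≤ Fintype.card (Lam K W) :=
  Fintype.one_lt_card_iff.2 ⟨.inr (.inl true), .inr (.inl false), by simp⟩

/-- the kind of the vertex number `i` -/
noncomputable def kind (i : ℕ) : Lam K W := (Fintype.equivFin (Lam K W)).symm
  ⟨i % Fintype.card (Lam K W), Nat.mod_lt _ (lt_of_lt_of_le two_pos two_le_lam)⟩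

/-- the matrix of the capacities -/
noncomputable def capAt (q : Cst) (c0 : W) (r0 : Rnd P K W) (l : List (Rnd P K W)) (i j : ℕ) : ℕ :=
  if i = j then 0 else capR q c0 (nPos c0 r0 l) ((q.D + 1) * (l.length * Fintype.card (Lam K W)) ^ 2)
    (l.getD (i / Fintype.card (Lam K W)) r0) (l.getD (j / Fintype.card (Lam K W)) r0)
    (kind i) (kind j)

/-- the instance -/
noncomputable def toInst (q : Cst) (c0 : W) (r0 : Rnd P K W) (l : List (Rnd P K W))
    (h : l ≠ []) : Inst where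
  n := l.length * Fintype.card (Lam K W)
  two_le := two_le_lam.trans (Nat.le_mul_of_pos_left _ (List.length_pos_iff.2 h))
  cap i j := capAt q c0 r0 l i j
  isCap := by
    refine ⟨fun i j => ?_, fun i j => by positivity, fun i => by simp [capAt]⟩
    have : capAt q c0 r0 l i j = capAt q c0 r0 l j i := by
      unfold capAt
      rw [capR_symm]
      simp only [eq_comm]
    simp only [this]

/-- the numbering of the vertices -/
noncomputable def vtx (m : ℕ) : Fin (m * Fintype.card (Lam K W)) ≃ Fin m × Lam K W :=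
  finProdFinEquiv.symm.trans ((Equiv.refl _).prodCongr (Fintype.equivFin (Lam K W)).symm)

theorem cap_eq (q : Cst) (c0 : W) (r0 : Rnd P K W) (l : List (Rnd P K W)) (h : l ≠ [])
    (i j : Fin (l.length * Fintype.card (Lam K W))) (hij : i ≠ j) :
    (((toInst q c0 r0 l h).cap i j : ℚ) : ℝ) = capV q c0 (nPos c0 r0 l)
      ((q.D + 1) * (l.length * Fintype.card (Lam K W)) ^ 2) (fun j : Fin l.length => l[j.1])
      (vtx _ i) (vtx _ j) := by
  change ((capAt q c0 r0 l i j : ℚ) : ℝ) = _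
  rw [capAt, if_neg (Fin.val_ne_of_ne hij), Rat.cast_natCast,
    List.getD_eq_getElem (n := i / Fintype.card (Lam K W)) _ _ i.divNat.2,
    List.getD_eq_getElem (n := j / Fintype.card (Lam K W)) _ _ j.divNat.2]
  rfl

theorem phi_yes {lam del : ℝ} {l : List (Rnd P K W)} (h : (QCSP P K W lam del).yes l)
    {q : Cst} (hq : q.Ok (Fintype.card W) (Fintype.card K)) (hw : 2 ≤ Fintype.card W)
    (c0 : W) (r0 : Rnd P K W) : (toInst q c0 r0 l h.1.1).phi ≤ q.D := by
  obtain ⟨F, hF⟩ := h.2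
  obtain ⟨x, hx, e⟩ := (good_of_ok h.1 c0 r0).yes hq hw
    ((q.D + 1) * (l.length * Fintype.card (Lam K W)) ^ 2) F fun j => hF _ (List.getElem_mem _)
  have j0 : Fin l.length := ⟨0, List.length_pos_iff.2 h.1.1⟩
  exact phi_le_of (vtx l.length) (cap_eq q c0 r0 l h.1.1) (hx j0 true) (hx j0 false) e

theorem phi_no {lam del : ℝ} {l : List (Rnd P K W)} (h : (QCSP P K W lam del).no l)
    {q : Cst} (hq : q.Ok (Fintype.card W) (Fintype.card K)) (hw : 2 ≤ Fintype.card W)
    (hl : q.nu * lam ≤ 1 / 2) (hd : 0 < del) (c0 : W) (r0 : Rnd P K W) :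
    q.D + min del 1 / Fintype.card (Lam K W) ^ 2 ≤ (toInst q c0 r0 l h.1.1).phi := by
  have : Nonempty (Fin l.length) := ⟨⟨0, List.length_pos_iff.2 h.1.1⟩⟩
  refine le_phi_of (toInst q c0 r0 l h.1.1).two_le (vtx l.length) (cap_eq q c0 r0 l h.1.1)
    fun x => ?_
  refine (good_of_ok h.1 c0 r0).no hq hw hl (le_min hd.le zero_le_one) (min_le_right _ _)
    (fun F => ?_) (by simp) _
  have := h.2 F
  rw [viol, countP_fin, card_filter] at this
  rw [Fintype.card_fin]
  refine (mul_le_mul_of_nonneg_right (min_le_left _ _) (Nat.cast_nonneg _)).trans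
    (this.trans (le_of_eq ?_))
  push_cast
  rfl

/-! ### the program -/

/-- the data which is written down -/
noncomputable def mat (q : Cst) (c0 : W) (r0 : Rnd P K W) (l : List (Rnd P K W)) :
    List (List (ℕ × ℕ)) :=
  (List.range (l.length * Fintype.card (Lam K W))).map fun i =>
    (List.range (l.length * Fintype.card (Lam K W))).map fun j => (capAt q c0 r0 l i j, 1)

theorem ofFn_range {α : Type} (n : ℕ) (f : ℕ → α) :
    List.ofFn (fun i : Fin n => f i) = (List.range n).map f :=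
  List.ext_getElem (by simp) fun i _ _ => by simp

theorem codeQ_nat (n : ℕ) : codeQ (n : ℚ) = enc (n, 1) := by
  rw [codeQ, pair_eq_pr, enc_pair]
  simp [enc_nat]

theorem code_toInst (q : Cst) (c0 : W) (r0 : Rnd P K W) (l : List (Rnd P K W)) (h : l ≠ []) :
    (toInst q c0 r0 l h).code = enc (mat q c0 r0 l) := by
  rw [← codeList_eq, mat, List.map_map, ← ofFn_range]
  refine congrArg codeList (congrArg List.ofFn (funext fun i => ?_))
  rw [Function.comp_apply, ← codeList_eq, List.map_map, ← ofFn_range]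
  exact congrArg codeList (congrArg List.ofFn (funext fun j => codeQ_nat _))

section Prog

variable [Enc P] [EncInj P] [Enc (Rnd P K W)]
  (h1 : ∀ k c, PT ∅ fun r : Rnd P K W => r.1 k c) (h2 : ∀ k a, PT ∅ fun r : Rnd P K W => r.2 k a)
include h1 h2

theorem pt_capR {α : Type} [Enc α] (q : Cst) (c0 : W) {n B : α → ℕ} {r r' : α → Rnd P K W}
    (hn : PT ∅ n) (hB : PT ∅ B) (hr : PT ∅ r) (hr' : PT ∅ r') (a b : Lam K W) :
    PT ∅ fun x => capR q c0 (n x) (B x) (r x) (r' x) a b := by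
  have hit' : ∀ {r r' : α → Rnd P K W}, PT ∅ r → PT ∅ r' → ∀ u b,
      PT ∅ fun x => q.D + n x * wt q.A u.1 * hit (r x) u ((r' x).1 none c0) b := by
    intro r r' hr hr' u b
    refine (PT.const _).add ((hn.mul (PT.const _)).mul ?_)
    refine (PT.finComp (fun m : W → Bool => #{c | m c = true ∧ u.2.1 c = b})
      (PT.funMk fun c => PT.eq ((h1 u.1 c).comp hr) ((h1 none c0).comp hr'))).congr fun x => ?_
    simp [hit]
  have ct' : ∀ {r : α → Rnd P K W}, PT ∅ r → ∀ u β, PT ∅ fun x => q.D + ct q.A (r x).2 u β := by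
    intro r hr u β
    exact PT.finComp (fun ok : K → (W → Z2) → Bool => q.D + ct q.A ok u β)
      (PT.funMk fun k => PT.funMk fun a => (h2 k a).comp hr)
  rcases a with a | a | a <;> rcases b with b | b | b <;> simp only [capR]
  · exact (PT.const _).add (PT.ite (PT.decide_and
      (PT.eq ((h1 none c0).comp hr) ((h1 none c0).comp hr')) (PT.const _)) hB (PT.const _))
  · exact PT.const _
  · exact hit' hr' hr _ _
  · exact PT.const _
  · exact PT.ite (PT.const _) ((PT.const _).add hB) (PT.const _)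
  · exact ct' hr' _ _
  · exact hit' hr hr' _ _
  · exact ct' hr _ _
  · exact PT.const _

theorem pt_mat (q : Cst) (c0 : W) (r0 : Rnd P K W) : PT ∅ (mat q c0 r0) := by
  have hN : PT ∅ fun l : List (Rnd P K W) => l.length * Fintype.card (Lam K W) :=
    (PT.length PT.id).mul (PT.const _)
  have hR : PT ∅ fun l : List (Rnd P K W) => List.range (l.length * Fintype.card (Lam K W)) :=
    PT.range hN ((PBd.length (A := ∅) PT.id).mul (PBd.const _))
  have hn : PT ∅ (nPos c0 r0) := (PT.length PT.id).div (PT.countP PT.id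
    (PT.eq ((h1 none c0).comp PT.snd') ((h1 none c0).comp (PT.fst'.headD (PT.const r0)))))
  refine PT.map hR (PT.map (hR.comp PT.fst') (PT.pair ?_ (PT.const 1)))
  have hl : PT ∅ fun p : (List (Rnd P K W) × ℕ) × ℕ => p.1.1 := PT.fst'.fst
  have hi : PT ∅ fun p : (List (Rnd P K W) × ℕ) × ℕ => p.1.2 := PT.fst'.snd
  have hp : 0 < Fintype.card (Lam K W) := lt_of_lt_of_le two_pos two_le_lam
  refine PT.ite (PT.eqNat hi PT.snd') (PT.const 0) ?_
  exact PT.finCase (f := fun (t : Fin (Fintype.card (Lam K W)) × Fin (Fintype.card (Lam K W)))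
      (p : (List (Rnd P K W) × ℕ) × ℕ) => capR q c0 (nPos c0 r0 p.1.1)
      ((q.D + 1) * (p.1.1.length * Fintype.card (Lam K W)) ^ 2)
      (p.1.1.getD (p.1.2 / Fintype.card (Lam K W)) r0) (p.1.1.getD (p.2 / Fintype.card (Lam K W)) r0)
      ((Fintype.equivFin (Lam K W)).symm t.1) ((Fintype.equivFin (Lam K W)).symm t.2))
    ((PT.finMk (hi.mod (PT.const _)) fun _ => Nat.mod_lt _ hp).pair
      (PT.finMk (PT.snd'.mod (PT.const _)) fun _ => Nat.mod_lt _ hp))
    fun t => pt_capR h1 h2 q c0 (hn.comp hl) ((PT.const _).mul ((hN.comp hl).powConst 2))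
      (PT.getD hl (hi.div (PT.const _)) (PT.const _))
      (PT.getD hl (PT.snd'.div (PT.const _)) (PT.const _)) _ _

/-- the gadget, for any code of the rounds whose components can be read -/
theorem gapHard_of_hard' {lam del : ℝ} (hw : 2 ≤ Fintype.card W)
    (hl : lam ≤ lam0 (Fintype.card W)) (hd : 0 < del) (h : Hard (QCSP P K W lam del)) :
    ∃ C : ℝ, 1 < C ∧ GapHard C := by
  obtain ⟨q, hq, hD, hnu⟩ := exists_cst hw (Fintype.card K)
  obtain ⟨c0⟩ : Nonempty W := Fintype.card_pos_iff.1 (by omega)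
  obtain ⟨r0⟩ : Nonempty (Rnd P K W) := by
    obtain ⟨f, -, f1, -⟩ := h
    obtain ⟨r, -⟩ := List.exists_mem_of_ne_nil _ (f1 [] ⟨fun _ => true, by simp⟩).1.1
    exact ⟨r⟩
  have hD' : (0 : ℝ) < q.D := by exact_mod_cast hD
  have hL : (0 : ℝ) < Fintype.card (Lam K W) := by
    exact_mod_cast lt_of_lt_of_le two_pos two_le_lam
  have ht : 0 < min del 1 / (Fintype.card (Lam K W) : ℝ) ^ 2 := by positivity
  refine ⟨1 + min del 1 / Fintype.card (Lam K W) ^ 2 / 2 / q.D,
    lt_add_of_pos_right _ (by positivity), fun L hL => ?_⟩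
  obtain ⟨f, hf, f1, f2⟩ := (cookLevin L hL).trans h
  have h0 : ∀ x : List Bool, f ⟨x⟩ ≠ [] := fun x => by
    by_cases hx : x ∈ L
    · exact (f1 ⟨x⟩ hx).1.1
    · exact (f2 ⟨x⟩ hx).1.1
  refine ⟨fun x => toInst q c0 r0 (f ⟨x⟩) (h0 x), fun _ => q.D, ?_, fun x => ⟨Nat.cast_pos.2 hD,
    fun hx => ?_, fun hx => ?_⟩⟩
  · obtain ⟨g, hg, hg'⟩ := (PT.const (q.D, 1)).pair ((pt_mat h1 h2 q c0 r0).comp hf)
    refine polyTime_iff.2 (hg.congr fun x => ?_)
    rw [code_toInst, codeQ_nat, pair_eq_pr]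
    exact hg' ⟨x⟩
  · exact_mod_cast phi_yes (f1 ⟨x⟩ hx) hq hw c0 r0
  · refine lt_of_lt_of_le ?_ (phi_no (f2 ⟨x⟩ hx) hq hw (hnu lam hl) hd c0 r0)
    rw [Rat.cast_natCast, add_mul, div_mul_cancel₀ _ hD'.ne']
    linarith

end Prog

/-- the gadget -/
theorem gapHard_of_hard [Enc P] [EncInj P] {lam del : ℝ} (hw : 2 ≤ Fintype.card W)
    (hl : lam ≤ lam0 (Fintype.card W)) (hd : 0 < del) (h : Hard (QCSP P K W lam del)) :
    ∃ C : ℝ, 1 < C ∧ GapHard C :=
  gapHard_of_hard' (fun k c => (PT.fst'.funAt k).funAt c) (fun k a => (PT.snd'.funAt k).funAt a)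
    hw hl hd h

end Vale.Agent.P318B.Gd
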