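import Vale.Agent.P318B.Spec

/-!
# P318B / RdU : uniform queries, renaming of the variables, hardness of the rounds from the blocks
-/

namespace Vale.Agent.P318B.Rd

open Finset Vale.Agent.Lib.PolyTime Vale.Agent.Lib.PCP Vale.Agent.Lib.Dep
open scoped BigOperators

/-! ### uniform queries -/

theorem expect_prod {A R : Type} [Fintype A] [Fintype R] (f : A × R → ℝ) :
    𝔼 o, f o = 𝔼 r, 𝔼 z, f (z, r) := by
  rw [← univ_product_univ, expect_product, expect_comm]

theorem unif_of_bij {A R : Type} [Fintype A] [Fintype R] [Nonempty R] {Φ : A × R → A}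
    (h : ∀ r, Function.Bijective fun z => Φ (z, r)) (g : A → ℝ) : 𝔼 o, g (Φ o) = 𝔼 z, g z := by
  rw [expect_prod, expect_congr rfl fun r _ => Fintype.expect_bijective _ (h r) _ g fun _ => rfl,
    Fintype.expect_const]

theorem bij_add {A : Type} [AddCommGroup A] {f : A → A} (h : Function.Bijective f) (κ : A) :
    Function.Bijective fun z => f z + κ := (Equiv.addRight κ).bijective.comp h

variable {p E : ℕ}

theorem bij_sw (k : Fin 6) : Function.Bijective (sw k : G p → G p) :=
  Function.Involutive.bijective fun z => funext fun m => by simp [sw]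

theorem bij_thG {th : V p →ₗ[ZMod 2] V p} (h : Function.Injective th) :
    Function.Bijective (thG th) :=
  Finite.injective_iff_bijective.1 fun _ _ e => funext fun k => h (congrFun e k)

theorem pt_bij (d : Dat p E) (h : Function.Injective d.th) (r) (t : Fin 5) (m : Fin 10) :
    (Function.Bijective fun z => (pt d (z, r) t m).1) ∧
      ∀ z, (pt d (z, r) t m).2 = (pt d (0, r) t m).2 := by
  have h0 : Function.Bijective fun z : G p => z := Function.bijective_id
  have h1 : Function.Bijective fun z : G p => thG d.th z := bij_thG h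
  have h2 : Function.Bijective fun z : G p => sw 2 z := bij_sw 2
  have h3 : Function.Bijective fun z : G p => sw 3 z := bij_sw 3
  revert t m
  simp only [Fin.forall_fin_succ, pt, Matrix.cons_val_zero, Matrix.cons_val_succ, implies_true,
    and_true, IsEmpty.forall_iff, h0, h1, h2, h3, bij_add h0, bij_add h1, bij_add (bij_add h0 _),
    bij_add (bij_add h1 _), bij_add (bij_add (bij_add h1 _) _)]

theorem qr_bij (d : Dat p E) (h : Function.Injective d.th) (r) (t : Fin 5) (m : Fin 10)
    (b : Bool) : Function.Bijective fun z => qr (pt d (z, r) t m) b := by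
  obtain ⟨h1, h2⟩ := pt_bij d h r t m
  cases b
  · exact h1
  · simp only [qr, cond_true, h2]
    exact bij_add h1 _

theorem uu_add (th : V p →ₗ[ZMod 2] V p) (r : Fin E → Fin 9 → G p) (e) (c c' : W) :
    uu th r e (c + c') = uu th r e c + uu th r e c' := by
  simp only [uu, Pi.add_apply, add_smul, sum_add_distrib]

theorem unifS : UnifS := by
  intro p E d cl lam hp hE h0 hs
  have : Nonempty (Fin E) := ⟨⟨0, hE⟩⟩
  have : Nonempty (Fin p) := ⟨⟨0, hp⟩⟩
  refine ⟨fun k c g => ?_, fun c c' hc s => ?_⟩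
  · cases k with
    | none =>
      exact unif_of_bij (Φ := fun o : J p E => o.1 + uu d.th d.r o.2.1 c)
        (fun r => bij_add Function.bijective_id (uu d.th d.r r.1 c)) g
    | some t =>
      exact unif_of_bij (Φ := fun o : J p E => qr (pt d o t (prj c).1) (prj c).2)
        (fun r => qr_bij d hs.inj r t (prj c).1 (prj c).2) g
  · have hc' : c + c' ≠ 0 := by rwa [← ZModModule.sub_eq_add, sub_ne_zero]
    refine le_of_eq_of_le ?_ (Cd.mix_of_bias h0 hs.bias _ hc' s)
    change 𝔼 o : J p E, s (o.1 + uu d.th d.r o.2.1 c) * s (o.1 + uu d.th d.r o.2.1 c') = _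
    rw [expect_prod, expect_prod]
    simp only [Fintype.expect_const]
    refine expect_congr rfl fun e _ => ?_
    rw [← Cd.shift (fun z => s z * s (z + uu d.th d.r e (c + c'))) (uu d.th d.r e c)]
    refine expect_congr rfl fun z _ => ?_
    rw [uu_add, add_assoc, ← add_assoc (uu _ _ _ c), ZModModule.add_self, zero_add]

/-! ### renaming -/

theorem length_vars (φ : CNF) : (vars φ).length = 3 * φ.length := by
  induction φ with
  | nil => rfl
  | cons c φ ih =>
    simp only [vars, List.flatMap_cons, List.length_append, List.length_cons] at ih ⊢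
    rw [ih, List.length_nil]
    omega

theorem mem_vars {φ : CNF} {c : Clause} (h : c ∈ φ) :
    c.1.1 ∈ vars φ ∧ c.2.1.1 ∈ vars φ ∧ c.2.2.1 ∈ vars φ := by
  refine ⟨?_, ?_, ?_⟩ <;> exact List.mem_flatMap.2 ⟨c, h, by simp⟩

theorem bd_ren (φ : CNF) : Bd (3 * φ.length) (ren φ) := by
  refine ⟨by rw [ren, List.length_map]; omega, fun c hc => ?_⟩
  obtain ⟨b, hb, rfl⟩ := List.mem_map.1 hc
  rw [← length_vars]
  simpa only [List.idxOf_lt_length_iff] using mem_vars hb

theorem sat_ren (φ : CNF) : Satisfiable (ren φ) ↔ Satisfiable φ := by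
  constructor
  · rintro ⟨σ, h⟩
    exact ⟨fun v => σ ((vars φ).idxOf v), fun c hc => h _ (List.mem_map_of_mem hc)⟩
  · rintro ⟨σ, h⟩
    refine ⟨fun i => σ ((vars φ).getD i 0), fun c hc => ?_⟩
    obtain ⟨b, hb, rfl⟩ := List.mem_map.1 hc
    have e : ∀ v ∈ vars φ, (vars φ).getD ((vars φ).idxOf v) 0 = v := fun v hv => by
      rw [List.getD_eq_getElem _ _ (List.idxOf_lt_length_iff.2 hv), List.getElem_idxOf]
    obtain ⟨h1, h2, h3⟩ := mem_vars hb
    simpa only [satClause, satLit, e _ h1, e _ h2, e _ h3] using h b hb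

/-! ### hardness of the rounds -/

theorem hard_of [DecidableEq Raw] (hC : CompleteS) (hS : SoundS) (hF : FindS) (hP : ProgS)
    (hU : UnifS) :
    ∃ lam del : ℝ, lam ≤ Gd.lam0 (Fintype.card W) ∧ 0 < del ∧
      Hard (Gd.QCSP Raw K5 W lam del) := by
  classical
  obtain ⟨l0, del, p0, hl0, hdel, hS⟩ := hS
  have hg : 0 < Gd.lam0 (Fintype.card W) := by
    have : (0 : ℝ) < Fintype.card W := by exact_mod_cast Fintype.card_pos
    unfold Gd.lam0
    positivity
  obtain ⟨L, hL⟩ := exists_nat_one_div_lt (lt_min hl0 hg)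
  obtain ⟨E, hE, pp, dat, hd, hpt⟩ := hF (L + 1) (max p0 1) L.succ_pos
  obtain ⟨enum, he, hprog⟩ := hP E pp dat hpt
  have hL' : (1 : ℝ) / ((L + 1 : ℕ) : ℝ) < min l0 (Gd.lam0 (Fintype.card W)) := by
    exact_mod_cast hL
  have h0 : (0 : ℝ) ≤ 1 / ((L + 1 : ℕ) : ℝ) := by positivity
  have hp : ∀ a, 0 < pp a := fun a => (le_max_right _ _).trans (hd a).1
  have hi : ∀ a, Function.Injective (raw : G (pp a) → Raw) := fun a x y e =>
    EncInj.inj (show enc x = enc y from congrArg (enc : Raw → _) e)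
  have hne : ∀ a, Nonempty (J (pp a) E) := fun a =>
    ⟨(0, (⟨0, hE⟩, ⟨0, hp a⟩), 0, 0, 0, 0, 0, 0)⟩
  have hok : ∀ a, Gd.Ok (1 / ((L + 1 : ℕ) : ℝ))
      ((enum a).map fun o => (rd (dat a) (ren a) o).map raw) := fun a => by
    have := hne a
    obtain ⟨h1, h2⟩ := hU _ E (dat a) (ren a) _ (hp a) hE h0 (hd a).2.seed
    exact Gd.ok_of_fin (he a).1 (he a).2 (hi a) h1 h2
  refine ⟨_, del, (hL'.trans_le (min_le_right _ _)).le, hdel, _, hprog, fun a ha => ⟨hok a, ?_⟩,
    fun a ha => ⟨hok a, ?_⟩⟩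
  · obtain ⟨F, hF⟩ := hC _ E _ (dat a) (ren a) _ (hp a) (hd a).2 (bd_ren a) ((sat_ren a).2 ha)
    exact Gd.sat_of_fin (hi a) F fun o => (satR_rd _ _ _ _).2 (hF o)
  · refine Gd.far_of_fin (he a).1 (he a).2 raw fun F => ?_
    have := hne a
    have hJ : (0 : ℝ) < Fintype.card (J (pp a) E) := by exact_mod_cast Fintype.card_pos
    have h1 := mt (hS _ E _ (dat a) (ren a) _ ((le_max_left _ _).trans (hd a).1) hE h0
      (hL'.trans_le (min_le_left _ _)).le (hd a).2 (bd_ren a) F) (mt (sat_ren a).1 ha)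
    rw [Fintype.expect_eq_sum_div_card, le_div_iff₀ hJ]
    refine (not_lt.1 h1).trans (le_of_eq ?_)
    rw [card_filter]
    push_cast
    refine sum_congr rfl fun o _ => ?_
    by_cases h : Pass (dat a) (ren a) F o <;> simp [satR_rd, h]

end Vale.Agent.P318B.Rd
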