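import Vale.Agent.P318B.Complete
import Vale.Agent.P318B.Find
import Vale.Agent.P318B.Fam
import Vale.Agent.P318B.RdU
import Vale.Agent.P318B.Gad
import Vale.Agent.P318B.Apx

/-!
# P318B / All0: the main statement from the remaining blocks
-/

namespace Vale.Agent.P318B

open Vale.Agent.Lib.PolyTime

theorem gap_of (h1 : SoundS) (h2 : SeedS) (h3 : ProgS) : ∃ C : ℝ, 1 < C ∧ GapHard C := by
  classical
  have : EncInj Raw := ⟨fun a b h => by cases a; cases b; exact congrArg Raw.mk h⟩
  obtain ⟨lam, del, a1, a2, a3⟩ := Rd.hard_of complete h1 (find_of h2 Fm.famS) h3 Rd.unifS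
  exact Gd.gapHard_of_hard (by simp) a1 a2 a3

theorem main_of (h1 : SoundS) (h2 : SeedS) (h3 : ProgS) : Main := by
  obtain ⟨C, a1, a2⟩ := gap_of h1 h2 h3
  exact main_of_gap a1 a2

end Vale.Agent.P318B
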