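import Vale.Agent.P318B.Defs

/-!
Definitions for P318, question Q1, unweighted graphs.
-/

namespace Vale.Agent.P318B

open Vale.Agent.P325

/-- Unweighted simple graphs: all capacities are `0` or `1`. -/
def Inst.Simple (I : Inst) : Prop := ∀ i j, I.cap i j = 0 ∨ I.cap i j = 1

/-- The gap problem with ratio `C` is NP-hard on unweighted graphs: every language in NP has a
polynomial time map to pairs (threshold `τ > 0`, unweighted graph) with `Φ ≤ τ` on members and
`Φ > C τ` on non-members. -/
def GapHardS (C : ℝ) : Prop :=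
  ∀ L ∈ NP, ∃ (I : List Bool → Inst) (τ : List Bool → ℚ),
    PolyTime (fun x => pair (codeQ (τ x)) (I x).code) ∧
      ∀ x, (I x).Simple ∧ 0 < τ x ∧ (x ∈ L → (I x).phi ≤ τ x) ∧ (x ∉ L → C * τ x < (I x).phi)

/-- `A` is a factor `C` approximation algorithm on unweighted graphs: on the code of an
unweighted graph it outputs the indicator word of a nonempty proper subset whose ratio is at most
`C Φ`. -/
def ApproxS (C : ℝ) (A : List Bool → List Bool) : Prop :=
  ∀ I : Inst, I.Simple → ∃ S : Finset (Fin I.n), S.Nonempty ∧ S ≠ Finset.univ ∧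
    A I.code = List.ofFn (fun i => decide (i ∈ S)) ∧ I.ratio S ≤ C * I.phi

end Vale.Agent.P318B
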