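import Mathlib.Algebra.Field.ZMod
import Mathlib.Algebra.Order.BigOperators.Ring.Finset
import Mathlib.Algebra.BigOperators.Field
import Mathlib.Data.Real.Basic
import Mathlib.Tactic.Linarith
import Mathlib.Tactic.Positivity
import Mathlib.Tactic.FieldSimp

/-!
Blow-up of a graph with small natural capacities to an unweighted graph: the cut estimates.
-/

namespace Vale.Agent.P318B.Uw

open Finset

section round

variable {ι : Type} [Fintype ι] [DecidableEq ι]

/-- a bilinear cut function is nonnegative on the cube if it is so at the vertices -/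
theorem cube_nonneg (d : ι → ι → ℝ) (hd : ∀ u, d u u = 0)
    (h : ∀ S : Finset ι, 0 ≤ ∑ u ∈ S, ∑ v ∈ Sᶜ, d u v) (x : ι → ℝ) (h0 : ∀ u, 0 ≤ x u)
    (h1 : ∀ u, x u ≤ 1) : 0 ≤ ∑ u, ∑ v, d u v * (x u * (1 - x v)) := by
  have key : ∀ T : Finset ι, ∀ x : ι → ℝ, (∀ u, 0 ≤ x u) → (∀ u, x u ≤ 1) →
      (∀ u, u ∉ T → x u = 0 ∨ x u = 1) → 0 ≤ ∑ u, ∑ v, d u v * (x u * (1 - x v)) := by
    intro T
    induction T using Finset.induction_on with
    | empty =>
      intro x _ _ hx
      refine (h (univ.filter fun u => x u = 1)).trans (le_of_eq ?_)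
      rw [sum_filter]
      refine sum_congr rfl fun u _ => ?_
      rw [compl_filter, sum_filter]
      rcases hx u (notMem_empty u) with e | e
      · simp [e]
      · rw [if_pos e]
        refine sum_congr rfl fun v _ => ?_
        rcases hx v (notMem_empty v) with e' | e' <;> simp [e, e']
    | insert a T _ ih =>
      intro x h0 h1 hx
      have hu : ∀ t : ℝ, t = 0 ∨ t = 1 →
          0 ≤ ∑ u, ∑ v, d u v * (Function.update x a t u * (1 - Function.update x a t v)) := by
        intro t ht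
        refine ih _ (fun u => ?_) (fun u => ?_) fun u hu => ?_
        · by_cases e : u = a
          · subst e; rcases ht with r | r <;> simp [r]
          · simp [e, h0 u]
        · by_cases e : u = a
          · subst e; rcases ht with r | r <;> simp [r]
          · simp [e, h1 u]
        · by_cases e : u = a
          · subst e; simpa using ht
          · rw [Function.update_of_ne e]
            exact hx u (by simp [e, hu])
      have e : ∑ u, ∑ v, d u v * (x u * (1 - x v)) =
          (1 - x a) * ∑ u, ∑ v, d u v * (Function.update x a 0 u * (1 - Function.update x a 0 v)) +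
          x a * ∑ u, ∑ v, d u v * (Function.update x a 1 u * (1 - Function.update x a 1 v)) := by
        rw [mul_sum, mul_sum, ← sum_add_distrib]
        refine sum_congr rfl fun u _ => ?_
        rw [mul_sum, mul_sum, ← sum_add_distrib]
        refine sum_congr rfl fun v _ => ?_
        by_cases e1 : u = a <;> by_cases e2 : v = a
        · subst e1; subst e2; simp [hd]
        · subst e1; simp [e2]; ring
        · subst e2; simp [e1]; ring
        · simp [e1, e2]; ring
      rw [e]
      exact add_nonneg (mul_nonneg (sub_nonneg.2 (h1 a)) (hu 0 (Or.inl rfl)))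
        (mul_nonneg (h0 a) (hu 1 (Or.inr rfl)))
  exact key univ x h0 h1 fun u hu => absurd (mem_univ u) hu

end round

section block

variable {F : Type} [Field F] [Fintype F] [DecidableEq F]

/-- the bilinear map of a block -/
def bl (a b : F × F) : F := a.1 * b.1 + a.2 + b.2

omit [Fintype F] [DecidableEq F] in
theorem bl_comm (a b : F × F) : bl a b = bl b a := by unfold bl; ring

omit [DecidableEq F] in
theorem sum_shift (φ : F → ℝ) (c : F) : ∑ s, φ (c + s) = ∑ s, φ s :=
  Equiv.sum_comp (Equiv.addLeft c) φ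

omit [DecidableEq F] in
theorem sum_bl (φ : F → ℝ) (a : F × F) : ∑ b, φ (bl a b) = Fintype.card F * ∑ s, φ s := by
  rw [Fintype.sum_prod_type]
  simp only [bl]
  rw [sum_congr rfl fun y _ => sum_shift φ (a.1 * y + a.2), sum_const, card_univ, nsmul_eq_mul]

omit [DecidableEq F] in
theorem corr_zero {φ : F → ℝ} (h0 : ∑ s, φ s = 0) {b b' : F × F} (h : b.1 ≠ b'.1) :
    ∑ a, φ (bl a b) * φ (bl a b') = 0 := by
  rw [Fintype.sum_prod_type]
  have e : ∀ x : F, ∑ s, φ (bl (x, s) b) * φ (bl (x, s) b') =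
      ∑ s, φ s * φ ((s + b'.2 - b.2) + (b'.1 - b.1) * x) := fun x => by
    rw [← sum_shift (fun s => φ s * φ ((s + b'.2 - b.2) + (b'.1 - b.1) * x)) (x * b.1 + b.2)]
    refine sum_congr rfl fun s _ => ?_
    simp only [bl]
    congr 2 <;> ring
  rw [sum_congr rfl fun x _ => e x, sum_comm]
  refine sum_eq_zero fun s _ => ?_
  rw [← mul_sum]
  have := Equiv.sum_comp (Equiv.mulLeft₀ (b'.1 - b.1) (sub_ne_zero.2 h.symm))
    fun z => φ ((s + b'.2 - b.2) + z)
  simp only [Equiv.mulLeft₀_apply] at this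
  rw [this, sum_shift, h0, mul_zero]

theorem sq_bound {φ : F → ℝ} (h0 : ∑ s, φ s = 0) (h1 : ∀ s, |φ s| ≤ 1) (g : F × F → ℝ) :
    ∑ a, (∑ b, g b * φ (bl a b)) ^ 2 ≤ (Fintype.card F : ℝ) ^ 3 * ∑ b, g b ^ 2 := by
  have e : ∑ a, (∑ b, g b * φ (bl a b)) ^ 2 =
      ∑ b, ∑ b', g b * g b' * ∑ a, φ (bl a b) * φ (bl a b') := by
    simp only [sq, sum_mul_sum]
    rw [sum_comm]
    refine sum_congr rfl fun b _ => ?_
    rw [sum_comm]
    refine sum_congr rfl fun b' _ => ?_
    rw [mul_sum]
    exact sum_congr rfl fun a _ => by ring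
  have b1 : ∀ b b' : F × F, g b * g b' * ∑ a, φ (bl a b) * φ (bl a b') ≤
      if b.1 = b'.1 then (Fintype.card F : ℝ) ^ 2 * ((g b ^ 2 + g b' ^ 2) / 2) else 0 := by
    intro b b'
    split_ifs with h
    · have t1 : |∑ a, φ (bl a b) * φ (bl a b')| ≤ (Fintype.card F : ℝ) ^ 2 := by
        refine (abs_sum_le_sum_abs _ _).trans ((sum_le_sum fun a _ => (?_ : _ ≤ (1 : ℝ))).trans ?_)
        · rw [abs_mul]
          exact mul_le_one₀ (h1 _) (abs_nonneg _) (h1 _)
        · simp [sq]
      have t2 : |g b * g b'| ≤ (g b ^ 2 + g b' ^ 2) / 2 := by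
        rw [abs_le]; constructor <;> nlinarith [sq_nonneg (g b + g b'), sq_nonneg (g b - g b')]
      refine (le_abs_self _).trans ?_
      rw [abs_mul, mul_comm]
      exact mul_le_mul t1 t2 (abs_nonneg _) (by positivity)
    · rw [corr_zero h0 h, mul_zero]
  rw [e]
  refine (sum_le_sum fun b _ => sum_le_sum fun b' _ => b1 b b').trans (le_of_eq ?_)
  have e2 : ∀ b : F × F, (∑ b' : F × F, if b.1 = b'.1 then
      (Fintype.card F : ℝ) ^ 2 * ((g b ^ 2 + g b' ^ 2) / 2) else 0) =
      ∑ t, (Fintype.card F : ℝ) ^ 2 * ((g b ^ 2 + g (b.1, t) ^ 2) / 2) := fun b => by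
    rw [Fintype.sum_prod_type, sum_comm]
    exact sum_congr rfl fun t _ => by simp only [sum_ite_eq, mem_univ, if_true]
  rw [sum_congr rfl fun b _ => e2 b, Fintype.sum_prod_type, Fintype.sum_prod_type, mul_sum]
  refine sum_congr rfl fun y _ => ?_
  simp only [← mul_sum, ← sum_div, sum_add_distrib, sum_const, card_univ, nsmul_eq_mul]
  ring

/-- the spectral bound of a block -/
theorem block_bound {φ : F → ℝ} (h0 : ∑ s, φ s = 0) (h1 : ∀ s, |φ s| ≤ 1) {L : ℝ} (hL : 0 < L)
    (hq : L ^ 2 ≤ Fintype.card F) (f g : F × F → ℝ) :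
    ∑ a, ∑ b, f a * g b * φ (bl a b) ≤
      (Fintype.card F : ℝ) ^ 2 / L * ((∑ a, f a ^ 2 + ∑ b, g b ^ 2) / 2) := by
  set q : ℝ := (Fintype.card F : ℝ) with hqd
  have q0 : 0 < q := lt_of_lt_of_le (by positivity) hq
  have t : 0 < q ^ 2 / L := by positivity
  have e : ∀ a, ∑ b, f a * g b * φ (bl a b) ≤
      (q ^ 2 / L * f a ^ 2 + (∑ b, g b * φ (bl a b)) ^ 2 / (q ^ 2 / L)) / 2 := fun a => by
    have : ∑ b, f a * g b * φ (bl a b) = f a * ∑ b, g b * φ (bl a b) := by
      rw [mul_sum]; exact sum_congr rfl fun b _ => by ring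
    rw [this]
    generalize ∑ b, g b * φ (bl a b) = z
    generalize q ^ 2 / L = r at t
    have : (r * f a ^ 2 + z ^ 2 / r) / 2 - f a * z = (r * f a - z) ^ 2 / (2 * r) := by
      field_simp; ring
    have h2 : 0 ≤ (r * f a - z) ^ 2 / (2 * r) := by positivity
    linarith
  refine (sum_le_sum fun a _ => e a).trans ?_
  rw [← sum_div, sum_add_distrib, ← mul_sum, ← sum_div]
  have s1 := sq_bound h0 h1 g
  have g0 : 0 ≤ ∑ b, g b ^ 2 := sum_nonneg fun _ _ => sq_nonneg _
  have s2 : (∑ a, (∑ b, g b * φ (bl a b)) ^ 2) / (q ^ 2 / L) ≤ q ^ 2 / L * ∑ b, g b ^ 2 := by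
    rw [div_le_iff₀ t]
    refine s1.trans ?_
    have : q ^ 3 ≤ (q ^ 2 / L) ^ 2 := by
      rw [div_pow, le_div_iff₀ (by positivity)]
      calc q ^ 3 * L ^ 2 ≤ q ^ 3 * q := by gcongr
        _ = _ := by ring
    calc q ^ 3 * ∑ b, g b ^ 2 ≤ (q ^ 2 / L) ^ 2 * ∑ b, g b ^ 2 := by gcongr
      _ = _ := by ring
  linarith

end block

section graph

variable {ι F : Type} [Fintype ι] [DecidableEq ι] [Field F] [Fintype F] [DecidableEq F]

/-- the blow-up: cliques on the clouds, the edge sets `E u v` between them -/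
def adj (E : ι → ι → Finset F) (a b : ι × F × F) : ℝ :=
  if a.1 = b.1 then (if a = b then 0 else 1) else if bl a.2 b.2 ∈ E a.1 b.1 then 1 else 0

omit [Field F] in
theorem sum_ind (E : Finset F) : ∑ s : F, (if s ∈ E then (1 : ℝ) else 0) = E.card := by simp

theorem cut_yes (E : ι → ι → Finset F) (S : Finset ι) :
    ∑ a ∈ S ×ˢ univ, ∑ b ∈ (S ×ˢ univ)ᶜ, adj E a b =
      (Fintype.card F : ℝ) ^ 3 * ∑ u ∈ S, ∑ v ∈ Sᶜ, ((E u v).card : ℝ) := by
  have e : (S ×ˢ (univ : Finset (F × F)))ᶜ = Sᶜ ×ˢ univ := by ext a; simp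
  rw [e, sum_product, mul_sum]
  refine sum_congr rfl fun u hu => ?_
  simp only [sum_product]
  rw [sum_comm, mul_sum]
  refine sum_congr rfl fun v hv => ?_
  have huv : u ≠ v := fun r => mem_compl.1 hv (r ▸ hu)
  have : ∀ a : F × F, ∑ b : F × F, adj E (u, a) (v, b) = Fintype.card F * (E u v).card := by
    intro a
    simp only [adj, huv, if_false]
    rw [sum_bl (fun s => if s ∈ E u v then (1 : ℝ) else 0) a, sum_ind]
  rw [sum_congr rfl fun a _ => this a, sum_const, card_univ, Fintype.card_prod, nsmul_eq_mul]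
  push_cast
  ring

theorem cut_no (E : ι → ι → Finset F) {φ L : ℝ} (hφ : φ ≤ 1) (hL : 0 < L)
    (hq : L ^ 2 ≤ Fintype.card F)
    (h : ∀ S : Finset ι, φ * Fintype.card F * (S.card * Sᶜ.card) ≤
      ∑ u ∈ S, ∑ v ∈ Sᶜ, ((E u v).card : ℝ))
    (S : Finset (ι × F × F)) (hS : S.Nonempty) :
    (φ - 1 / L) * (S.card * Sᶜ.card) ≤ ∑ a ∈ S, ∑ b ∈ Sᶜ, adj E a b := by
  set q : ℝ := (Fintype.card F : ℝ) with hqd
  have q0 : 0 < q := lt_of_lt_of_le (by positivity) hq
  set χ : ι × F × F → ℝ := fun a => if a ∈ S then 1 else 0 with hχ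
  set k : ι → ℝ := fun u => ∑ a, χ (u, a) with hk
  have cq : ∀ c : ℝ, ∑ _a : F × F, c = q ^ 2 * c := fun c => by
    rw [sum_const, card_univ, Fintype.card_prod, nsmul_eq_mul]; push_cast; ring
  have k0 : ∀ u, 0 ≤ k u := fun u => sum_nonneg fun a _ => by simp only [hχ]; split_ifs <;> simp
  have k1 : ∀ u, k u ≤ q ^ 2 := fun u => by
    refine (sum_le_sum fun a _ => (?_ : _ ≤ (1 : ℝ))).trans (by rw [cq, mul_one])
    simp only [hχ]; split_ifs <;> simp
  have kc : ∀ v, ∑ b, (1 - χ (v, b)) = q ^ 2 - k v := fun v => by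
    rw [sum_sub_distrib, cq, mul_one]
  have cut : ∀ A : ι × F × F → ι × F × F → ℝ, ∑ a ∈ S, ∑ b ∈ Sᶜ, A a b =
      ∑ u, ∑ v, ∑ a, ∑ b, χ (u, a) * (1 - χ (v, b)) * A (u, a) (v, b) := fun A => by
    have : ∑ a ∈ S, ∑ b ∈ Sᶜ, A a b = ∑ a, ∑ b, χ a * (1 - χ b) * A a b := by
      rw [← sum_subset (subset_univ S) fun a _ ha => by simp [hχ, ha]]
      refine sum_congr rfl fun a ha => ?_
      rw [← sum_subset (subset_univ Sᶜ) fun b _ hb => by
        simp [hχ, not_not.1 (mt mem_compl.2 hb)]]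
      exact sum_congr rfl fun b hb => by simp [hχ, ha, mem_compl.1 hb]
    rw [this, Fintype.sum_prod_type]
    refine sum_congr rfl fun u _ => ?_
    rw [sum_comm, Fintype.sum_prod_type]
    exact sum_congr rfl fun v _ => sum_comm
  have prd : ∀ u v, ∑ a, ∑ b, χ (u, a) * (1 - χ (v, b)) = k u * (q ^ 2 - k v) := fun u v => by
    rw [← kc, hk, sum_mul_sum]
  have tot : (S.card * Sᶜ.card : ℝ) = ∑ u, ∑ v, k u * (q ^ 2 - k v) := by
    have := cut fun _ _ => 1
    simp only [sum_const, nsmul_eq_mul, mul_one, prd] at this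
    exact this
  -- the mean and the variance
  set N : ℝ := (Fintype.card (ι × F × F) : ℝ) with hN
  have N0 : 0 < N := by
    obtain ⟨a, _⟩ := hS
    have : Nonempty (ι × F × F) := ⟨a⟩
    exact Nat.cast_pos.2 Fintype.card_pos
  have Nq : N = Fintype.card ι * q ^ 2 := by
    rw [hN, Fintype.card_prod, Fintype.card_prod]; push_cast; ring
  set s : ℝ := S.card / N with hs
  set f : ι × F × F → ℝ := fun a => χ a - s with hf
  have cS : (Sᶜ.card : ℝ) = N - S.card := by
    rw [card_compl, Nat.cast_sub (card_le_univ S)]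
  have var : N * ∑ u, ∑ a, f (u, a) ^ 2 = S.card * Sᶜ.card := by
    rw [← Fintype.sum_prod_type (f := fun a => f a ^ 2)]
    have e1 : ∀ a, f a ^ 2 = χ a * (1 - 2 * s) + s ^ 2 := fun a => by
      simp only [hf, hχ]; split_ifs <;> ring
    have e2 : ∑ a, χ a = S.card := by simp [hχ]
    rw [sum_congr rfl fun a _ => e1 a, sum_add_distrib, ← sum_mul, e2, sum_const, card_univ,
      nsmul_eq_mul, cS, ← hN, hs]
    field_simp
    ring
  -- one block
  set d : ι → ι → ℝ := fun u v => if u = v then 0 else (E u v).card / q - φ with hd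
  have blk : ∀ u v, φ * (k u * (q ^ 2 - k v)) + d u v * (k u * (q ^ 2 - k v)) -
      q ^ 2 / L * ((∑ a, f (u, a) ^ 2 + ∑ b, f (v, b) ^ 2) / 2) ≤
      ∑ a, ∑ b, χ (u, a) * (1 - χ (v, b)) * adj E (u, a) (v, b) := fun u v => by
    by_cases huv : u = v
    · subst huv
      have e : ∑ a, ∑ b, χ (u, a) * (1 - χ (u, b)) * adj E (u, a) (u, b) =
          k u * (q ^ 2 - k u) := by
        rw [← prd]
        refine sum_congr rfl fun a _ => sum_congr rfl fun b _ => ?_
        by_cases hab : a = b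
        · subst hab
          simp only [hχ]; split_ifs <;> simp
        · simp [adj, hab]
      have p0 : 0 ≤ k u * (q ^ 2 - k u) := mul_nonneg (k0 u) (sub_nonneg.2 (k1 u))
      have p1 : 0 ≤ q ^ 2 / L * ((∑ a, f (u, a) ^ 2 + ∑ b, f (u, b) ^ 2) / 2) := by positivity
      have p2 := mul_le_mul_of_nonneg_right hφ p0
      rw [e]
      simp only [hd, if_true]
      linarith
    · set ψ : F → ℝ := fun z => (if z ∈ E u v then 1 else 0) - (E u v).card / q with hψ
      have ψ0 : ∑ z, ψ z = 0 := by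
        rw [sum_sub_distrib, sum_ind, sum_const, card_univ, nsmul_eq_mul, ← hqd]
        field_simp
        ring
      have c0 : (0 : ℝ) ≤ (E u v).card / q := by positivity
      have c1 : ((E u v).card : ℝ) / q ≤ 1 := by
        rw [div_le_one q0, hqd]; exact_mod_cast card_le_univ _
      have ψ1 : ∀ z, |ψ z| ≤ 1 := fun z => by
        simp only [hψ]; rw [abs_le]; split_ifs <;> constructor <;> linarith
      have r1 : ∀ a : F × F, ∑ b, ψ (bl a b) = 0 := fun a => by rw [sum_bl, ψ0, mul_zero]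
      have r2 : ∀ b : F × F, ∑ a, ψ (bl a b) = 0 := fun b => by
        simp only [fun a => bl_comm a b]; exact r1 b
      have bb := block_bound ψ0 ψ1 hL hq (fun a => f (u, a)) fun b => f (v, b)
      have e1 : ∑ a, ∑ b, χ (u, a) * (1 - χ (v, b)) * adj E (u, a) (v, b) =
          (E u v).card / q * (k u * (q ^ 2 - k v)) +
          ∑ a, ∑ b, χ (u, a) * (1 - χ (v, b)) * ψ (bl a b) := by
        rw [← prd, mul_sum, ← sum_add_distrib]
        refine sum_congr rfl fun a _ => ?_
        rw [mul_sum, ← sum_add_distrib]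
        refine sum_congr rfl fun b _ => ?_
        simp only [adj, huv, if_false, hψ]
        ring
      have e2 : ∑ a, ∑ b, χ (u, a) * (1 - χ (v, b)) * ψ (bl a b) =
          -∑ a, ∑ b, f (u, a) * f (v, b) * ψ (bl a b) := by
        have t1 : ∑ a, ∑ b, χ (u, a) * (1 - s) * ψ (bl a b) = 0 :=
          sum_eq_zero fun a _ => by rw [← mul_sum, r1, mul_zero]
        have t2 : ∑ a : F × F, ∑ b, s * f (v, b) * ψ (bl a b) = 0 := by
          rw [sum_comm]
          exact sum_eq_zero fun b _ => by rw [← mul_sum, r2, mul_zero]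
        rw [eq_neg_iff_add_eq_zero, ← sub_zero (0 : ℝ)]
        conv_rhs => rw [← t1]
        conv_rhs => enter [2]; rw [t1, ← t2]
        simp only [← sum_add_distrib, ← sum_sub_distrib]
        refine sum_congr rfl fun a _ => sum_congr rfl fun b _ => ?_
        simp only [hf]
        ring
      rw [e1, e2]
      simp only [hd, huv, if_false]
      linarith
  have rnd : 0 ≤ ∑ u, ∑ v, d u v * (k u * (q ^ 2 - k v)) := by
    have := cube_nonneg d (fun u => by simp [hd]) (fun T => by
      have e : ∑ u ∈ T, ∑ v ∈ Tᶜ, d u v =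
          (∑ u ∈ T, ∑ v ∈ Tᶜ, ((E u v).card : ℝ)) / q - φ * (T.card * Tᶜ.card) := by
        have : φ * (T.card * Tᶜ.card) = ∑ _u ∈ T, ∑ _v ∈ Tᶜ, φ := by
          simp only [sum_const, nsmul_eq_mul]; ring
        rw [this, sum_div, ← sum_sub_distrib]
        refine sum_congr rfl fun u hu => ?_
        rw [sum_div, ← sum_sub_distrib]
        refine sum_congr rfl fun v hv => ?_
        have huv : u ≠ v := fun r => mem_compl.1 hv (r ▸ hu)
        simp only [hd, huv, if_false]
      rw [e, sub_nonneg, le_div_iff₀ q0]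
      linarith [h T]) (fun u => k u / q ^ 2) (fun u => div_nonneg (k0 u) (by positivity))
      fun u => (div_le_one (by positivity)).2 (k1 u)
    have e : ∑ u, ∑ v, d u v * (k u * (q ^ 2 - k v)) =
        q ^ 4 * ∑ u, ∑ v, d u v * (k u / q ^ 2 * (1 - k v / q ^ 2)) := by
      rw [mul_sum]
      refine sum_congr rfl fun u _ => ?_
      rw [mul_sum]
      refine sum_congr rfl fun v _ => ?_
      field_simp
    rw [e]
    positivity
  have err : ∑ u, ∑ v, q ^ 2 / L * ((∑ a, f (u, a) ^ 2 + ∑ b, f (v, b) ^ 2) / 2) =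
      1 / L * (S.card * Sᶜ.card) := by
    rw [← var, Nq]
    simp only [← mul_sum, ← sum_div, sum_add_distrib, sum_const, card_univ, nsmul_eq_mul]
    ring
  rw [cut]
  refine le_trans ?_ (sum_le_sum fun u _ => sum_le_sum fun v _ => blk u v)
  simp only [sum_sub_distrib]
  rw [err]
  simp only [sum_add_distrib]
  simp only [← mul_sum (a := φ)]
  rw [← tot]
  linarith

end graph

end Vale.Agent.P318B.Uw
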