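import Vale.Agent.P318B.Apx
import Vale.Agent.P318B.Lit
import Vale.Agent.P318B.UnwA
import Mathlib.NumberTheory.Bertrand
import Mathlib.Algebra.Order.Floor.Semifield

/-!
From rational capacities to unweighted graphs.
-/

namespace Vale.Agent.P318B

open Vale.Agent.P318 Vale.Agent.P325 Vale.Agent.Lib.PolyTime Finset Ax

namespace Uw

/-- primality test for numbers below `B` -/
def isP (B q : ℕ) : Bool := (List.range B).all fun d => decide (d < 2 ∨ q ≤ d ∨ ¬ q % d = 0)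

/-- a prime between `M` and `2 M` -/
def prm (M : ℕ) : ℕ :=
  ((List.range (2 * M + 1)).find? fun q => decide (M < q) && isP (2 * M + 1) q).getD 0

theorem prm_spec {M : ℕ} (h : 0 < M) : (prm M).Prime ∧ M < prm M ∧ prm M ≤ 2 * M := by
  obtain ⟨p, hp, p1, p2⟩ := Nat.exists_prime_lt_and_le_two_mul M h.ne'
  unfold prm
  rcases e : (List.range (2 * M + 1)).find? fun q => decide (M < q) && isP (2 * M + 1) q
    with _ | q
  · exfalso
    refine List.find?_eq_none.1 e p (List.mem_range.2 (by omega)) ?_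
    simp only [Bool.and_eq_true, decide_eq_true_iff, isP, List.all_eq_true]
    refine ⟨p1, fun d _ => ?_⟩
    by_contra hc
    push Not at hc
    rcases (Nat.dvd_prime hp).1 (Nat.dvd_of_mod_eq_zero hc.2.2) with r | r <;> omega
  · have h1 := List.find?_some e
    have h2 := List.mem_range.1 (List.mem_of_find?_eq_some e)
    simp only [Bool.and_eq_true, decide_eq_true_iff, isP, List.all_eq_true] at h1
    refine ⟨Nat.prime_def_lt'.2 ⟨by have := h1.1; simp only [Option.getD_some]; omega,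
      fun d d1 d2 hd => ?_⟩, h1.1, by simp only [Option.getD_some]; omega⟩
    simp only [Option.getD_some] at d2 hd
    rcases h1.2 d (List.mem_range.2 (by omega)) with r | r | r
    · omega
    · omega
    · exact r (Nat.mod_eq_zero_of_dvd hd)

theorem prm_le (M : ℕ) : prm M ≤ 2 * M := by
  rcases M.eq_zero_or_pos with rfl | h
  · simp [prm]
  · exact (prm_spec h).2.2

theorem PT_prm {α : Type} [Enc α] {f : α → ℕ} (hf : PT ∅ f) (hb : PBd f) :
    PT ∅ fun a => prm (f a) := by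
  have h1 : PT ∅ fun a => List.range (2 * f a + 1) :=
    PT.range (((PT.const 2).mul hf).add (PT.const 1))
      (((PBd.const 2).mul hb).add (PBd.const 1))
  refine PT.optGetD (PT.find? h1 (PT.and (PT.lt (hf.comp PT.fst') PT.snd') ?_)) (PT.const 0)
  refine PT.all (h1.comp PT.fst') ?_
  exact PT.decide_or (PT.lt PT.snd' (PT.const 2)) (PT.decide_or (PT.le PT.fst'.snd PT.snd')
    (PT.decide_not (PT.eqNat (PT.mod PT.fst'.snd PT.snd') (PT.const 0))))

/-- the rounded capacity -/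
def rnd (q D : ℕ) (t e : ℕ × ℕ) : ℕ := min q (e.1 * q * t.2 / (e.2 * t.1 * D))

/-- an entry of the matrix -/
def ent (M : List (List (ℕ × ℕ))) (u v : ℕ) : ℕ × ℕ := (M.getD u []).getD v (0, 1)

/-- adjacency in the blow-up -/
def bit (q : ℕ) (w : ℕ → ℕ → ℕ) (i j : ℕ) : ℕ :=
  if i / (q * q) = j / (q * q) then (if i = j then 0 else 1)
  else if (i / q * (j / q) + i + j) % q < w (i / (q * q)) (j / (q * q)) then 1 else 0

/-- the prime -/
def pq (J n : ℕ) : ℕ := prm ((J * n ^ 2) ^ 2)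

/-- the new matrix -/
def out (K J : ℕ) (t : ℕ × ℕ) (M : List (List (ℕ × ℕ))) : List (List (ℕ × ℕ)) :=
  (List.range (M.length * (pq J M.length * pq J M.length))).map fun i =>
    (List.range (M.length * (pq J M.length * pq J M.length))).map fun j =>
      (bit (pq J M.length) (fun u v => rnd (pq J M.length) (K * M.length ^ 2) t (ent M u v)) i j, 1)

theorem PT_out (K J : ℕ) : PT ∅ fun p : (ℕ × ℕ) × List (List (ℕ × ℕ)) => out K J p.1 p.2 := by
  have n1 : PT ∅ fun p : (ℕ × ℕ) × List (List (ℕ × ℕ)) => p.2.length := PT.length PT.snd'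
  have n2 : PBd fun p : (ℕ × ℕ) × List (List (ℕ × ℕ)) => p.2.length :=
    PBd.length (A := ∅) PT.snd'
  have m2 : PBd fun p : (ℕ × ℕ) × List (List (ℕ × ℕ)) => (J * p.2.length ^ 2) ^ 2 :=
    ((PBd.const J).mul (n2.pow 2)).pow 2
  have q1 : PT ∅ fun p : (ℕ × ℕ) × List (List (ℕ × ℕ)) => pq J p.2.length :=
    PT_prm (((PT.const J).mul (n1.powConst 2)).powConst 2) m2
  have q2 : PBd fun p : (ℕ × ℕ) × List (List (ℕ × ℕ)) => pq J p.2.length :=
    ((PBd.const 2).mul m2).mono fun _ => prm_le _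
  have r1 := PT.range (n1.mul (q1.mul q1)) (n2.mul (q2.mul q2))
  refine PT.map r1 (PT.map (r1.comp PT.fst') (PT.pair ?_ (PT.const 1)))
  have q := q1.comp (PT.fst'.fst :
    PT ∅ fun p : (((ℕ × ℕ) × List (List (ℕ × ℕ))) × ℕ) × ℕ => p.1.1)
  have n := n1.comp (PT.fst'.fst :
    PT ∅ fun p : (((ℕ × ℕ) × List (List (ℕ × ℕ))) × ℕ) × ℕ => p.1.1)
  have i : PT ∅ fun p : (((ℕ × ℕ) × List (List (ℕ × ℕ))) × ℕ) × ℕ => p.1.2 := PT.fst'.snd
  have j : PT ∅ fun p : (((ℕ × ℕ) × List (List (ℕ × ℕ))) × ℕ) × ℕ => p.2 := PT.snd'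
  have t : PT ∅ fun p : (((ℕ × ℕ) × List (List (ℕ × ℕ))) × ℕ) × ℕ => p.1.1.1 := PT.fst'.fst.fst
  have u := i.div (q.mul q)
  have v := j.div (q.mul q)
  have e := PT.getD (PT.getD PT.fst'.fst.snd u (PT.const [])) v (PT.const (0, 1))
  exact PT.ite (u.eqNat v) (PT.ite (i.eqNat j) (PT.const 0) (PT.const 1))
    (PT.ite (PT.lt (PT.mod ((((i.div q).mul (j.div q)).add i).add j) q)
      (PT.min q (PT.div ((e.fst.mul q).mul t.snd)
        ((e.snd.mul t.fst).mul ((PT.const K).mul (n.powConst 2)))))) (PT.const 1) (PT.const 0))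

theorem ent_mat (I : Inst) (u v : Fin I.n) : ent (mat I) u v = nd (I.cap u v) := by
  simp [ent, mat]

theorem bit_le (q : ℕ) (w : ℕ → ℕ → ℕ) (i j : ℕ) : bit q w i j = 0 ∨ bit q w i j = 1 := by
  unfold bit; split_ifs <;> simp

theorem bit_self (q : ℕ) (w : ℕ → ℕ → ℕ) (i : ℕ) : bit q w i i = 0 := by simp [bit]

theorem bit_comm (q : ℕ) {w : ℕ → ℕ → ℕ} {i j : ℕ}
    (h : w (i / (q * q)) (j / (q * q)) = w (j / (q * q)) (i / (q * q))) :
    bit q w i j = bit q w j i := by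
  have e : i / q * (j / q) + i + j = j / q * (i / q) + j + i := by ring
  simp only [bit, h, e, eq_comm (a := i), eq_comm (a := i / (q * q))]

theorem div_lt {n q : ℕ} (i : Fin (n * (q * q))) : i.1 / (q * q) < n :=
  Nat.div_lt_of_lt_mul (i.2.trans_eq (mul_comm _ _))

/-- the coordinates of a vertex -/
def co {n q : ℕ} (i : Fin (n * (q * q))) : Fin n × ZMod q × ZMod q :=
  (⟨i.1 / (q * q), div_lt i⟩, ((i.1 / q : ℕ) : ZMod q), ((i.1 : ℕ) : ZMod q))

theorem co_inj {n q : ℕ} : Function.Injective (co (n := n) (q := q)) := fun i j h => by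
  simp only [co, Prod.mk.injEq, Fin.mk.injEq, ZMod.natCast_eq_natCast_iff'] at h
  obtain ⟨h1, h2, h3⟩ := h
  rw [← Nat.div_div_eq_div_mul, ← Nat.div_div_eq_div_mul] at h1
  have h4 : i.1 / q = j.1 / q := by
    rw [← Nat.div_add_mod (i.1 / q) q, h1, h2, Nat.div_add_mod]
  exact Fin.ext (by rw [← Nat.div_add_mod i.1 q, h4, h3, Nat.div_add_mod])

theorem co_bij {n q : ℕ} [NeZero q] : Function.Bijective (co (n := n) (q := q)) :=
  (Fintype.bijective_iff_injective_and_card _).2 ⟨co_inj, by simp [ZMod.card]⟩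

/-- the edge sets -/
def ed (q : ℕ) [NeZero q] (w : ℕ) : Finset (ZMod q) := univ.filter fun z => z.val < w

theorem card_ed {q w : ℕ} [NeZero q] (h : w ≤ q) : (ed q w).card = w := by
  rw [← card_range w]
  refine card_nbij (fun z => z.val) (fun z hz => by simpa [ed] using hz)
    (fun z _ z' _ e => ZMod.val_injective q e) fun k hk => ?_
  have hk' : k < w := by simpa using hk
  have e := ZMod.val_cast_of_lt (hk'.trans_le h)
  exact ⟨(k : ZMod q), by simp [ed, e, hk'], e⟩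

theorem bit_eq {n q : ℕ} [Fact q.Prime] (w : ℕ → ℕ → ℕ) (i j : Fin (n * (q * q))) :
    (bit q w i j : ℝ) = adj (fun u v : Fin n => ed q (w u v)) (co i) (co j) := by
  have e : (bl (co i).2 (co j).2).val = (i.1 / q * (j.1 / q) + i + j) % q := by
    rw [← ZMod.val_natCast]
    simp only [bl, co]
    push_cast
    rfl
  have e1 : (co i).1 = (co j).1 ↔ i.1 / (q * q) = j.1 / (q * q) := by simp [co]
  have e2 : co i = co j ↔ i.1 = j.1 := by rw [co_inj.eq_iff, Fin.ext_iff]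
  simp only [adj, ed, mem_filter, mem_univ, true_and, e, e1, e2, bit]
  have e3 : w (co i).1 (co j).1 = w (i.1 / (q * q)) (j.1 / (q * q)) := rfl
  rw [e3]
  split_ifs <;> simp

theorem cut_co {n q : ℕ} [Fact q.Prime] (w : ℕ → ℕ → ℕ) (S : Finset (Fin (n * (q * q)))) :
    ∑ i ∈ S, ∑ j ∈ Sᶜ, (bit q w i j : ℝ) =
      ∑ a ∈ S.image co, ∑ b ∈ (S.image co)ᶜ, adj (fun u v : Fin n => ed q (w u v)) a b := by
  have e : (S.image (co (n := n) (q := q)))ᶜ = Sᶜ.image co := by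
    ext a
    obtain ⟨i, rfl⟩ := co_bij.2 a
    simp [co_inj.eq_iff]
  rw [e, sum_image co_inj.injOn]
  refine sum_congr rfl fun i _ => ?_
  rw [sum_image co_inj.injOn]
  exact sum_congr rfl fun j _ => bit_eq w i j

theorem rnd_le (q D : ℕ) (t e : ℕ × ℕ) : rnd q D t e ≤ q := min_le_left _ _

theorem rnd_val {q D : ℕ} {t c : ℚ} (hD : 0 < D) (ht : 0 < t) (hc : 0 ≤ c) :
    rnd q D (nd t) (nd c) = min q ⌊(c : ℝ) * q / (t * D)⌋₊ := by
  have c0 : (0 : ℝ) < (nd c).2 := by exact_mod_cast c.den_pos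
  have t0 : (0 : ℝ) < (nd t).2 := by exact_mod_cast t.den_pos
  have t1 : (0 : ℝ) < t := by exact_mod_cast ht
  have d0 : (0 : ℝ) < D := by exact_mod_cast hD
  rw [rnd, ← Nat.floor_div_eq_div (K := ℝ)]
  push_cast
  rw [nd_cast hc, nd_cast ht.le]
  congr 2
  field_simp

/-- the rounded capacities of an instance -/
def wI (K J : ℕ) (t : ℚ) (I : Inst) (u v : ℕ) : ℕ :=
  rnd (pq J I.n) (K * I.n ^ 2) (nd t) (ent (mat I) u v)

theorem pq_spec {J n : ℕ} (hJ : 0 < J) (hn : 2 ≤ n) :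
    (pq J n).Prime ∧ (J * n ^ 2) ^ 2 < pq J n :=
  have h := prm_spec (M := (J * n ^ 2) ^ 2) (by positivity)
  ⟨h.1, h.2.1⟩

/-- the new instance -/
def blow (K : ℕ) {J : ℕ} (hJ : 0 < J) (t : ℚ) (I : Inst) : Inst where
  n := I.n * (pq J I.n * pq J I.n)
  two_le := I.two_le.trans (Nat.le_mul_of_pos_right _
    (mul_pos (pq_spec hJ I.two_le).1.pos (pq_spec hJ I.two_le).1.pos))
  cap i j := bit (pq J I.n) (wI K J t I) i j
  isCap := by
    refine ⟨fun i j => ?_, fun i j => by positivity, fun i => by simp [bit_self]⟩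
    have h1 : (I.cap ⟨_, div_lt i⟩ ⟨_, div_lt j⟩ : ℝ) = I.cap ⟨_, div_lt j⟩ ⟨_, div_lt i⟩ :=
      I.isCap.1 _ _
    have h2 : I.cap ⟨_, div_lt i⟩ ⟨_, div_lt j⟩ = I.cap ⟨_, div_lt j⟩ ⟨_, div_lt i⟩ := by
      exact_mod_cast h1
    have h3 := ent_mat I ⟨_, div_lt i⟩ ⟨_, div_lt j⟩
    have h4 := ent_mat I ⟨_, div_lt j⟩ ⟨_, div_lt i⟩
    simp only at h3 h4 ⊢
    rw [bit_comm _ (by simp only [wI, h3, h4, h2])]

theorem blow_simple (K : ℕ) {J : ℕ} (hJ : 0 < J) (t : ℚ) (I : Inst) :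
    (blow K hJ t I).Simple := fun i j => by
  rcases bit_le (pq J I.n) (wI K J t I) i j with r | r
  · exact Or.inl (by simp only [blow]; rw [r]; simp)
  · exact Or.inr (by simp only [blow]; rw [r]; simp)

theorem mat_blow (K : ℕ) {J : ℕ} (hJ : 0 < J) (t : ℚ) (I : Inst) :
    mat (blow K hJ t I) = out K J (nd t) (mat I) := by
  have e : (mat I).length = I.n := by simp [mat]
  have r : ∀ {β : Type} (n : ℕ) (f : ℕ → β), (List.range n).map f = List.ofFn fun i : Fin n => f i :=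
    fun n f => by rw [List.ofFn_eq_map, ← List.map_coe_finRange_eq_range, List.map_map]; rfl
  rw [out, e, r]
  simp only [r]
  rfl

theorem exists_opt (I : Inst) : ∃ S : Finset (Fin I.n), S.Nonempty ∧ S ≠ univ ∧
    I.phi = I.ratio S := by
  have h2 := I.two_le
  refine Set.Nonempty.csInf_mem (s := {r | ∃ S : Finset (Fin I.n), S.Nonempty ∧ S ≠ univ ∧
    r = cutRatio (fun i j => (I.cap i j : ℝ)) S}) ⟨_, {⟨0, by omega⟩}, singleton_nonempty _,
      fun h => ?_, rfl⟩ ((Set.finite_range (cutRatio fun i j => (I.cap i j : ℝ))).subset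
    fun r ⟨T, _, _, e⟩ => ⟨T, e.symm⟩)
  have := congrArg card h
  simp at this
  omega

theorem ratio_eq (I : Inst) (S : Finset (Fin I.n)) :
    I.ratio S = (∑ i ∈ S, ∑ j ∈ Sᶜ, (I.cap i j : ℝ)) / (S.card * Sᶜ.card) := by
  rw [Inst.ratio, cutRatio, card_compl, Nat.cast_sub (card_le_univ S), Fintype.card_fin]

theorem den_pos' {α : Type} [Fintype α] [DecidableEq α] {S : Finset α} (h0 : S.Nonempty)
    (h1 : S ≠ univ) : (0 : ℝ) < S.card * Sᶜ.card :=
  mul_pos (Nat.cast_pos.2 h0.card_pos) (Nat.cast_pos.2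
    (nonempty_iff_ne_empty.2 fun h => h1 ((compl_eq_empty_iff S).1 h)).card_pos)

theorem img_compl {n q : ℕ} [NeZero q] (T : Finset (Fin (n * (q * q)))) :
    (T.image co)ᶜ = Tᶜ.image co := by
  ext a
  obtain ⟨i, rfl⟩ := co_bij.2 a
  simp [co_inj.eq_iff]

theorem yes_cut {n q : ℕ} [Fact q.Prime] {w : ℕ → ℕ → ℕ} (hw : ∀ u v, w u v ≤ q)
    (S : Finset (Fin n)) : ∃ T : Finset (Fin (n * (q * q))), (T.card : ℝ) = S.card * q ^ 2 ∧
      (Tᶜ.card : ℝ) = Sᶜ.card * q ^ 2 ∧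
      ∑ i ∈ T, ∑ j ∈ Tᶜ, (bit q w i j : ℝ) = q ^ 3 * ∑ u ∈ S, ∑ v ∈ Sᶜ, (w u v : ℝ) := by
  let T : Finset (Fin (n * (q * q))) := univ.filter fun i => (co i).1 ∈ S
  have eT : T.image co = S ×ˢ univ := by
    ext a
    obtain ⟨i, rfl⟩ := co_bij.2 a
    simp [co_inj.eq_iff, T]
  have eT' : Tᶜ.image co = Sᶜ ×ˢ univ := by
    rw [← img_compl, eT]; ext a; simp
  refine ⟨T, ?_, ?_, ?_⟩
  · rw [← card_image_of_injective T co_inj, eT]; simp [ZMod.card, sq]
  · rw [← card_image_of_injective Tᶜ co_inj, eT']; simp [ZMod.card, sq]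
  · rw [cut_co, eT, cut_yes, ZMod.card]
    simp only [card_ed (hw _ _)]

theorem no_cut {n q : ℕ} [Fact q.Prime] {w : ℕ → ℕ → ℕ} (hw : ∀ u v, w u v ≤ q) {φ L : ℝ}
    (hφ : φ ≤ 1) (hL : 0 < L) (hq : L ^ 2 ≤ q)
    (h : ∀ S : Finset (Fin n), φ * q * (S.card * Sᶜ.card) ≤ ∑ u ∈ S, ∑ v ∈ Sᶜ, (w u v : ℝ))
    {T : Finset (Fin (n * (q * q)))} (T0 : T.Nonempty) :
    (φ - 1 / L) * (T.card * Tᶜ.card) ≤ ∑ i ∈ T, ∑ j ∈ Tᶜ, (bit q w i j : ℝ) := by
  have k := cut_no (fun u v : Fin n => ed q (w u v)) hφ hL (by rw [ZMod.card]; exact hq)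
    (fun S => by rw [ZMod.card]; simp only [card_ed (hw _ _)]; exact h S) (T.image co)
    (T0.image _)
  rwa [← cut_co, img_compl, card_image_of_injective _ co_inj,
    card_image_of_injective _ co_inj] at k

theorem round_no {n q : ℕ} (c : Fin n → Fin n → ℝ) {ρ B : ℝ} (hB : B * n ^ 2 ≤ q) (B0 : 0 ≤ B)
    (S : Finset (Fin n)) (h : B * (S.card * Sᶜ.card) ≤ (∑ u ∈ S, ∑ v ∈ Sᶜ, c u v) * ρ) :
    (B - 1) * (S.card * Sᶜ.card) ≤ ∑ u ∈ S, ∑ v ∈ Sᶜ, ((min q ⌊c u v * ρ⌋₊ : ℕ) : ℝ) := by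
  have p0 : (0 : ℝ) ≤ S.card * Sᶜ.card := by positivity
  rw [sub_mul, one_mul]
  by_cases hc : ∃ u ∈ S, ∃ v ∈ Sᶜ, q ≤ ⌊c u v * ρ⌋₊
  · obtain ⟨u, hu, v, hv, hc⟩ := hc
    have b1 : (q : ℝ) ≤ ∑ u ∈ S, ∑ v ∈ Sᶜ, ((min q ⌊c u v * ρ⌋₊ : ℕ) : ℝ) := by
      refine le_trans ?_ (single_le_sum (f := fun u => ∑ v ∈ Sᶜ, ((min q ⌊c u v * ρ⌋₊ : ℕ) : ℝ))
        (fun _ _ => sum_nonneg fun _ _ => Nat.cast_nonneg _) hu)
      refine le_trans ?_ (single_le_sum (f := fun v => ((min q ⌊c u v * ρ⌋₊ : ℕ) : ℝ))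
        (fun _ _ => Nat.cast_nonneg _) hv)
      rw [min_eq_left hc]
    have b2 : (S.card * Sᶜ.card : ℝ) ≤ n ^ 2 := by
      have x1 : (S.card : ℝ) ≤ n := by exact_mod_cast (by simpa using card_le_univ S)
      have x2 : (Sᶜ.card : ℝ) ≤ n := by exact_mod_cast (by simpa using card_le_univ Sᶜ)
      rw [sq]; gcongr
    have := mul_le_mul_of_nonneg_left b2 B0
    linarith
  · refine (sub_le_sub_right h _).trans ?_
    have : (S.card * Sᶜ.card : ℝ) = ∑ _u ∈ S, ∑ _v ∈ Sᶜ, (1 : ℝ) := by simp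
    rw [this]
    simp only [sum_mul, ← sum_sub_distrib]
    refine sum_le_sum fun u hu => sum_le_sum fun v hv => ?_
    rw [min_eq_right (not_le.1 fun r => hc ⟨u, hu, v, hv, r⟩).le]
    exact (Nat.sub_one_lt_floor _).le

theorem wI_eq {K : ℕ} (hK : 0 < K) (J : ℕ) {t : ℚ} (ht : 0 < t) (I : Inst) (u v : Fin I.n) :
    wI K J t I u v =
      min (pq J I.n) ⌊(I.cap u v : ℝ) * (pq J I.n / (t * (K * I.n ^ 2)))⌋₊ := by
  have n0 : 0 < I.n := by have := I.two_le; omega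
  have h2 : (0 : ℝ) ≤ I.cap u v := I.isCap.2.1 u v
  rw [wI, ent_mat, rnd_val (by positivity) ht (by exact_mod_cast h2), mul_div_assoc]
  push_cast
  rfl

theorem ratio_blow (K : ℕ) {J : ℕ} (hJ : 0 < J) (t : ℚ) (I : Inst)
    (T : Finset (Fin (I.n * (pq J I.n * pq J I.n)))) : (blow K hJ t I).ratio T =
      (∑ i ∈ T, ∑ j ∈ Tᶜ, (bit (pq J I.n) (wI K J t I) i j : ℝ)) / (T.card * Tᶜ.card) :=
  (ratio_eq (blow K hJ t I) T).trans (by simp only [blow, Rat.cast_natCast]; rfl)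

theorem blow_yes {K J : ℕ} (hK : 0 < K) (hJ : 0 < J) {t : ℚ} (ht : 0 < t) (I : Inst)
    (h : I.phi ≤ t) : (blow K hJ t I).phi ≤ ((K * I.n ^ 2 : ℕ) : ℝ)⁻¹ := by
  obtain ⟨hp, -⟩ := pq_spec hJ I.two_le
  have := Fact.mk hp
  have n0 : (0 : ℝ) < I.n := by exact_mod_cast (by have := I.two_le; omega : 0 < I.n)
  have k0 : (0 : ℝ) < K := by exact_mod_cast hK
  have t1 : (0 : ℝ) < t := by exact_mod_cast ht
  have q0 : (0 : ℝ) < pq J I.n := by exact_mod_cast hp.pos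
  obtain ⟨S, s0, s1, e⟩ := exists_opt I
  rw [e, ratio_eq, div_le_iff₀ (den_pos' s0 s1)] at h
  obtain ⟨T, c1, c2, k⟩ := yes_cut (w := wI K J t I) (fun _ _ => rnd_le _ _ _ _) S
  have pos : (0 : ℝ) < T.card * Tᶜ.card := by
    have := den_pos' s0 s1
    rw [c1, c2]
    calc (0 : ℝ) < S.card * Sᶜ.card * (pq J I.n ^ 2 * pq J I.n ^ 2) := by positivity
      _ = _ := by ring
  have T0 : T.Nonempty := by
    rw [nonempty_iff_ne_empty]; rintro r; simp [r] at pos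
  have T1 : T ≠ univ := by rintro r; simp [r] at pos
  refine (phi_le (blow K hJ t I) T0 T1).trans ((ratio_blow K hJ t I T).trans_le ?_)
  rw [div_le_iff₀ pos, k, c1, c2]
  have k2 : ∑ u ∈ S, ∑ v ∈ Sᶜ, (wI K J t I u v : ℝ) ≤
      (∑ u ∈ S, ∑ v ∈ Sᶜ, (I.cap u v : ℝ)) * (pq J I.n / (t * (K * I.n ^ 2))) := by
    simp only [sum_mul]
    refine sum_le_sum fun u _ => sum_le_sum fun v _ => ?_
    have h2 : (0 : ℝ) ≤ I.cap u v := I.isCap.2.1 u v
    rw [wI_eq hK J ht]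
    exact (Nat.cast_le.2 (min_le_right _ _)).trans (Nat.floor_le (by positivity))
  generalize (pq J I.n : ℝ) = q at *
  calc _ ≤ q ^ 3 * (t * (S.card * Sᶜ.card) * (q / (t * (K * I.n ^ 2)))) := by
        gcongr
        refine k2.trans ?_
        gcongr
    _ = _ := by
      push_cast
      field_simp

theorem blow_no {K J : ℕ} (hK : 0 < K) (hJ : 0 < J) {t : ℚ} (ht : 0 < t) (I : Inst) {C C' : ℝ}
    (C0 : 0 ≤ C) (hC : C ≤ K) (hJ' : 2 * K < (C - C') * J) (h : C * t < I.phi) :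
    C' * ((K * I.n ^ 2 : ℕ) : ℝ)⁻¹ < (blow K hJ t I).phi := by
  obtain ⟨hp, hq⟩ := pq_spec hJ I.two_le
  have := Fact.mk hp
  have n0 : 0 < I.n := by have := I.two_le; omega
  have n1 : (1 : ℝ) ≤ (I.n : ℝ) ^ 2 := one_le_pow₀ (by exact_mod_cast n0)
  have k0 : (0 : ℝ) < K := by exact_mod_cast hK
  have j1 : (1 : ℝ) ≤ J := by exact_mod_cast hJ
  have t1 : (0 : ℝ) < t := by exact_mod_cast ht
  have q0 : (0 : ℝ) < pq J I.n := by exact_mod_cast hp.pos
  have hq' : ((J : ℝ) * I.n ^ 2) ^ 2 ≤ pq J I.n := by exact_mod_cast hq.le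
  have L1 : (1 : ℝ) ≤ J * I.n ^ 2 := one_le_mul_of_one_le_of_one_le j1 n1
  obtain ⟨T, T0, T1, e⟩ := exists_opt (blow K hJ t I)
  have φ1 : C / (K * I.n ^ 2) ≤ 1 := by
    rw [div_le_one (by positivity)]; nlinarith
  have k1 := no_cut (n := I.n) (w := wI K J t I) (fun _ _ => rnd_le _ _ _ _)
    (φ := C / (K * I.n ^ 2) - 1 / pq J I.n) (L := J * I.n ^ 2)
    (by have : (0 : ℝ) ≤ 1 / pq J I.n := by positivity
        linarith) (by positivity) hq' (fun S => ?_) (T := T) T0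
  · rw [e]
    refine lt_of_lt_of_le ?_ (((le_div_iff₀ (den_pos' T0 T1)).2 k1).trans_eq
      (ratio_blow K hJ t I T).symm)
    have a1 : (1 : ℝ) / pq J I.n ≤ 1 / (J * I.n ^ 2) :=
      one_div_le_one_div_of_le (by positivity) (by nlinarith)
    have a2 : 2 * (1 / ((J : ℝ) * I.n ^ 2)) < (C - C') / (K * I.n ^ 2) := by
      rw [mul_one_div, div_lt_div_iff₀ (by positivity) (by positivity)]
      nlinarith
    push_cast
    rw [← div_eq_mul_inv]
    rw [sub_div] at a2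
    linarith
  · simp only [wI_eq hK J ht]
    have b2 : C * t * (S.card * Sᶜ.card) ≤ ∑ u ∈ S, ∑ v ∈ Sᶜ, (I.cap u v : ℝ) := by
      rcases S.eq_empty_or_nonempty with rfl | s0
      · simp
      by_cases s1 : S = univ
      · simp [s1]
      have := h.le.trans (phi_le I s0 s1)
      rwa [ratio_eq, le_div_iff₀ (den_pos' s0 s1)] at this
    refine le_trans (le_of_eq ?_) (round_no (fun u v => (I.cap u v : ℝ))
      (B := C * pq J I.n / (K * I.n ^ 2)) ?_ (by positivity) S ?_)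
    · field_simp
    · calc _ = C / K * pq J I.n := by field_simp
        _ ≤ 1 * pq J I.n := by gcongr; exact (div_le_one k0).2 hC
        _ = _ := one_mul _
    · calc _ = C * t * (S.card * Sᶜ.card) * (pq J I.n / (t * (K * I.n ^ 2))) := by field_simp
        _ ≤ _ := by gcongr

theorem nd_inv {D : ℕ} (h : 0 < D) : nd (D : ℚ)⁻¹ = (1, D) := by
  rw [nd, Rat.inv_natCast_num_of_pos h, Rat.inv_natCast_den_of_pos h]; rfl

end Uw

open Uw

/-- hardness for unweighted graphs -/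
theorem GapHard.simple {C C' : ℝ} (h : GapHard C) (C0 : 0 ≤ C) (hC : C' < C) : GapHardS C' :=
    fun L hL => by
  obtain ⟨I, τ, hp, h⟩ := h L hL
  obtain ⟨K, hK⟩ := exists_nat_gt (max C 0)
  have K0 : 0 < K := by exact_mod_cast (le_max_right C 0).trans_lt hK
  obtain ⟨J, hJ⟩ := exists_nat_gt (2 * K / (C - C'))
  have c0 := sub_pos.2 hC
  have J0 : 0 < J := by exact_mod_cast (by positivity : (0 : ℝ) ≤ 2 * K / (C - C')).trans_lt hJ
  rw [div_lt_iff₀ c0, mul_comm (J : ℝ)] at hJ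
  have D0 : ∀ x, 0 < K * (I x).n ^ 2 := fun x => by
    have : 0 < (I x).n := by have := (I x).two_le; omega
    positivity
  refine ⟨fun x => blow K J0 (τ x) (I x), fun x => ((K * (I x).n ^ 2 : ℕ) : ℚ)⁻¹, ?_, fun x =>
    ⟨blow_simple _ _ _ _, inv_pos.2 (Nat.cast_pos.2 (D0 x)), fun hx => ?_, fun hx => ?_⟩⟩
  · have h1 : PT ∅ fun x : Raw => (nd (τ x.w), mat (I x.w)) :=
      ⟨_, polyTime_iff.1 hp, fun x => by rw [enc_pair, enc_nd, enc_mat, pair_eq_pr]; rfl⟩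
    obtain ⟨g, hg, hg'⟩ := PT.pair (PT.pair (PT.const 1)
      ((PT.const K).mul ((PT.length h1.snd).powConst 2))) ((PT_out K J).comp h1)
    refine polyTime_iff.2 (hg.congr fun x => ?_)
    rw [← enc_nd, ← enc_mat, pair_eq_pr, ← enc_pair, nd_inv (D0 x), mat_blow]
    refine (hg' ⟨x⟩).trans ?_
    simp [mat]
  · rw [Rat.cast_inv, Rat.cast_natCast]
    exact blow_yes K0 J0 (h x).1 _ ((h x).2.1 hx)
  · rw [Rat.cast_inv, Rat.cast_natCast]
    exact blow_no K0 J0 (h x).1 _ C0 ((le_max_left C 0).trans hK.le) hJ ((h x).2.2 hx)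

theorem GapHardS.gapHard {C : ℝ} (h : GapHardS C) : GapHard C := fun L hL => by
  obtain ⟨I, τ, hp, h⟩ := h L hL
  exact ⟨I, τ, hp, fun x => (h x).2⟩

theorem Approx.approxS {C : ℝ} {A : List Bool → List Bool} (h : Approx C A) : ApproxS C A :=
  fun I _ => h I

/-- an approximation algorithm for unweighted graphs decides the gap problem -/
theorem np_of_approxS {c : ℚ} (hc : 0 ≤ c) (h : GapHardS c) {A : List Bool → List Bool}
    (hA : PolyTime A) (ha : ApproxS c A) : NP ⊆ P := fun L hL => by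
  obtain ⟨I, τ, hp, h⟩ := h L hL
  have h1 : PT ∅ fun x : Raw => (nd (τ x.w), mat (I x.w)) :=
    ⟨_, polyTime_iff.1 hp, fun x => by rw [enc_pair, enc_nd, enc_mat, pair_eq_pr]; rfl⟩
  have h2 : PT ∅ fun x : Raw => Raw.mk (A x.w) := ⟨_, polyTime_iff.1 hA, fun _ => rfl⟩
  have h3 : PT ∅ fun x : Raw => A (enc (mat (I x.w))) :=
    PT.listOfRaw (h2.comp (PT_raw h1.snd))
  obtain ⟨g, hg, hg'⟩ := (PT_test (nd c)).comp (h1.fst.pair (h1.snd.pair h3))
  refine ⟨g, polyTime_iff.2 hg, fun x => ?_⟩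
  obtain ⟨S, s0, s1, sA, sr⟩ := ha (I x) (h x).1
  have e : g x = [test (nd c) (nd (τ x)) (mat (I x)) (List.ofFn fun i => decide (i ∈ S))] := by
    rw [← sA, ← enc_mat]
    exact hg' ⟨x⟩
  rw [e, List.singleton_inj, test_iff hc (h x).2.1.le _ s0 s1]
  refine ⟨fun hx => sr.trans (mul_le_mul_of_nonneg_left ((h x).2.2.1 hx) (by exact_mod_cast hc)),
    fun hr => by_contra fun hx => ?_⟩
  exact absurd (((h x).2.2.2 hx).trans_le (phi_le _ s0 s1)) (not_lt.2 hr)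

/-- the final form -/
theorem final_of_gap {C : ℝ} (h1 : 1 < C) (h : GapHard C) : ∃ C : ℝ, 1 < C ∧ GapHardS C ∧
    ((∃ A, PolyTime A ∧ ApproxS C A) → NP ⊆ P) := by
  obtain ⟨c, c1, c2⟩ := exists_rat_btwn h1
  have hc : (0 : ℚ) ≤ c := by exact_mod_cast (zero_le_one.trans c1.le : (0 : ℝ) ≤ c)
  have hs := h.simple (zero_le_one.trans h1.le) c2
  exact ⟨c, c1, hs, fun ⟨A, hA, ha⟩ => np_of_approxS hc hs hA ha⟩

end Vale.Agent.P318B
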