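import Vale.Agent.P318B.All
import Vale.Agent.P318B.Unw

/-!
# P318B / AllU: hardness of approximation within some constant factor, already on unweighted graphs
-/

namespace Vale.Agent.P318B

open Vale.Agent.P325

theorem main_unw :
    ∃ C : ℝ, 1 < C ∧ GapHardS C ∧ GapHard C ∧
      ((∃ A, PolyTime A ∧ ApproxS C A) → NP ⊆ P) ∧
      ((∃ A, PolyTime A ∧ Approx C A) → NP ⊆ P) := by
  obtain ⟨C, hC, hG⟩ := gap_all
  obtain ⟨C', hC', hS, hA⟩ := final_of_gap hC hG
  exact ⟨C', hC', hS, hS.gapHard, hA, fun ⟨A, h1, h2⟩ => hA ⟨A, h1, h2.approxS⟩⟩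

end Vale.Agent.P318B
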