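import Mathlib.Algebra.Order.BigOperators.Expect
import Mathlib.Algebra.Module.ZMod
import Mathlib.Algebra.Field.ZMod
import Mathlib.Data.Real.Basic
import Mathlib.LinearAlgebra.Dual.Lemmas
import Mathlib.FieldTheory.Finiteness
import Mathlib.Tactic.Linarith
import Mathlib.Tactic.Positivity
import Mathlib.Tactic.FieldSimp

/-! Codes defined by quasi-random cosets: mixing, distance, local testability. -/

open Finset
open scoped BigOperators

namespace Vale.Agent.P318B.Cd

/-- the sign of a bit -/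
def sg (a : ZMod 2) : ℝ := if a = 0 then 1 else -1

/-- the value of a bit -/
def ind (a : ZMod 2) : ℝ := if a = 0 then 0 else 1

lemma bit (a : ZMod 2) : a = 0 ∨ a = 1 := by revert a; decide

lemma two_zero : (1 : ZMod 2) + 1 = 0 := by decide

@[simp] lemma ind_zero : ind 0 = 0 := if_pos rfl

@[simp] lemma ind_one : ind 1 = 1 := if_neg one_ne_zero

@[simp] lemma sg_zero : sg 0 = 1 := if_pos rfl

@[simp] lemma sg_one : sg 1 = -1 := if_neg one_ne_zero

lemma sg_add (a b : ZMod 2) : sg (a + b) = sg a * sg b := by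
  rcases bit a with rfl | rfl <;> rcases bit b with rfl | rfl <;> simp [two_zero]

lemma ind_nonneg (a : ZMod 2) : 0 ≤ ind a := by rcases bit a with rfl | rfl <;> simp

lemma ind_le_one (a : ZMod 2) : ind a ≤ 1 := by rcases bit a with rfl | rfl <;> simp

lemma ind_sq (a : ZMod 2) : ind a ^ 2 = ind a := by rcases bit a with rfl | rfl <;> simp

lemma ind_eq_zero {a : ZMod 2} : ind a = 0 ↔ a = 0 := by rcases bit a with rfl | rfl <;> simp

lemma ind_add_le (a b : ZMod 2) : ind (a + b) ≤ ind a + ind b := by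
  rcases bit a with rfl | rfl <;> rcases bit b with rfl | rfl <;> simp [two_zero]

lemma ind_sum_le {α : Type*} (s : Finset α) (f : α → ZMod 2) :
    ind (∑ a ∈ s, f a) ≤ ∑ a ∈ s, ind (f a) :=
  le_sum_of_subadditive ind ind_zero.le ind_add_le s f

variable {G C I : Type*} [AddCommGroup G] [Fintype G] [AddCommGroup C] [Fintype C] [Fintype I]

/-- additive in the slot -/
def Lin (u : I → C → G) : Prop := ∀ e c c', u e (c + c') = u e c + u e c'

/-- small bias -/
def Bias [Module (ZMod 2) G] (u : I → C → G) (lam : ℝ) : Prop :=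
  ∀ c : C, c ≠ 0 → ∀ φ : G →ₗ[ZMod 2] ZMod 2, φ ≠ 0 → 𝔼 e, sg (φ (u e c)) ≤ lam

/-- mixing -/
def Mix (u : I → C → G) (lam : ℝ) : Prop :=
  ∀ c : C, c ≠ 0 → ∀ s : G → ℝ,
    𝔼 e, 𝔼 z, s z * s (z + u e c) ≤ (𝔼 z, s z) ^ 2 + lam * 𝔼 z, s z ^ 2

/-- the relative weight -/
noncomputable def wt {X : Type*} [Fintype X] (F : X → ZMod 2) : ℝ := 𝔼 z, ind (F z)

/-- the sum over the coset -/
def bt (v : C → G) (F : G → ZMod 2) (z : G) : ZMod 2 := ∑ c, F (z + v c)

/-- the code with the checks in `E` -/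
def Code (u : I → C → G) (E : Finset I) (F : G → ZMod 2) : Prop := ∀ e ∈ E, ∀ z, bt (u e) F z = 0

/-- the density -/
noncomputable def dens (E : Finset I) : ℝ := (#E : ℝ) / Fintype.card I

lemma shift (f : G → ℝ) (a : G) : 𝔼 z, f (z + a) = 𝔼 z, f z :=
  Fintype.expect_equiv (Equiv.addRight a) _ _ fun _ => rfl

lemma sum_sg {H : Type*} [AddCommGroup H] [Fintype H] (f : H →+ ZMod 2) {a : H} (ha : f a ≠ 0) :
    ∑ x, sg (f x) = 0 := by
  have h := Fintype.sum_equiv (Equiv.addRight a) (fun x => -sg (f x)) (fun x => sg (f x)) fun x => by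
    simp [sg_add, (bit _).resolve_left ha]
  rw [sum_neg_distrib] at h
  linarith

omit [Fintype C] in
theorem mix_of_bias [Module (ZMod 2) G] [Nonempty I] {u : I → C → G} {lam : ℝ} (h0 : 0 ≤ lam)
    (h : Bias u lam) : Mix u lam := by
  classical
  intro c hc s
  have : Finite (Module.Dual (ZMod 2) G) := Finite.of_injective _ DFunLike.coe_injective
  have := Fintype.ofFinite (Module.Dual (ZMod 2) G)
  have hN : Fintype.card (Module.Dual (ZMod 2) G) = Fintype.card G := by
    rw [Module.card_eq_pow_finrank (K := ZMod 2), Module.card_eq_pow_finrank (K := ZMod 2) (V := G),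
      Subspace.dual_finrank_eq]
  have n0 : (0 : ℝ) < Fintype.card G := by exact_mod_cast Fintype.card_pos
  have orth : ∀ a : G, ∑ φ : Module.Dual (ZMod 2) G, sg (φ a) =
      if a = 0 then (Fintype.card G : ℝ) else 0 := fun a => by
    split_ifs with ha
    · simp [ha, hN]
    · obtain ⟨φ, hφ⟩ := not_forall.1 (mt (Module.forall_dual_apply_eq_zero_iff (ZMod 2) a).1 ha)
      exact sum_sg (Module.Dual.eval (ZMod 2) G a).toAddMonoidHom hφ
  set S : Module.Dual (ZMod 2) G → ℝ := fun φ => ∑ z, s z * sg (φ z) with hS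
  have key : ∀ a : G, ∑ φ, S φ ^ 2 * sg (φ a) = Fintype.card G * ∑ z, s z * s (z + a) := fun a => by
    have e1 : ∀ φ : Module.Dual (ZMod 2) G, S φ ^ 2 * sg (φ a) =
        ∑ z, ∑ y, s z * s y * sg (φ (z + a + y)) := fun φ => by
      rw [sq, hS, sum_mul_sum, sum_mul]
      refine sum_congr rfl fun z _ => ?_
      rw [sum_mul]
      refine sum_congr rfl fun y _ => ?_
      rw [map_add, map_add, sg_add, sg_add]; ring
    simp only [e1]
    rw [sum_comm, mul_sum]
    refine sum_congr rfl fun z _ => ?_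
    rw [sum_comm]
    simp only [← mul_sum, orth, ← ZModModule.sub_eq_add (z + a), sub_eq_zero, mul_ite, mul_zero,
      sum_ite_eq, mem_univ, if_true]
    ring
  have k0 := key 0
  simp only [map_zero, sg_zero, mul_one, add_zero, ← sq] at k0
  have k1 : 𝔼 e, ∑ φ, S φ ^ 2 * sg (φ (u e c)) ≤ S 0 ^ 2 + lam * ∑ φ, S φ ^ 2 := by
    rw [expect_sum_comm, mul_sum, ← sum_ite_eq' (s := univ) (0 : Module.Dual (ZMod 2) G)
      (fun φ => S φ ^ 2) |>.trans (if_pos (mem_univ _)), ← sum_add_distrib]
    refine sum_le_sum fun φ _ => ?_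
    rw [← mul_expect]
    split_ifs with hφ
    · simp only [hφ, LinearMap.zero_apply, sg_zero, Fintype.expect_const, mul_one]
      nlinarith [sq_nonneg (S 0)]
    · nlinarith [h c hc φ hφ, sq_nonneg (S φ)]
  simp only [key, k0, ← mul_expect] at k1
  simp only [hS, LinearMap.zero_apply, sg_zero, mul_one] at k1
  simp only [Fintype.expect_eq_sum_div_card (ι := G), ← expect_div]
  rw [div_le_iff₀ n0, ← mul_le_mul_iff_right₀ n0]
  refine k1.trans (le_of_eq ?_)
  field_simp

section wt

variable {X : Type*} [Fintype X]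

lemma wt_nonneg (F : X → ZMod 2) : 0 ≤ wt F := expect_nonneg fun _ _ => ind_nonneg _

lemma wt_eq_zero {F : X → ZMod 2} : wt F = 0 ↔ F = 0 :=
  (Fintype.expect_eq_zero_iff_of_nonneg fun _ => ind_nonneg _).trans
    (funext_iff.trans ((forall_congr' fun _ => ind_eq_zero).trans funext_iff.symm))

lemma wt_add_le (F F' : X → ZMod 2) : wt (F + F') ≤ wt F + wt F' :=
  (expect_le_expect fun _ _ => ind_add_le _ _).trans (expect_add_distrib _ _ _).le

lemma wt_sum_le {α : Type*} (s : Finset α) (f : α → X → ZMod 2) :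
    wt (∑ a ∈ s, f a) ≤ ∑ a ∈ s, wt (f a) :=
  le_sum_of_subadditive wt (wt_eq_zero.2 rfl).le wt_add_le s f

lemma wt_single [DecidableEq X] (z : X) : wt (Pi.single z 1) = 1 / Fintype.card X := by
  rw [wt, Fintype.expect_eq_sum_div_card, sum_eq_single z (fun y _ h => by simp [h]) (by simp)]
  simp

end wt

lemma wt_shift (F : G → ZMod 2) (a : G) : wt (fun z => F (z + a)) = wt F :=
  shift (fun z => ind (F z)) a

omit [AddCommGroup C] in
lemma sum_shift (f : G → ℝ) (v : C → G) :
    𝔼 z, ∑ c, f (z + v c) = Fintype.card C * 𝔼 z, f z := by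
  rw [expect_sum_comm, sum_congr rfl fun c _ => shift f (v c), sum_const, card_univ, nsmul_eq_mul]

omit [Fintype G] [AddCommGroup C] in
lemma bt_add (v : C → G) (F F' : G → ZMod 2) : bt v (F + F') = bt v F + bt v F' :=
  funext fun _ => sum_add_distrib

omit [AddCommGroup C] in
lemma wt_bt_le (v : C → G) (F : G → ZMod 2) : wt (bt v F) ≤ Fintype.card C * wt F :=
  (expect_le_expect fun _ _ => ind_sum_le _ _).trans (sum_shift (fun z => ind (F z)) v).le

omit [Fintype G] [AddCommGroup C] [Fintype I] in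
lemma Code.add {u : I → C → G} {E : Finset I} {F F' : G → ZMod 2} (h : Code u E F)
    (h' : Code u E F') : Code u E (F + F') := fun e he z => by
  rw [bt_add, Pi.add_apply, h e he, h' e he, add_zero]

omit [Fintype G] [AddCommGroup C] [Fintype I] in
lemma Code.mono {u : I → C → G} {E E' : Finset I} {F : G → ZMod 2} (h : Code u E F)
    (h' : E' ⊆ E) : Code u E' F := fun e he => h e (h' he)

lemma expect_chi [DecidableEq I] (E : Finset I) (a : ℝ) :
    𝔼 e, (if e ∈ E then a else 0) = dens E * a := by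
  rw [Fintype.expect_eq_sum_div_card, sum_ite_mem, univ_inter, sum_const, nsmul_eq_mul, dens]
  ring

variable {u : I → C → G} {lam : ℝ}

omit [Fintype G] [Fintype C] [Fintype I] in
lemma Lin.zero (hu : Lin u) (e : I) : u e 0 = 0 := by simpa using hu e 0 0

omit [Fintype C] in
lemma Mix.ind (h : Mix u lam) {c : C} (hc : c ≠ 0) (F : G → ZMod 2) :
    𝔼 e, 𝔼 z, ind (F z) * ind (F (z + u e c)) ≤ wt F * (wt F + lam) := by
  have := h c hc fun z => Cd.ind (F z)
  simp only [ind_sq] at this
  exact this.trans (le_of_eq (by rw [wt]; ring))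

lemma Mix.sum [DecidableEq C] (h : Mix u lam) (h0 : 0 ≤ lam) (F : G → ZMod 2) :
    𝔼 e, 𝔼 z, ∑ c ∈ univ.erase 0, Cd.ind (F z) * Cd.ind (F (z + u e c)) ≤
      Fintype.card C * (wt F * (wt F + lam)) := by
  simp only [expect_sum_comm]
  refine (sum_le_card_nsmul _ _ _ fun c hc => h.ind (ne_of_mem_erase hc) F).trans ?_
  rw [nsmul_eq_mul]
  have := wt_nonneg F
  exact mul_le_mul_of_nonneg_right (by exact_mod_cast card_le_univ _) (by positivity)

/-- **distance** -/
theorem dist (hu : Lin u) (h : Mix u lam) (h0 : 0 ≤ lam) {E : Finset I} {F : G → ZMod 2}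
    (hF : Code u E F) (hw : Fintype.card C * (wt F + lam) < dens E) : F = 0 := by
  classical
  have h1 : dens E * wt F ≤ _ := le_trans ?_ (h.sum h0 F)
  · exact wt_eq_zero.1 (le_antisymm (by nlinarith [wt_nonneg F]) (wt_nonneg F))
  rw [← expect_chi]
  refine expect_le_expect fun e _ => ?_
  split_ifs with he
  · refine expect_le_expect fun z _ => ?_
    have h2 := hF e he z
    rw [bt, ← add_sum_erase _ _ (mem_univ 0), hu.zero, add_zero, add_eq_zero_iff_eq_neg,
      ZModModule.neg_eq_self] at h2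
    have h3 := ind_sum_le (univ.erase 0) fun c => F (z + u e c)
    rw [← mul_sum]
    rw [← h2] at h3
    nlinarith [ind_sq (F z), ind_nonneg (F z)]
  · exact expect_nonneg fun z _ => sum_nonneg fun c _ => mul_nonneg (ind_nonneg _) (ind_nonneg _)

omit [Fintype G] [Fintype I] in
lemma bt_shift (hu : Lin u) (e : I) (F : G → ZMod 2) (z : G) (c : C) :
    bt (u e) F (z + u e c) = bt (u e) F z :=
  Fintype.sum_equiv (Equiv.addLeft c) _ _ fun c' => by simp [hu e, add_assoc]

variable [Module (ZMod 2) G] [Module (ZMod 2) C]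

omit [Module (ZMod 2) G] [Fintype G] [Fintype I] in
lemma inj_of (hu : Lin u) {e : I} {F : G → ZMod 2} {z : G} (h : bt (u e) F z ≠ 0) {c : C}
    (hc : u e c = 0) : c = 0 := by
  by_contra h0
  refine h (sum_involution (fun a _ => a + c) (fun a _ => ?_) (fun a _ _ => by simpa using h0)
    (fun _ _ => mem_univ _) fun a _ => by rw [add_assoc, ZModModule.add_self, add_zero])
  rw [hu, hc, add_zero, ZModModule.add_self]

omit [Fintype I] in
lemma flip [DecidableEq G] (hu : Lin u) (e : I) (F : G → ZMod 2) (z : G) :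
    wt (bt (u e) (F + Pi.single z 1)) ≤
      wt (bt (u e) F) + Fintype.card C / Fintype.card G * (1 - 2 * ind (bt (u e) F z)) := by
  classical
  rcases bit (bt (u e) F z) with h | h
  · rw [h, bt_add]
    refine (wt_add_le _ _).trans (add_le_add_right ((wt_bt_le _ _).trans (le_of_eq ?_)) _)
    rw [wt_single, ind_zero]; ring
  have h1 : 𝔼 y, (ind (bt (u e) (F + Pi.single z 1) y) +
      ∑ c, ind ((Pi.single z 1 : G → ZMod 2) (y + u e c))) ≤ wt (bt (u e) F) := by
    refine expect_le_expect fun y _ => ?_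
    rw [bt_add, Pi.add_apply]
    by_cases hy : ∃ c, y + u e c = z
    · obtain ⟨c, rfl⟩ := hy
      rw [bt_shift hu] at h
      have e1 : ∀ c', c' ≠ c → (Pi.single (y + u e c) 1 : G → ZMod 2) (y + u e c') = 0 :=
        fun c' hc => Pi.single_eq_of_ne (fun d => hc (by
          rw [← sub_eq_zero, ZModModule.sub_eq_add]
          refine inj_of hu (h ▸ one_ne_zero) ?_
          rw [hu, add_left_cancel d, ZModModule.add_self])) _
      rw [h, bt, sum_eq_single c (fun c' _ => e1 c') (by simp),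
        sum_eq_single c (fun c' _ d => by rw [e1 c' d, ind_zero]) (by simp)]
      simp [two_zero]
    · have e1 : ∀ c, (Pi.single z 1 : G → ZMod 2) (y + u e c) = 0 := fun c =>
        Pi.single_eq_of_ne (fun d => hy ⟨c, d⟩) _
      simp [bt, e1]
  rw [expect_add_distrib, sum_shift fun y => ind ((Pi.single z 1 : G → ZMod 2) y)] at h1
  change wt _ + _ * wt _ ≤ _ at h1
  rw [wt_single] at h1
  rw [h, ind_one]
  exact le_of_le_of_eq (le_sub_iff_add_le.2 h1) (by ring)

omit [Module (ZMod 2) G] [Module (ZMod 2) C] [Fintype G] [Fintype I] in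
lemma koszul [DecidableEq C] (hu : Lin u) (e e' : I) (F : G → ZMod 2) (z : G) :
    ind (bt (u e) F z) ≤ ind (bt (u e') F z) + ∑ c ∈ univ.erase 0, ind (bt (u e) F (z + u e' c)) +
      ∑ c ∈ univ.erase 0, ind (bt (u e') F (z + u e c)) := by
  have h : ∑ c, bt (u e) F (z + u e' c) = ∑ c, bt (u e') F (z + u e c) := by
    unfold bt
    rw [sum_comm]
    simp only [add_right_comm z]
  rw [← add_sum_erase _ _ (mem_univ 0), ← add_sum_erase _ _ (mem_univ 0), hu.zero, hu.zero,
    add_zero, ← eq_sub_iff_add_eq, ZModModule.sub_eq_add] at h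
  rw [h]
  linarith [ind_add_le (bt (u e') F z + ∑ c ∈ univ.erase 0, bt (u e') F (z + u e c))
    (∑ c ∈ univ.erase 0, bt (u e) F (z + u e' c)),
    ind_add_le (bt (u e') F z) (∑ c ∈ univ.erase 0, bt (u e') F (z + u e c)),
    ind_sum_le (univ.erase 0) fun c => bt (u e') F (z + u e c),
    ind_sum_le (univ.erase 0) fun c => bt (u e) F (z + u e' c)]

omit [Module (ZMod 2) G] [Module (ZMod 2) C] in
/-- a word which is locally optimal and violates few checks is a codeword -/
theorem ltc_core (hu : Lin u) (h : Mix u lam) (h0 : 0 ≤ lam) {E : Finset I} [DecidableEq I]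
    {F : G → ZMod 2} {w b m : ℝ} (hw : w = Fintype.card C)
    (hb : ∀ e ∈ E, wt (bt (u e) F) ≤ b)
    (hm : 𝔼 e, (if e ∈ E then wt (bt (u e) F) else 0) ≤ m)
    (hd : ∀ z, 𝔼 e, (if e ∈ E then ind (bt (u e) F z) else 0) + 1 / 4 < dens E)
    (hs : 8 * w ^ 2 * (b + lam) + 8 * w ^ 3 * (8 * w * m + lam) < 1) : Code u E F := by
  classical
  have w1 : 1 ≤ w := by rw [hw]; exact_mod_cast Fintype.card_pos
  set del : G → ℝ := fun z => 𝔼 e, (if e ∈ E then ind (bt (u e) F z) else 0) with hdel
  set M := 𝔼 e, (if e ∈ E then wt (bt (u e) F) else 0) with hM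
  set A : I → G → ℝ := fun e z => 𝔼 e', ∑ c ∈ univ.erase 0, ind (bt (u e) F (z + u e' c)) with hA
  set Z : G → ZMod 2 := fun z => if 1 / (8 * w) < del z then 1 else 0 with hZ
  have d0 : ∀ z, 0 ≤ del z := fun z => expect_nonneg fun e _ => by
    split_ifs; exacts [ind_nonneg _, le_rfl]
  have A0 : ∀ e z, 0 ≤ A e z := fun e z =>
    expect_nonneg fun _ _ => sum_nonneg fun _ _ => ind_nonneg _
  have n0 : ∀ e, 0 ≤ (if e ∈ E then wt (bt (u e) F) else 0) := fun e => by
    split_ifs; exacts [wt_nonneg _, le_rfl]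
  have M0 : 0 ≤ M := expect_nonneg fun e _ => n0 e
  have z1 : wt Z ≤ 8 * w * M := by
    have : 𝔼 z, del z = M := by
      rw [hdel, expect_comm]
      refine expect_congr rfl fun e _ => ?_
      split_ifs; exacts [rfl, expect_const_zero _]
    rw [← this, mul_expect]
    refine expect_le_expect fun z _ => ?_
    simp only [hZ]
    split_ifs with c
    · rw [div_lt_iff₀ (by positivity)] at c
      rw [ind_one]; linarith
    · have := d0 z
      rw [ind_zero]; positivity
  have s1 : ∀ e z, bt (u e) F z = 1 → A e z ≤ 1 / 8 → ∃ c ∈ univ.erase 0, Z (z + u e c) = 1 := by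
    intro e z h1 h2
    have h3 : dens E * 1 ≤ del z + A e z + ∑ c ∈ univ.erase 0, del (z + u e c) := by
      rw [← expect_chi, hdel, hA, ← expect_sum_comm, ← expect_add_distrib, ← expect_add_distrib]
      refine expect_le_expect fun e' _ => ?_
      split_ifs
      · simpa [h1] using koszul hu e e' F z
      · rw [zero_add, sum_const_zero, add_zero]
        exact sum_nonneg fun c _ => ind_nonneg _
    by_contra h4
    have h5 := sum_le_card_nsmul (univ.erase (0 : C)) (fun c => del (z + u e c)) (1 / (8 * w))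
      fun c hc => not_lt.1 fun d => h4 ⟨c, hc, if_pos d⟩
    have h6 : (#(univ.erase (0 : C)) : ℝ) * (1 / (8 * w)) ≤ 1 / 8 := by
      rw [mul_one_div, div_le_div_iff₀ (by positivity) (by norm_num), hw]
      have : (#(univ.erase (0 : C)) : ℝ) ≤ Fintype.card C := by exact_mod_cast card_le_univ _
      linarith
    rw [nsmul_eq_mul] at h5
    linarith [hd z]
  set P : I → G → ℝ := fun e y => ∑ c ∈ univ.erase 0, ind (Z y) * ind (Z (y + u e c)) with hP
  have P0 : ∀ e y, 0 ≤ P e y := fun e y =>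
    sum_nonneg fun _ _ => mul_nonneg (ind_nonneg _) (ind_nonneg _)
  have T0 : ∀ e y, 0 ≤ 8 * (ind (bt (u e) F y) * A e y) := fun e y =>
    mul_nonneg (by norm_num) (mul_nonneg (ind_nonneg _) (A0 e y))
  have s2 : ∀ e, wt (bt (u e) F) ≤ w * 𝔼 y, (8 * (ind (bt (u e) F y) * A e y) + P e y) := by
    intro e
    rw [hw, ← sum_shift _ (u e)]
    refine expect_le_expect fun z _ => ?_
    have a0 := fun c (_ : c ∈ univ) => add_nonneg (T0 e (z + u e c)) (P0 e (z + u e c))
    rcases bit (bt (u e) F z) with a1 | a1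
    · rw [a1, ind_zero]; exact sum_nonneg a0
    have a2 : ∀ c, 1 / 8 < A e (z + u e c) → (1 : ℝ) ≤ _ := fun c hc =>
      le_trans (by rw [bt_shift hu, a1, ind_one]; linarith [P0 e (z + u e c)])
        (single_le_sum a0 (mem_univ c))
    rw [a1, ind_one]
    by_cases a3 : A e z ≤ 1 / 8
    · obtain ⟨c, -, a4⟩ := s1 e z a1 a3
      by_cases a5 : A e (z + u e c) ≤ 1 / 8
      · obtain ⟨c', a6, a7⟩ := s1 e _ ((bt_shift hu e F z c).trans a1) a5
        have a8 := single_le_sum (f := fun c' => ind (Z (z + u e c)) * ind (Z (z + u e c + u e c')))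
          (fun _ _ => mul_nonneg (ind_nonneg _) (ind_nonneg _)) a6
        refine le_trans ?_ (single_le_sum a0 (mem_univ c))
        simp only [a7] at a8
        rw [show ind (Z (z + u e c)) * ind 1 = 1 by simp [a4]] at a8
        linarith [T0 e (z + u e c)]
      · exact a2 c (not_le.1 a5)
    · exact a2 0 (by rw [hu.zero, add_zero]; exact not_le.1 a3)
  have s3 : ∀ e, 𝔼 y, ind (bt (u e) F y) * A e y ≤
      w * (wt (bt (u e) F) * (wt (bt (u e) F) + lam)) := fun e => by
    rw [hw]
    refine le_of_eq_of_le ?_ (h.sum h0 (bt (u e) F))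
    rw [expect_comm]
    simp only [hA, mul_expect, mul_sum]
  have s4 : M ≤ 8 * w ^ 2 * (b + lam) * M + w * 𝔼 e, 𝔼 y, P e y := by
    rw [hM, mul_expect, mul_expect, ← expect_add_distrib]
    refine expect_le_expect fun e _ => ?_
    have a1 : 0 ≤ w * 𝔼 y, P e y := mul_nonneg (by linarith) (expect_nonneg fun y _ => P0 e y)
    split_ifs with he
    · have a2 := s2 e
      rw [expect_add_distrib, ← mul_expect] at a2
      have a3 := mul_le_mul_of_nonneg_left (s3 e) (by linarith : 0 ≤ w)
      have a4 := mul_le_mul_of_nonneg_left (hb e he)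
        (mul_nonneg (sq_nonneg w) (wt_nonneg (bt (u e) F)))
      nlinarith
    · simpa using a1
  have s5 := mul_le_mul_of_nonneg_left (h.sum h0 Z) (by linarith : 0 ≤ w)
  rw [← hw] at s5
  have s6 : wt Z * (wt Z + lam) ≤ 8 * w * M * (8 * w * m + lam) :=
    mul_le_mul z1 (by nlinarith) (add_nonneg (wt_nonneg _) h0) (by positivity)
  have s7 := mul_le_mul_of_nonneg_left s6 (sq_nonneg w)
  have s8 : M = 0 := le_antisymm (by nlinarith) M0
  intro e he z
  have := congrFun ((Fintype.expect_eq_zero_iff_of_nonneg n0).1 s8) e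
  rw [if_pos he] at this
  exact congrFun (wt_eq_zero.1 this) z

/-- **local testability** -/
theorem ltc [Nonempty I] (hu : Lin u) (h : Mix u lam) (h0 : 0 ≤ lam) {F : G → ZMod 2} {w k : ℝ}
    (hw : w = Fintype.card C) (hk : 0 < k) (hF : 𝔼 e, wt (bt (u e) F) ≤ k ^ 2)
    (hs : 8 * w ^ 2 * ((1 + w) * k + lam) + 8 * w ^ 3 * (8 * w * k ^ 2 + lam) < 1) :
    ∃ (E : Finset I) (F' : G → ZMod 2), 1 - k ≤ dens E ∧ (∀ e ∈ E, wt (bt (u e) F) ≤ k) ∧
      wt (F + F') ≤ k ∧ Code u E F' := by
  classical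
  have w1 : 1 ≤ w := by rw [hw]; exact_mod_cast Fintype.card_pos
  have n0 : (0 : ℝ) < Fintype.card G := by exact_mod_cast Fintype.card_pos
  set E := univ.filter fun e => wt (bt (u e) F) ≤ k with hE
  have mem : ∀ e, e ∈ E ↔ wt (bt (u e) F) ≤ k := fun e => by simp [hE]
  have d1 : 1 - k ≤ dens E := by
    have : 𝔼 _e : I, k ≤ 𝔼 e, ((if e ∈ E then k else 0) + wt (bt (u e) F)) := by
      refine expect_le_expect fun e _ => ?_
      split_ifs with he
      · linarith [wt_nonneg (bt (u e) F)]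
      · linarith [not_le.1 (mt (mem e).2 he)]
    rw [Fintype.expect_const, expect_add_distrib, expect_chi] at this
    nlinarith
  obtain ⟨F', hm⟩ := Finite.exists_min fun F' : G → ZMod 2 =>
    𝔼 e, (if e ∈ E then wt (bt (u e) F') else 0) + k * wt (F + F')
  have m0 : 0 ≤ 𝔼 e, (if e ∈ E then wt (bt (u e) F') else 0) := expect_nonneg fun e _ => by
    split_ifs; exacts [wt_nonneg _, le_rfl]
  have m1 := hm F
  have m2 : 𝔼 e, (if e ∈ E then wt (bt (u e) F) else 0) ≤ k ^ 2 :=
    (expect_le_expect fun e _ => by split_ifs; exacts [le_rfl, wt_nonneg _]).trans hF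
  rw [ZModModule.add_self, wt_eq_zero.2 rfl] at m1
  have m3 : wt (F + F') ≤ k := by nlinarith
  have m4 := mul_nonneg hk.le (wt_nonneg (F + F'))
  refine ⟨E, F', d1, fun e => (mem e).1, m3, ltc_core hu h h0 hw (fun e he => ?_) (by linarith)
    (fun z => ?_) hs⟩
  · have a1 := wt_add_le (bt (u e) F) (bt (u e) (F + F'))
    rw [← bt_add, ← add_assoc, ZModModule.add_self, zero_add] at a1
    have a2 := wt_bt_le (u e) (F + F')
    rw [← hw] at a2
    nlinarith [(mem e).1 he]
  · have a1 := hm (F' + Pi.single z 1)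
    have a2 := wt_add_le (F + F') (Pi.single z 1)
    rw [wt_single, add_assoc] at a2
    have a3 : 𝔼 e, (if e ∈ E then wt (bt (u e) (F' + Pi.single z 1)) else 0) ≤
        𝔼 e, ((if e ∈ E then wt (bt (u e) F') else 0) + w / Fintype.card G *
          ((if e ∈ E then 1 else 0) - 2 * (if e ∈ E then ind (bt (u e) F' z) else 0))) := by
      refine expect_le_expect fun e _ => ?_
      split_ifs
      · exact hw ▸ flip hu e F' z
      · simp
    rw [expect_add_distrib, ← mul_expect, expect_sub_distrib, ← mul_expect, expect_chi] at a3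
    have a4 : 0 ≤ (w * (dens E * 1 - 2 * 𝔼 e, (if e ∈ E then ind (bt (u e) F' z) else 0)) + k) /
        Fintype.card G := by
      rw [add_div, mul_div_right_comm, div_eq_mul_one_div k]
      nlinarith
    rw [le_div_iff₀ n0, zero_mul] at a4
    have a5 : 16 * k < 1 := by
      have : 0 ≤ 8 * w ^ 3 * (8 * w * k ^ 2 + lam) := by positivity
      have : 1 ≤ w ^ 2 := by nlinarith
      nlinarith [mul_nonneg hk.le (sub_nonneg.2 w1), mul_nonneg (sub_nonneg.2 this)
        (show 0 ≤ (1 + w) * k + lam by positivity)]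
    nlinarith

end Vale.Agent.P318B.Cd
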