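import Vale.Agent.P318B.Spec

/-!
# P318B / Complete: the chain of functions and the honest proof table
-/

namespace Vale.Agent.P318B

open Finset Vale.Agent.Lib.PCP
open scoped BigOperators
open Dg (Dv Lo)

variable {p E : ℕ} (d : Dat p E)

/-- membership in `T` for numbers -/
def Tn (k : ℕ) : Bool := if h : k < p then d.T ⟨k, h⟩ else false

theorem Tn_fin (k : Fin p) : Tn d k = d.T k := dif_pos k.2

/-- the derivative along `b_0` in the three slots `x1, x2, x3` -/
def D3 (Φ : G p → ZMod 2) : G p → ZMod 2 := Dv (be p 1) (Dv (be p 2) (Dv (be p 3) Φ))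

/-- the chain on positions -/
def hh (Φ : G p → ZMod 2) : ℕ → G p → ZMod 2
  | 0 => Φ
  | k + 1 => fun z => (if Tn d k then D3 (hh Φ k) else hh Φ k) (thG d.th z)

/-- the chain on the basic space -/
def ch (φ : V p → ZMod 2) : ℕ → V p → ZMod 2
  | 0 => φ
  | k + 1 => fun x => (if Tn d k then Dv (bas p 0) (ch φ k) else ch φ k) (d.th x)

theorem iter_add (th : V p →ₗ[ZMod 2] V p) (k : ℕ) (x y : V p) :
    th^[k] (x + y) = th^[k] x + th^[k] y := by
  induction k generalizing x y with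
  | zero => rfl
  | succ k ih => simp only [Function.iterate_succ_apply, map_add, ih]

theorem iter_bas {th : V p →ₗ[ZMod 2] V p} (hs : ∀ k, k + 1 < p → th (bas p k) = bas p (k + 1))
    {k : ℕ} (hk : k < p) : th^[k] (bas p 0) = bas p k := by
  induction k with
  | zero => rfl
  | succ k ih => rw [Function.iterate_succ_apply', ih (by omega), hs k hk]

theorem ch_eq (hs : ∀ k, k + 1 < p → d.th (bas p k) = bas p (k + 1)) (φ : V p → ZMod 2) {k : ℕ}
    (hk : k ≤ p) (x : V p) : ch d φ k x = Dg.DT (fun i : Fin p => bas p i)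
      (univ.filter fun i : Fin p => d.T i = true ∧ (i : ℕ) < k) φ (d.th^[k] x) := by
  induction k generalizing x with
  | zero => simp [ch, Dg.DT_empty]
  | succ k ih =>
    have hk' : k < p := hk
    have h0 : Tn d k = d.T ⟨k, hk'⟩ := dif_pos hk'
    rw [ch, h0, Function.iterate_succ_apply]
    beta_reduce
    split_ifs with h
    · have e : (univ.filter fun i : Fin p => d.T i = true ∧ (i : ℕ) < k + 1) =
          insert ⟨k, hk'⟩ (univ.filter fun i : Fin p => d.T i = true ∧ (i : ℕ) < k) := by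
        ext i
        simp only [mem_filter, mem_univ, true_and, mem_insert, Fin.ext_iff]
        constructor
        · rintro ⟨h1, h2⟩
          rcases Nat.lt_succ_iff_lt_or_eq.1 h2 with h3 | h3
          · exact Or.inr ⟨h1, h3⟩
          · exact Or.inl h3
        · rintro (h1 | ⟨h1, h2⟩)
          · obtain rfl : i = ⟨k, hk'⟩ := Fin.ext h1
            exact ⟨h, Nat.lt_succ_self _⟩
          · exact ⟨h1, by omega⟩
      rw [e, Dg.DT_insert _ (by simp), Dg.Dv_apply, Dg.Dv_apply, ih hk'.le, ih hk'.le, iter_add,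
        iter_bas hs hk']
    · have e : (univ.filter fun i : Fin p => d.T i = true ∧ (i : ℕ) < k + 1) =
          univ.filter fun i : Fin p => d.T i = true ∧ (i : ℕ) < k := by
        refine filter_congr fun i _ => and_congr_right fun h1 => ⟨fun h2 => ?_, fun h2 => by omega⟩
        rcases Nat.lt_succ_iff_lt_or_eq.1 h2 with h3 | h3
        · exact h3
        · obtain rfl : i = ⟨k, hk'⟩ := Fin.ext h3
          exact absurd h1 h
      rw [e, ih hk'.le]

theorem ch_top (hs : ∀ k, k + 1 < p → d.th (bas p k) = bas p (k + 1)) (φ : V p → ZMod 2)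
    (x : V p) : ch d φ p x = DTb d.T φ (d.th^[p] x) := by
  rw [ch_eq d hs φ le_rfl, DTb]
  simp only [Fin.is_lt, and_true]

theorem D3_sum {ι : Type*} (s : Finset ι) (Φ : ι → G p → ZMod 2) :
    D3 (∑ j ∈ s, Φ j) = ∑ j ∈ s, D3 (Φ j) := by
  simp only [D3, Dg.Dv_sum]

theorem hh_sum {ι : Type*} (s : Finset ι) (Φ : ι → G p → ZMod 2) (k : ℕ) :
    hh d (∑ j ∈ s, Φ j) k = ∑ j ∈ s, hh d (Φ j) k := by
  induction k with
  | zero => rfl
  | succ k ih =>
    funext z
    simp only [hh, ih, Finset.sum_apply]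
    split_ifs
    · rw [D3_sum, Finset.sum_apply]
    · rw [Finset.sum_apply]

theorem D3_prod (c φ1 φ2 φ3 : V p → ZMod 2) (z : G p) :
    D3 (fun z : G p => c (z 0) * (φ1 (z 1) * φ2 (z 2) * φ3 (z 3))) z =
      c (z 0) * (Dv (bas p 0) φ1 (z 1) * Dv (bas p 0) φ2 (z 2) * Dv (bas p 0) φ3 (z 3)) := by
  simp only [D3, Dg.Dv_apply, be, Pi.add_apply, Pi.single_apply]
  simp
  ring

theorem hh_prod (c φ1 φ2 φ3 : V p → ZMod 2) (k : ℕ) :
    hh d (fun z : G p => c (z 0) * (φ1 (z 1) * φ2 (z 2) * φ3 (z 3))) k = fun z =>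
      c (d.th^[k] (z 0)) * (ch d φ1 k (z 1) * ch d φ2 k (z 2) * ch d φ3 k (z 3)) := by
  induction k with
  | zero => rfl
  | succ k ih =>
    funext z
    simp only [hh, ch, ih]
    split_ifs
    · exact D3_prod (fun x => c (d.th^[k] x)) _ _ _ _
    · rfl

/-- the end of the chain for the arithmetised formula -/
theorem hh_Rf (hs : ∀ k, k + 1 < p → d.th (bas p k) = bas p (k + 1)) (cl : CNF)
    (g : V p → ZMod 2) (z : G p) :
    hh d (fun z => Rf d cl z (g (z 1)) (g (z 2)) (g (z 3))) p z =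
      ∑ j ∈ range cl.length, d.f j (d.th^[p] (z 0)) *
        (DTb d.T (fun x => fac d (cl.getD j default).1 x (g x)) (d.th^[p] (z 1)) *
          DTb d.T (fun x => fac d (cl.getD j default).2.1 x (g x)) (d.th^[p] (z 2)) *
          DTb d.T (fun x => fac d (cl.getD j default).2.2 x (g x)) (d.th^[p] (z 3))) := by
  have e : (fun z : G p => Rf d cl z (g (z 1)) (g (z 2)) (g (z 3))) = ∑ j ∈ range cl.length,
      fun z : G p => d.f j (z 0) * ((fun x => fac d (cl.getD j default).1 x (g x)) (z 1) *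
        (fun x => fac d (cl.getD j default).2.1 x (g x)) (z 2) *
        (fun x => fac d (cl.getD j default).2.2 x (g x)) (z 3)) := by
    funext z
    rw [Finset.sum_apply]
    rfl
  rw [e, hh_sum, Finset.sum_apply]
  refine sum_congr rfl fun j _ => ?_
  rw [congrFun (hh_prod d (d.f j) (fun x => fac d (cl.getD j default).1 x (g x))
    (fun x => fac d (cl.getD j default).2.1 x (g x)) (fun x => fac d (cl.getD j default).2.2 x (g x))
    p) z]
  simp only [ch_top d hs]

/-- the diagonal action as a homomorphism -/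
def thH (th : V p →ₗ[ZMod 2] V p) : G p →+ G p :=
  AddMonoidHom.mk' (thG th) fun x y => funext fun k => map_add th (x k) (y k)

theorem thG_dir (th : V p →ₗ[ZMod 2] V p) (r : Fin E → Fin 9 → G p) (e0 : Fin E) (i : ℕ)
    (j : Fin 9) : thG th (dir th r e0 i j) = dir th r e0 (i + 1) j :=
  funext fun _ => (Function.iterate_succ_apply' _ _ _).symm

theorem lo_hh {Φ : G p → ZMod 2} {n N : ℕ} {e0 : Fin E}
    (h : ∀ i < N, Lo (Set.range (dir d.th d.r e0 i)) n Φ) (k : ℕ) :
    ∀ i, i + k < N → Lo (Set.range (dir d.th d.r e0 i)) n (hh d Φ k) := by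
  induction k with
  | zero => exact h
  | succ k ih =>
    intro i hi
    have h1 := ih (i + 1) (by omega)
    refine Dg.Lo.comp (thH d.th) (W := Set.range (dir d.th d.r e0 (i + 1))) ?_ ?_
    · rintro _ ⟨j, rfl⟩
      exact ⟨j, (thG_dir _ _ _ _ _).symm⟩
    · split_ifs
      · exact ((h1.dv _).dv _).dv _
      · exact h1

theorem lo_proj {U : Set (G p)} {φ : V p → ZMod 2} (k : Fin 6)
    (h : ∀ u ∈ U, ∀ u' ∈ U, Dv (u' k) (Dv (u k) φ) = 0) : Lo U 2 (fun z : G p => φ (z k)) :=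
  Dg.Lo.comp (Pi.evalAddMonoidHom (fun _ : Fin 6 => V p) k) (W := (fun u => u k) '' U)
    (fun u hu => ⟨u, hu, rfl⟩) (by
      rintro _ ⟨u, hu, rfl⟩ _ ⟨u', hu', rfl⟩
      exact h u hu u' hu')

theorem C1.lo {th : V p →ₗ[ZMod 2] V p} {r : Fin E → Fin 9 → G p} {φ : V p → ZMod 2}
    (h : C1 th r φ) (e0 : Fin E) {i : ℕ} (hi : i < 2 * p) (k : Fin 6) :
    Lo (Set.range (dir th r e0 i)) 2 (fun z : G p => φ (z k)) :=
  lo_proj k (by
    rintro _ ⟨j, rfl⟩ _ ⟨j', rfl⟩
    exact h e0 i hi j' j k)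

theorem lo_fac {U : Set (G p)} {l : Lit} {k : Fin 6} {y : G p → ZMod 2}
    (hA : Lo U 2 fun z : G p => d.A l.1 (z k)) (hf : Lo U 2 fun z : G p => d.f l.1 (z k))
    (hy : Lo U 2 y) : Lo U 3 fun z => fac d l (z k) (y z) :=
  Dg.Lo.mul' hA (hy.add (hf.smul (if l.2 then 1 else 0)))

theorem Bd.getD {n : ℕ} {cl : CNF} (hb : Bd n cl) {j : ℕ} (hj : j < cl.length) :
    (cl.getD j default).1.1 < n ∧ (cl.getD j default).2.1.1 < n ∧
      (cl.getD j default).2.2.1 < n := by
  rw [List.getD_eq_getElem _ _ hj]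
  exact hb.2 _ (List.getElem_mem hj)

/-- the degree of the arithmetised formula along a rotated seed -/
theorem lo_Rf {n : ℕ} {lam : ℝ} (hd : Good d n lam) {cl : CNF} (hb : Bd n cl) {e0 : Fin E} {i : ℕ}
    (hi : i < 2 * p) {y1 y2 y3 : G p → ZMod 2} (h1 : Lo (Set.range (dir d.th d.r e0 i)) 2 y1)
    (h2 : Lo (Set.range (dir d.th d.r e0 i)) 2 y2) (h3 : Lo (Set.range (dir d.th d.r e0 i)) 2 y3) :
    Lo (Set.range (dir d.th d.r e0 i)) 8 fun z => Rf d cl z (y1 z) (y2 z) (y3 z) := by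
  refine Dg.Lo.sum' _ fun j hj => ?_
  have hj' := mem_range.1 hj
  obtain ⟨a1, a2, a3⟩ := hb.getD hj'
  exact Dg.Lo.mul' ((hd.affF j (hj'.trans_le hb.1)).lo e0 hi 0) (Dg.Lo.mul' (Dg.Lo.mul'
    (lo_fac d ((hd.affA _ a1).lo e0 hi 1) ((hd.affF _ a1).lo e0 hi 1) h1)
    (lo_fac d ((hd.affA _ a2).lo e0 hi 2) ((hd.affF _ a2).lo e0 hi 2) h2))
    (lo_fac d ((hd.affA _ a3).lo e0 hi 3) ((hd.affF _ a3).lo e0 hi 3) h3))

theorem uu_lin (th : V p →ₗ[ZMod 2] V p) (r : Fin E → Fin 9 → G p) : Cd.Lin (uu th r) :=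
  fun e c c' => by simp only [uu, Pi.add_apply, add_smul, sum_add_distrib]

theorem uu_bs (th : V p →ₗ[ZMod 2] V p) (r : Fin E → Fin 9 → G p) (e : Fin E × Fin p)
    (j : Fin 9) : uu th r e (Dg.bs j) = dir th r e.1 e.2 j := by
  simp [uu, Dg.bs, Pi.single_apply]

/-- functions of degree at most eight along `e` pass the main test -/
theorem bt_zero {th : V p →ₗ[ZMod 2] V p} {r : Fin E → Fin 9 → G p} {e : Fin E × Fin p}
    {F : G p → ZMod 2} (h : Lo (Set.range (dir th r e.1 e.2)) 9 F) (z : G p) :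
    Cd.bt (uu th r e) F z = 0 :=
  Dg.cube_zero (U := Set.range (dir th r e.1 e.2)) (uu_lin th r e)
    (fun j => ⟨j, (uu_bs th r e j).symm⟩) h (by simp) z

theorem DTb_fac {n : ℕ} (hd : Dual d.T d.f d.A n) {l : Lit} (hl : l.1 < n) (g : V p → ZMod 2)
    (x : V p) : DTb d.T (fun x => fac d l x (g x)) x =
      DTb d.T (d.A l.1 * g) x + if l.2 then 1 else 0 := by
  have e : (fun x => fac d l x (g x)) =
      d.A l.1 * g + (if l.2 then 1 else 0 : ZMod 2) • (d.A l.1 * d.f l.1) := by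
    funext x
    simp only [fac, Pi.add_apply, Pi.mul_apply, Pi.smul_apply, smul_eq_mul]
    ring
  have h := hd _ hl _ hl x
  rw [if_pos rfl, DTb] at h
  rw [e, DTb, Dg.DT_add, Dg.DT_smul, Pi.add_apply, Pi.smul_apply, h, smul_eq_mul, mul_one, DTb]

theorem DTb_comb {n : ℕ} (hd : Dual d.T d.f d.A n) {v : ℕ} (hv : v < n) {m : ℕ} (hm : m ≤ n)
    (c : ℕ → ZMod 2) (x : V p) :
    DTb d.T (d.A v * fun x => ∑ w ∈ range m, c w * d.f w x) x = if v < m then c v else 0 := by
  have e : (d.A v * fun x => ∑ w ∈ range m, c w * d.f w x) =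
      ∑ w ∈ range m, c w • (d.A v * d.f w) := by
    funext x
    simp only [Pi.mul_apply, Finset.sum_apply, Pi.smul_apply, smul_eq_mul, mul_sum]
    exact sum_congr rfl fun w _ => by ring
  rw [e, DTb, Dg.DT_sum, Finset.sum_apply]
  rw [sum_congr rfl (g := fun w => if v = w then c w else 0) fun w hw => by
    have h := hd _ hv _ ((mem_range.1 hw).trans_le hm) x
    rw [DTb] at h
    rw [Dg.DT_smul, Pi.smul_apply, h, smul_eq_mul, mul_ite, mul_one, mul_zero]]
  simp only [sum_ite_eq, mem_range]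

/-! ### The honest table -/

/-- the function does not depend on the slots `y1, y2` -/
def Ind (Φ : G p → ZMod 2) : Prop := ∀ z s : G p, (∀ m, m ≠ 4 → m ≠ 5 → s m = 0) → Φ (z + s) = Φ z

theorem Ind.dv {Φ : G p → ZMod 2} (h : Ind Φ) (a : G p) : Ind (Dv a Φ) := fun z s hs => by
  rw [Dg.Dv_apply, Dg.Dv_apply, add_right_comm, h z s hs, h (z + a) s hs]

theorem Ind.hh {Φ : G p → ZMod 2} (h : Ind Φ) (k : ℕ) : Ind (hh d Φ k) := by
  induction k with
  | zero => exact h
  | succ k ih =>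
    intro z s hs
    have e : thG d.th (z + s) = thG d.th z + thG d.th s := map_add (thH d.th) z s
    have hs' : ∀ m, m ≠ 4 → m ≠ 5 → thG d.th s m = 0 := fun m h4 h5 => by
      rw [thG, hs m h4 h5, map_zero]
    simp only [P318B.hh, e]
    split_ifs
    · exact (((ih.dv _).dv _).dv _) _ _ hs'
    · exact ih _ _ hs'

/-- the table for a family `h` and a function `g` -/
def tab (h : ℕ → G p → ZMod 2) (g : V p → ZMod 2) (k0 : Fin p) : G p → ZMod 2 :=
  fun z => ∑ k : Fin p, z 4 k * h k z + z 5 k0 * g (z 1)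

theorem Dv_io_tab {h : ℕ → G p → ZMod 2} (hi : ∀ k, Ind (h k)) (g : V p → ZMod 2) (k0 : Fin p)
    (a : V p) : Dv (io a) (tab h g k0) = fun z => ∑ k : Fin p, a k * h k z := by
  funext z
  have e : ∀ k, h k (z + io a) = h k z := fun k => hi k z _ fun m h4 _ => Pi.single_eq_of_ne h4 _
  simp only [Dg.Dv_apply, tab, e]
  simp only [io, Pi.add_apply, Pi.single_apply]
  simp only [add_mul, sum_add_distrib, if_true, Fin.reduceEq, if_false, add_zero, Pi.zero_apply]
  linear_combination (exp := 1) Dg.two (∑ k : Fin p, z 4 k * h k z) + Dg.two (z 5 k0 * g (z 1))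

theorem Dv_es_tab {h : ℕ → G p → ZMod 2} (hi : ∀ k, Ind (h k)) (g : V p → ZMod 2) {k0 : Fin p}
    (h0 : (k0 : ℕ) = 0) : Dv (es p) (tab h g k0) = fun z => g (z 1) := by
  funext z
  have e : ∀ k, h k (z + es p) = h k z := fun k => hi k z _ fun m _ h5 => Pi.single_eq_of_ne h5 _
  simp only [Dg.Dv_apply, tab, e]
  simp only [es, Pi.add_apply, Pi.single_apply]
  simp only [add_mul, if_true, Fin.reduceEq, if_false, add_zero, Pi.zero_apply, bas, h0, one_mul]
  linear_combination (exp := 1) Dg.two (∑ k : Fin p, z 4 k * h k z) + Dg.two (z 5 k0 * g (z 1))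

theorem sum_bas (k0 : Fin p) (h : Fin p → ZMod 2) : ∑ k : Fin p, bas p k0 k * h k = h k0 := by
  simp [bas_eq, Pi.single_apply]

theorem sum_sh (a : V p) (h : ℕ → ZMod 2) (hp : h p = 0) :
    ∑ k : Fin p, sh a k * h k = ∑ k : Fin p, a k * h (k + 1) := by
  cases p with
  | zero => simp
  | succ q =>
    rw [Fin.sum_univ_succ, Fin.sum_univ_castSucc]
    simp [sh, hp]
    rfl

theorem lo_tab {h : ℕ → G p → ZMod 2} {g : V p → ZMod 2} (k0 : Fin p) {U : Set (G p)}
    (h1 : ∀ k < p, Lo U 8 (h k)) (h2 : Lo U 2 fun z : G p => g (z 1)) : Lo U 9 (tab h g k0) := by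
  have e : ∀ (m : Fin 6) (k : Fin p), Lo U 2 fun z : G p => z m k := fun m k =>
    Dg.lo_hom U ((Pi.evalAddMonoidHom (fun _ : Fin p => ZMod 2) k).comp
      (Pi.evalAddMonoidHom (fun _ : Fin 6 => V p) m))
  exact Dg.Lo.add (Dg.Lo.sum' _ fun k _ => Dg.Lo.mul' (e 4 k) (h1 k k.2))
    ((Dg.Lo.mul' (e 5 k0) h2).mono (by norm_num))

theorem lit_val (σ : ℕ → Bool) (l : Lit) (h : satLit l σ = true) :
    ((if σ l.1 then 1 else 0) + if l.2 then 1 else 0 : ZMod 2) = 0 := by
  rw [satLit, beq_iff_eq] at h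
  rw [h, Dg.two]

theorem complete : CompleteS := by
  intro p E n d cl lam hp hd hb ⟨σ, hσ⟩
  let g : V p → ZMod 2 := fun x => ∑ w ∈ range n, (if σ w then 1 else 0) * d.f w x
  let R : G p → ZMod 2 := fun z => Rf d cl z (g (z 1)) (g (z 2)) (g (z 3))
  have hg : C1 d.th d.r g := fun e0 i hi j j' k => by
    have e : g = ∑ w ∈ range n, (if σ w then 1 else 0 : ZMod 2) • d.f w := by
      funext x
      simp only [g, Finset.sum_apply, Pi.smul_apply, smul_eq_mul]
    rw [e, Dg.Dv_sum, Dg.Dv_sum]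
    exact sum_eq_zero fun w hw => by
      rw [Dg.Dv_smul, Dg.Dv_smul, hd.affF w (mem_range.1 hw) e0 i hi j j' k, smul_zero]
  have hR : Ind R := fun z s hs => by
    simp only [R, Rf, Pi.add_apply, hs 0 (by decide) (by decide), hs 1 (by decide) (by decide),
      hs 2 (by decide) (by decide), hs 3 (by decide) (by decide), add_zero]
  have hI : ∀ k, Ind (hh d R k) := hR.hh d
  have hv : ∀ l : Lit, l.1 < n → ∀ x, DTb d.T (fun x => fac d l x (g x)) x =
      (if σ l.1 then 1 else 0) + if l.2 then 1 else 0 := fun l hl x => by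
    rw [DTb_fac d hd.dual hl, DTb_comb d hd.dual hl le_rfl, if_pos hl]
  have htop : ∀ z, hh d R p z = 0 := fun z => by
    rw [hh_Rf d hd.seed.shift]
    refine sum_eq_zero fun j hj => ?_
    have hj' := mem_range.1 hj
    obtain ⟨a1, a2, a3⟩ := hb.getD hj'
    have h1 := hσ (cl.getD j default) (by
      rw [List.getD_eq_getElem _ _ hj']; exact List.getElem_mem hj')
    rw [hv _ a1, hv _ a2, hv _ a3]
    simp only [satClause, Bool.or_eq_true] at h1
    rcases h1 with (h1 | h1) | h1 <;> simp only [lit_val σ _ h1, zero_mul, mul_zero]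
  have e1 := Dv_io_tab hI g ⟨0, hp⟩
  have e2 := Dv_es_tab hI g (k0 := ⟨0, hp⟩) rfl
  refine ⟨tab (hh d R) g ⟨0, hp⟩, fun ⟨z, e, a, a', s, j, j', k⟩ => ⟨?_, fun t => ?_⟩⟩
  · have hi := e.2.2
    refine bt_zero (lo_tab _ (fun k hk => lo_hh d (N := 2 * p) (fun i hi => ?_) k _ (by omega))
      (hg.lo _ (by omega) 1)) _
    exact lo_Rf d hd hb hi (hg.lo _ hi 1) (hg.lo _ hi 2) (hg.lo _ hi 3)
  · match t with
    | 0 =>
      rw [resid_0, e1, Dg.Dv_apply]
      rw [sum_congr rfl (g := fun k : Fin p => a k * hh d R k z) (s₁ := univ) (f := fun k : Fin p =>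
        a k * hh d R k (z + io a')) fun k _ => by
          rw [hI k z _ fun m h4 _ => Pi.single_eq_of_ne h4 _], Dg.two]
    | 1 =>
      rw [resid_1, e2, Dg.Dv_apply, Pi.add_apply, Function.update_self, add_zero, Dg.two]
    | 2 =>
      have hi := e.2.2
      have h1 := congrFun (hg e.1 e.2 (by omega) j j' (xs k)) (z 1)
      rw [resid_2, e2]
      simpa only [Dg.Dv_apply, ux, Pi.add_apply, Pi.single_eq_same, Pi.zero_apply] using h1
    | 3 =>
      rw [resid_3, e1, e2]
      have h1 := sum_bas ⟨0, hp⟩ fun k : Fin p => hh d R k z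
      simp only [h1, sw, Equiv.swap_apply_left]
      exact Dg.two _
    | 4 =>
      have h3 : ∀ b : V p, Dv (be p 1) (Dv (be p 2) (Dv (be p 3) fun z =>
          ∑ k : Fin p, b k * hh d R k z)) = fun z => ∑ k : Fin p, b k * D3 (hh d R k) z := by
        intro b
        funext z
        simp only [D3, Dg.Dv_apply, mul_add, sum_add_distrib]
      rw [resid_4, e1, e1, e1, h3]
      simp only []
      rw [sum_sh a (fun k => hh d R k z) (htop z), ← sum_add_distrib, ← sum_add_distrib]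
      refine sum_eq_zero fun k _ => ?_
      simp only [hh, Tn_fin, res]
      cases d.T k <;> simp [Dg.two]

end Vale.Agent.P318B
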