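import Mathlib.Data.ZMod.Basic
import Mathlib.Algebra.BigOperators.Ring.Finset
import Mathlib.Algebra.BigOperators.Fin
import Mathlib.Algebra.Order.BigOperators.Ring.Finset
import Mathlib.Data.Real.Basic
import Mathlib.Tactic

/-!
# P318B / GadA : the cost of the units which belong to one test
-/

namespace Vale.Agent.P318B.Gd

open Finset

/-- bits -/
abbrev Z2 : Type := ZMod 2

/-- the indicator -/
def ib (b : Bool) : ℝ := if b then 1 else 0

/-- the sign of a bit -/
def sn (b : Z2) : ℝ := if b = 0 then 1 else -1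

@[simp] theorem ib_true : ib true = 1 := rfl
@[simp] theorem ib_false : ib false = 0 := rfl
theorem ib_nonneg (b : Bool) : 0 ≤ ib b := by cases b <;> simp
theorem ib_le (b : Bool) : ib b ≤ 1 := by cases b <;> simp
theorem ib_sq (b : Bool) : ib b * ib b = ib b := by cases b <;> simp

theorem sum_z2 (g : Z2 → ℝ) : ∑ b, g b = g 0 + g 1 := Fin.sum_univ_two g

theorem z2_cases (b : Z2) : b = 0 ∨ b = 1 := by revert b; decide

theorem sn_zero : sn 0 = 1 := if_pos rfl
theorem sn_one : sn 1 = -1 := if_neg (by decide)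

theorem sn_add (a b : Z2) : sn (a + b) = sn a * sn b := by
  have h : (1 : Z2) + 1 = 0 := by decide
  rcases z2_cases a with rfl | rfl <;> rcases z2_cases b with rfl | rfl <;>
    simp [h, sn_zero, sn_one]

theorem sn_sum {W : Type} (s : Finset W) (α : W → Z2) :
    sn (∑ c ∈ s, α c) = ∏ c ∈ s, sn (α c) := by
  classical
  induction s using Finset.induction_on with
  | empty => simp [sn_zero]
  | insert a s ha ih => rw [sum_insert ha, prod_insert ha, sn_add, ih]

/-! ### kinks -/

/-- the kinks of a main test -/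
def kM (w : ℕ) (e : Z2) (i : ℕ) : ℕ :=
  if e = 0 then min (i + 1) (w - 1) else if i + 2 < w then i + 1 else w

/-- the kink of an auxiliary test -/
def kA (w : ℕ) (b : Bool) : ℕ := if b then w - 1 else w

theorem sum_tri (m k : ℕ) (h : k ≤ m) : 2 * ∑ i ∈ range m, (k - (i + 1)) + k = k * k := by
  induction k generalizing m with
  | zero => simp
  | succ k ih =>
    obtain ⟨m, rfl⟩ : ∃ m', m = m' + 1 := ⟨m - 1, by omega⟩
    have := ih m (by omega)
    rw [sum_range_succ']
    simp only [Nat.add_sub_add_right, zero_add, Nat.add_sub_cancel]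
    nlinarith

theorem sum_kM {w k : ℕ} (hw : 2 ≤ w) (hk : k ≤ w) (e : Z2) :
    2 * ∑ i : Fin w, ((k - kM w e i : ℕ) : ℝ)
      = k * k - k + 2 * sn e * (if k = w then 1 else 0) := by
  obtain ⟨m, rfl⟩ : ∃ m, w = m + 2 := ⟨w - 2, by omega⟩
  have h := sum_tri (m + 2) k hk
  rw [sum_range_succ, sum_range_succ] at h
  rw [← Nat.cast_sum, Fin.sum_univ_eq_sum_range (fun i => k - kM (m + 2) e i), sum_range_succ,
    sum_range_succ]
  have e1 : ∑ i ∈ range m, (k - kM (m + 2) e i) = ∑ i ∈ range m, (k - (i + 1)) := by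
    refine sum_congr rfl fun i hi => ?_
    have := mem_range.1 hi
    unfold kM
    split_ifs <;> omega
  rw [e1]
  generalize ∑ i ∈ range m, (k - (i + 1)) = T at h
  have h' : (2 * T : ℝ) + 2 * (if k = m + 2 then 1 else 0) + k = k * k := by
    have : 2 * T + 2 * (if k = m + 2 then 1 else 0) + k = k * k := by
      rw [← h]; split_ifs <;> omega
    exact_mod_cast this
  rcases z2_cases e with rfl | rfl
  · have : (k - kM (m + 2) 0 m) + (k - kM (m + 2) 0 (m + 1))
        = 2 * (if k = m + 2 then 1 else 0) := by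
      have a1 : kM (m + 2) 0 m = m + 1 := by unfold kM; rw [if_pos rfl]; omega
      have a2 : kM (m + 2) 0 (m + 1) = m + 1 := by unfold kM; rw [if_pos rfl]; omega
      rw [a1, a2]; split_ifs <;> omega
    rw [add_assoc, this, sn_zero]
    push_cast
    linarith
  · have : (k - kM (m + 2) 1 m) + (k - kM (m + 2) 1 (m + 1)) = 0 := by
      have h1 : ¬ (1 : Z2) = 0 := by decide
      unfold kM; rw [if_neg h1, if_neg h1, if_neg (by omega), if_neg (by omega)]; omega
    rw [add_assoc, this, sn_one]
    push_cast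
    linarith

theorem sub_kA {w k : ℕ} (hw : 1 ≤ w) (hk : k ≤ w) (b : Bool) :
    ((k - kA w b : ℕ) : ℝ) = ib b * (if k = w then 1 else 0) := by
  cases b
  · simp [kA, hk]
  · have : k - kA w true = if k = w then 1 else 0 := by
      simp only [kA, if_true]; split_ifs <;> omega
    rw [this]; simp

/-! ### sums over the patterns -/

section Pat

variable {W : Type} [Fintype W] [DecidableEq W]

theorem sum_pat (g : W → Z2 → ℝ) : ∑ α : W → Z2, ∏ c, g c (α c) = ∏ c, (g c 0 + g c 1) := by
  simp only [← sum_z2]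
  rw [Fintype.prod_sum]

theorem sum_pat1 (c : W) (g : Z2 → ℝ) :
    2 * ∑ α : W → Z2, g (α c) = 2 ^ Fintype.card W * (g 0 + g 1) := by
  have h := sum_pat fun c' b => if c' = c then g b else 1
  have e1 : ∀ α : W → Z2, (∏ c', if c' = c then g (α c') else 1) = g (α c) := fun α => by simp
  have e2 : ∀ c' : W, ((if c' = c then g 0 else 1) + if c' = c then g 1 else 1)
      = 2 * if c' = c then (g 0 + g 1) / 2 else 1 := fun c' => by split_ifs <;> ring
  simp only [e1, e2, prod_mul_distrib, prod_const, card_univ, prod_ite_eq', mem_univ,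
    if_true] at h
  rw [h]; ring

theorem sum_pat2 {c c' : W} (hc : c ≠ c') (g g' : Z2 → ℝ) :
    4 * ∑ α : W → Z2, g (α c) * g' (α c')
      = 2 ^ Fintype.card W * ((g 0 + g 1) * (g' 0 + g' 1)) := by
  have h := sum_pat fun d b => (if d = c then g b else 1) * (if d = c' then g' b else 1)
  have e1 : ∀ α : W → Z2, (∏ d, (if d = c then g (α d) else 1) * (if d = c' then g' (α d) else 1))
      = g (α c) * g' (α c') := fun α => by
    rw [prod_mul_distrib]; simp
  have e2 : ∀ d : W, ((if d = c then g 0 else 1) * (if d = c' then g' 0 else 1)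
      + (if d = c then g 1 else 1) * (if d = c' then g' 1 else 1))
      = 2 * ((if d = c then (g 0 + g 1) / 2 else 1) * (if d = c' then (g' 0 + g' 1) / 2 else 1)) :=
    fun d => by
      by_cases h1 : d = c
      · rw [if_pos h1, if_pos h1, if_pos h1, if_neg (h1 ▸ hc), if_neg (h1 ▸ hc),
          if_neg (h1 ▸ hc)]; ring
      · rw [if_neg h1, if_neg h1, if_neg h1]; split_ifs <;> ring
  simp only [e1, e2, prod_mul_distrib, prod_const, card_univ, prod_ite_eq', mem_univ,
    if_true] at h
  rw [h]; ring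

/-- the number of literals of the pattern which lie in the set -/
def kk (y : W → Z2 → Bool) (α : W → Z2) : ℕ := #{c | y c (α c) = true}

omit [DecidableEq W] in
theorem kk_le (y : W → Z2 → Bool) (α : W → Z2) : kk y α ≤ Fintype.card W := card_le_univ _

omit [DecidableEq W] in
theorem kk_cast (y : W → Z2 → Bool) (α : W → Z2) : (kk y α : ℝ) = ∑ c, ib (y c (α c)) := by
  simp [kk, ib]

omit [DecidableEq W] in
theorem kk_all (y : W → Z2 → Bool) (α : W → Z2) :
    (if kk y α = Fintype.card W then (1 : ℝ) else 0) = ∏ c, ib (y c (α c)) := by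
  by_cases h : ∀ c, y c (α c) = true
  · simp [kk, h]
  · obtain ⟨c, hc⟩ := not_forall.1 h
    rw [prod_eq_zero (mem_univ c) (by simp [ib, hc]), if_neg]
    intro e
    have := (card_eq_iff_eq_univ _).1 e
    have h2 : c ∈ ({c | y c (α c) = true} : Finset W) := by rw [this]; exact mem_univ c
    exact hc (mem_filter.1 h2).2

theorem kk_sq (y : W → Z2 → Bool) (α : W → Z2) : (kk y α : ℝ) * kk y α - kk y α
    = ∑ p ∈ (univ : Finset W).offDiag, ib (y p.1 (α p.1)) * ib (y p.2 (α p.2)) := by
  rw [kk_cast, sum_mul_sum, ← sum_product', ← diag_union_offDiag,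
    sum_union (disjoint_diag_offDiag _), sum_diag]
  simp [ib_sq]

/-- the number of literals of a slot in the set, minus one -/
def sv (y : Z2 → Bool) : ℝ := ib (y 0) + ib (y 1) - 1

/-- the signed value of a slot -/
def uv (y : Z2 → Bool) : ℝ := ib (y 0) - ib (y 1)

/-- the least cost of a unit -/
def cst (w k q : ℕ) : ℝ := k + w - 2 * ((k - q : ℕ) : ℝ)

/-- the reward of an auxiliary test -/
def rew (ok : (W → Z2) → Bool) (y : W → Z2 → Bool) : ℝ :=
  ∑ α : W → Z2, ib (ok α) * ∏ c, ib (y c (α c))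

theorem sum_lin (y : W → Z2 → Bool) :
    2 * ∑ α : W → Z2, (kk y α : ℝ) = 2 ^ Fintype.card W * (Fintype.card W + ∑ c, sv (y c)) := by
  simp only [kk_cast]
  rw [sum_comm, mul_sum, ← card_univ, card_eq_sum_ones, Nat.cast_sum, ← sum_add_distrib, mul_sum]
  refine sum_congr rfl fun c _ => ?_
  rw [sum_pat1 c fun b => ib (y c b), ← card_eq_sum_ones, card_univ, sv]
  push_cast; ring

theorem card_pat : (Fintype.card (W → Z2) : ℝ) = 2 ^ Fintype.card W := by simp

/-- the cost of a main test -/
theorem cost_main (hw : 2 ≤ Fintype.card W) (y : W → Z2 → Bool) :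
    ∑ α : W → Z2, ∑ i : Fin (Fintype.card W),
      cst (Fintype.card W) (kk y α) (kM (Fintype.card W) (∑ c, α c) i)
    = Fintype.card W * 2 ^ Fintype.card W / 2 * (3 * Fintype.card W + ∑ c, sv (y c))
      - 2 ^ Fintype.card W / 4 *
        ∑ p ∈ (univ : Finset W).offDiag, (1 + sv (y p.1)) * (1 + sv (y p.2))
      - 2 * ∏ c, uv (y c) := by
  have h1 : ∀ α : W → Z2, ∑ i : Fin (Fintype.card W),
      cst (Fintype.card W) (kk y α) (kM (Fintype.card W) (∑ c, α c) i)
      = Fintype.card W * (kk y α : ℝ) + Fintype.card W * Fintype.card W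
        - ∑ p ∈ (univ : Finset W).offDiag, ib (y p.1 (α p.1)) * ib (y p.2 (α p.2))
        - 2 * ∏ c, (sn (α c) * ib (y c (α c))) := fun α => by
    unfold cst
    rw [sum_sub_distrib, ← mul_sum, sum_kM hw (kk_le y α), kk_sq, kk_all, sn_sum, prod_mul_distrib]
    simp only [sum_const, card_univ, Fintype.card_fin, nsmul_eq_mul]
    ring
  have h2 : ∑ α : W → Z2, ∏ c, (sn (α c) * ib (y c (α c))) = ∏ c, uv (y c) := by
    rw [sum_pat fun c b => sn b * ib (y c b)]
    exact prod_congr rfl fun c _ => by rw [sn_zero, sn_one, uv]; ring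
  have h3 : ∑ α : W → Z2, ∑ p ∈ (univ : Finset W).offDiag,
      ib (y p.1 (α p.1)) * ib (y p.2 (α p.2)) = 2 ^ Fintype.card W / 4 *
        ∑ p ∈ (univ : Finset W).offDiag, (1 + sv (y p.1)) * (1 + sv (y p.2)) := by
    rw [sum_comm, mul_sum]
    refine sum_congr rfl fun p hp => ?_
    have := sum_pat2 (mem_offDiag.1 hp).2.2 (fun b => ib (y p.1 b)) fun b => ib (y p.2 b)
    unfold sv
    linarith
  have h4 := sum_lin y
  simp only [h1, sum_sub_distrib, sum_add_distrib, ← mul_sum, h2, h3, sum_const, card_univ,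
    nsmul_eq_mul, card_pat]
  linear_combination (Fintype.card W / 2 : ℝ) * h4

/-- the cost of an auxiliary test -/
theorem cost_aux (hw : 2 ≤ Fintype.card W) (ok : (W → Z2) → Bool) (y : W → Z2 → Bool) :
    ∑ α : W → Z2, ∑ _i : Fin (Fintype.card W),
      cst (Fintype.card W) (kk y α) (kA (Fintype.card W) (ok α))
    = Fintype.card W * 2 ^ Fintype.card W / 2 * (3 * Fintype.card W + ∑ c, sv (y c))
      - 2 * Fintype.card W * rew ok y := by
  have h1 : ∀ α : W → Z2, ∑ _i : Fin (Fintype.card W),
      cst (Fintype.card W) (kk y α) (kA (Fintype.card W) (ok α))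
      = Fintype.card W * (kk y α : ℝ) + Fintype.card W * Fintype.card W
        - 2 * Fintype.card W * (ib (ok α) * ∏ c, ib (y c (α c))) := fun α => by
    unfold cst
    rw [sub_kA (by omega) (kk_le y α), kk_all]
    simp only [sum_const, card_univ, Fintype.card_fin, nsmul_eq_mul]
    ring
  have h4 := sum_lin y
  simp only [h1, sum_sub_distrib, sum_add_distrib, ← mul_sum, sum_const, card_univ,
    nsmul_eq_mul, card_pat, rew]
  linear_combination (Fintype.card W / 2 : ℝ) * h4

/-! ### rounding -/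

/-- the value which is read off a slot -/
def rd (y : Z2 → Bool) : Z2 := if y 1 = true then 1 else 0

theorem sv_cases (y : Z2 → Bool) :
    (sv y ^ 2 = 0 ∧ uv y = sn (rd y) ∧ ∀ b, y b = decide (b = rd y)) ∨
      (sv y ^ 2 = 1 ∧ uv y = 0) := by
  have h1 : ¬ (0 : Z2) = 1 := by decide
  have h2 : ¬ (1 : Z2) = 0 := by decide
  cases h0 : y 0 <;> cases h : y 1
  · right; simp [sv, uv, h0, h]
  · left
    refine ⟨by simp [sv, h0, h], by simp [uv, rd, h0, h, sn_one], fun b => ?_⟩
    rcases z2_cases b with rfl | rfl <;> simp [rd, h0, h]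
  · left
    refine ⟨by simp [sv, h0, h], by simp [uv, rd, h0, h, sn_zero], fun b => ?_⟩
    rcases z2_cases b with rfl | rfl <;> simp [rd, h0, h]
  · right; simp [sv, uv, h0, h]

omit [DecidableEq W] in
theorem main_bd (y : W → Z2 → Bool) (c0 : W) :
    ib (!decide (∑ c, rd (y c) = 0)) + sv (y c0) ^ 2 ≤ 2 * (1 - ∏ c, uv (y c)) := by
  by_cases h : ∀ c, sv (y c) ^ 2 = 0
  · have e : ∏ c, uv (y c) = sn (∑ c, rd (y c)) := by
      rw [sn_sum]
      refine prod_congr rfl fun c _ => ?_
      rcases sv_cases (y c) with h' | h'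
      · exact h'.2.1
      · have := h c; rw [h'.1] at this; norm_num at this
    rw [e, h c0]
    rcases z2_cases (∑ c, rd (y c)) with h' | h' <;> rw [h']
    · simp [sn_zero]
    · have := ib_le (!decide ((1 : Z2) = 0))
      rw [sn_one]; linarith
  · obtain ⟨c, hc⟩ := not_forall.1 h
    have e : uv (y c) = 0 := ((sv_cases (y c)).resolve_left fun h' => hc h'.1).2
    rw [prod_eq_zero (mem_univ c) e]
    have := ib_le (!decide (∑ c, rd (y c) = 0))
    rcases sv_cases (y c0) with h' | h' <;> rw [h'.1] <;> linarith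

theorem rew_split (ok : (W → Z2) → Bool) (F : W → Z2) :
    rew ok (fun c b => decide (b = F c)) = ib (ok F) := by
  unfold rew
  rw [sum_eq_single F]
  · simp
  · intro α _ hα
    obtain ⟨c, hc⟩ := Function.ne_iff.1 hα
    rw [prod_eq_zero (mem_univ c) (by simp [hc]), mul_zero]
  · simp

theorem aux_bd (ok : (W → Z2) → Bool) (y : W → Z2 → Bool) :
    ib (!ok fun c => rd (y c)) - 2 ^ Fintype.card W * ∑ c, sv (y c) ^ 2 ≤ 1 - rew ok y := by
  by_cases h : ∀ c, sv (y c) ^ 2 = 0
  · have e : y = fun c b => decide (b = rd (y c)) := by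
      funext c b
      rcases sv_cases (y c) with h' | h'
      · exact h'.2.2 b
      · have := h c; rw [h'.1] at this; norm_num at this
    have e' := rew_split ok fun c => rd (y c)
    rw [← e] at e'
    rw [e']
    simp only [h, sum_const_zero, mul_zero, sub_zero]
    cases ok fun c => rd (y c) <;> simp
  · obtain ⟨c, hc⟩ := not_forall.1 h
    have e : sv (y c) ^ 2 = 1 := ((sv_cases (y c)).resolve_left fun h' => hc h'.1).1
    have h1 : 1 ≤ ∑ c, sv (y c) ^ 2 :=
      e ▸ single_le_sum (f := fun c => sv (y c) ^ 2) (fun _ _ => sq_nonneg _) (mem_univ c)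
    have h2 : rew ok y ≤ 2 ^ Fintype.card W := by
      rw [← card_pat, ← card_univ, card_eq_sum_ones, Nat.cast_sum]
      refine sum_le_sum fun α _ => ?_
      have := prod_le_one (s := univ) (fun c _ => ib_nonneg (y c (α c))) fun c _ => ib_le _
      have h3 := prod_nonneg (s := univ) fun c _ => ib_nonneg (y c (α c))
      have := ib_le (ok α)
      push_cast
      nlinarith [ib_nonneg (ok α)]
    have := ib_le (!ok fun c => rd (y c))
    have h4 : (0 : ℝ) < 2 ^ Fintype.card W := by positivity
    nlinarith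

end Pat

end Vale.Agent.P318B.Gd
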