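import Vale.Agent.Lib.PCP.Defs

/-!
# P318B / GadDefs : quasi-random constraint systems (the source of the gadget)
-/

namespace Vale.Agent.P318B.Gd

open Finset Vale.Agent.Lib.PCP Vale.Agent.Lib.PolyTime
open scoped BigOperators

/-- a round: the positions of the slots of the main test (`none`) and of the auxiliary tests, and
the patterns which the auxiliary tests allow -/
abbrev Rnd (P K W : Type) : Type := (Option K → W → P) × (K → (W → ZMod 2) → Bool)

variable {P K W : Type} [DecidableEq P] [Fintype K] [Fintype W]

/-- all tests of the round pass -/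
def satR (r : Rnd P K W) (F : P → ZMod 2) : Bool :=
  decide (∑ c, F (r.1 none c) = 0) && decide (∀ k, r.2 k (fun c => F (r.1 (some k) c)) = true)

/-- all queries are uniform on a finite set `G` and the main test is mixing -/
def Ok (lam : ℝ) (l : List (Rnd P K W)) : Prop :=
  l ≠ [] ∧ ∃ G : Finset P, (∀ r ∈ l, ∀ k c, r.1 k c ∈ G) ∧
    (∀ k c, ∀ p ∈ G, G.card * l.countP (fun r => decide (r.1 k c = p)) = l.length) ∧
    ∀ c c', c ≠ c' → ∀ s : P → ℝ,
      (l.map fun r => s (r.1 none c) * s (r.1 none c')).sum / l.length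
        ≤ (𝔼 p ∈ G, s p) ^ 2 + lam * 𝔼 p ∈ G, s p ^ 2

/-- the promise problem -/
def QCSP (P K W : Type) [DecidableEq P] [Fintype K] [Fintype W] (lam del : ℝ) :
    Promise (List (Rnd P K W)) where
  yes l := Ok lam l ∧ Sat satR l
  no l := Ok lam l ∧ Far satR del l

/-- a bound for the mixing parameter which suffices for `w` slots -/
noncomputable def lam0 (w : ℕ) : ℝ := 1 / (2 ^ w * w ^ 2)

/-! ### transfer from finite types -/

section Transfer

variable {J G : Type} [Fintype J] [Fintype G] [DecidableEq G]

/-- the round with its positions written down by `e` -/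
def Rnd.map (e : G → P) (r : Rnd G K W) : Rnd P K W := (fun k c => e (r.1 k c), r.2)

variable {enum : List J} (hn : enum.Nodup) (hc : ∀ j, j ∈ enum)
include hn hc

theorem sum_enum {M : Type} [AddCommMonoid M] (f : J → M) : (enum.map f).sum = ∑ j, f j := by
  classical
  rw [← List.sum_toFinset _ hn, (eq_univ_iff_forall).2 fun j => List.mem_toFinset.2 (hc j)]

theorem length_enum : enum.length = Fintype.card J := by
  have := sum_enum hn hc fun _ => (1 : ℕ)
  simpa using this

theorem countP_enum (p : J → Bool) : enum.countP p = #{j | p j = true} := by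
  have := sum_enum hn hc fun j => if p j = true then (1 : ℕ) else 0
  rw [card_filter, ← this]
  clear this hn hc
  induction enum with
  | nil => rfl
  | cons a l ih => rw [List.countP_cons, ih, List.map_cons, List.sum_cons, add_comm]

omit [Fintype K] [Fintype W] in
theorem ok_of_fin [Nonempty J] {e : G → P} (he : Function.Injective e) {rd : J → Rnd G K W}
    {lam : ℝ}
    (hu : ∀ k c (g : G → ℝ), 𝔼 j, g ((rd j).1 k c) = 𝔼 z, g z)
    (hm : ∀ c c', c ≠ c' → ∀ s : G → ℝ, 𝔼 j, s ((rd j).1 none c) * s ((rd j).1 none c')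
      ≤ (𝔼 z, s z) ^ 2 + lam * 𝔼 z, s z ^ 2) :
    Ok lam (enum.map fun j => (rd j).map e) := by
  obtain ⟨j0⟩ := ‹Nonempty J›
  have hJ : (0 : ℝ) < Fintype.card J := by exact_mod_cast Fintype.card_pos_iff.2 ⟨j0⟩
  refine ⟨by simpa using List.ne_nil_of_mem (hc j0), univ.map ⟨e, he⟩, fun r hr k c => ?_,
    fun k c p hp => ?_, fun c c' h s => ?_⟩
  · obtain ⟨j, -, rfl⟩ := List.mem_map.1 hr
    exact mem_map.2 ⟨_, mem_univ _, rfl⟩
  · obtain ⟨z, -, rfl⟩ := mem_map.1 hp
    have hG : (0 : ℝ) < Fintype.card G := by exact_mod_cast Fintype.card_pos_iff.2 ⟨z⟩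
    have := hu k c fun z' => if z' = z then 1 else 0
    rw [Fintype.expect_eq_sum_div_card, Fintype.expect_eq_sum_div_card, sum_ite_eq',
      if_pos (mem_univ _), div_eq_div_iff hJ.ne' hG.ne', sum_boole] at this
    rw [List.countP_map, countP_enum hn hc, List.length_map, length_enum hn hc, card_map,
      card_univ]
    simp only [Function.comp_apply, Rnd.map, Function.Embedding.coeFn_mk, he.eq_iff,
      decide_eq_true_eq]
    exact_mod_cast (mul_comm _ _).trans (this.trans (one_mul _))
  · have := hm c c' h fun z => s (e z)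
    rw [List.map_map, sum_enum hn hc, List.length_map, length_enum hn hc,
      expect_eq_sum_div_card, expect_eq_sum_div_card, sum_map, sum_map, card_map]
    simp only [expect_eq_sum_div_card, card_univ] at this
    exact this

omit hn hc [DecidableEq P] [Fintype G] [DecidableEq G] in
theorem satR_map (e : G → P) (r : Rnd G K W) (F : P → ZMod 2) :
    satR (r.map e) F = satR r fun z => F (e z) := rfl

omit hn hc [DecidableEq P] [Fintype J] [Fintype G] [DecidableEq G] in
theorem sat_of_fin {e : G → P} (he : Function.Injective e) {rd : J → Rnd G K W}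
    (F : G → ZMod 2) (h : ∀ j, satR (rd j) F = true) :
    Sat satR (enum.map fun j => (rd j).map e) := by
  refine ⟨Function.extend e F 0, fun r hr => ?_⟩
  obtain ⟨j, -, rfl⟩ := List.mem_map.1 hr
  rw [satR_map]
  simp only [he.extend_apply]
  exact h j

omit [DecidableEq P] [Fintype G] [DecidableEq G] in
theorem far_of_fin (e : G → P) {rd : J → Rnd G K W} {del : ℝ}
    (h : ∀ F : G → ZMod 2, del ≤ 𝔼 j, if satR (rd j) F = true then (0 : ℝ) else 1) :
    Far satR del (enum.map fun j => (rd j).map e) := by
  intro F
  have := h fun z => F (e z)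
  rw [viol, List.countP_map, countP_enum hn hc, List.length_map, length_enum hn hc, card_filter]
  rcases isEmpty_or_nonempty J with hJ | hJ
  · simp
  have hJ : (0 : ℝ) < Fintype.card J := by exact_mod_cast Fintype.card_pos
  rw [Fintype.expect_eq_sum_div_card, le_div_iff₀ hJ] at this
  refine this.trans (le_of_eq ?_)
  push_cast
  refine sum_congr rfl fun j _ => ?_
  rw [Function.comp_apply, satR_map]
  cases satR (rd j) fun z => F (e z) <;> simp

end Transfer

end Vale.Agent.P318B.Gd
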