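import Vale.Agent.P318B.GadA
import Vale.Agent.P318B.GadDefs

/-!
# P318B / GadB : the capacities of the gadget and the value of its cuts
-/

namespace Vale.Agent.P318B.Gd

open Finset

/-- units -/
abbrev Ut (K W : Type) [Fintype W] : Type := Option K × (W → Z2) × Fin (Fintype.card W)

/-- vertices which belong to one round: literals, terminals, centres -/
abbrev Lam (K W : Type) [Fintype W] : Type := Z2 ⊕ Bool ⊕ Ut K W

/-- the constants -/
structure Cst where
  /-- weight of the main test -/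
  A : ℕ
  /-- the quadratic term -/
  nu : ℕ
  /-- the linear term -/
  a : ℕ
  /-- the links to the terminals -/
  R : ℕ
  /-- the constant term -/
  C : ℕ

/-- the threshold -/
def Cst.D (q : Cst) : ℕ := q.A * q.nu + q.C

/-- the conditions on the constants -/
structure Cst.Ok (q : Cst) (w κ : ℕ) : Prop where
  nu : 4 * (q.nu : ℝ) = 2 ^ w * (w * w - w)
  a : 2 * (q.a : ℝ) = (q.A * w + κ * (w * w)) * 2 ^ w
  R : (q.R : ℝ) = q.A * q.nu + 1
  C : (q.C : ℝ) = 2 + q.a + q.A * (3 * (w * w) * 2 ^ w / 2 - 2)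
    + κ * (3 * (w * w) * 2 ^ w / 2 - 2 * w)
  A : 4 * κ * (w * w) * 2 ^ w + 1 ≤ (q.A : ℝ)

variable {J P K W : Type} [Fintype J] [DecidableEq P] [Fintype K] [Fintype W] [DecidableEq W]

/-- the weight of a test -/
def wt (A : ℕ) : Option K → ℕ
  | none => A
  | some _ => 1

/-- the kink of a unit -/
def knk (ok : K → (W → Z2) → Bool) (u : Ut K W) : ℕ :=
  match u.1 with
  | none => kM (Fintype.card W) (∑ c, u.2.1 c) u.2.2
  | some k => kA (Fintype.card W) (ok k u.2.1)

/-- the number of slots of a unit which hold the literal `(p, b)` -/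
def hit (r : Rnd P K W) (u : Ut K W) (p : P) (b : Z2) : ℕ := #{c | r.1 u.1 c = p ∧ u.2.1 c = b}

/-- capacity between a centre and a terminal -/
def ct (A : ℕ) (ok : K → (W → Z2) → Bool) (u : Ut K W) (β : Bool) : ℕ :=
  wt A u.1 * if β then Fintype.card W else 2 * knk ok u

/-- the capacities -/
def capR (q : Cst) (c0 : W) (n B : ℕ) (r r' : Rnd P K W) : Lam K W → Lam K W → ℕ
  | .inl b, .inl b' => q.C + if r.1 none c0 = r'.1 none c0 ∧ b = b' then B else 0
  | .inl _, .inr (.inl β) => q.D + (q.R + if β then q.a else 0)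
  | .inr (.inl β), .inl _ => q.D + (q.R + if β then q.a else 0)
  | .inr (.inl β), .inr (.inl β') => if β = β' then q.D + B else q.A * q.nu
  | .inl b, .inr (.inr u) => q.D + n * wt q.A u.1 * hit r' u (r.1 none c0) b
  | .inr (.inr u), .inl b => q.D + n * wt q.A u.1 * hit r u (r'.1 none c0) b
  | .inr (.inl β), .inr (.inr u) => q.D + ct q.A r'.2 u β
  | .inr (.inr u), .inr (.inl β) => q.D + ct q.A r.2 u β
  | .inr (.inr _), .inr (.inr _) => q.D

omit [Fintype K] [DecidableEq W] in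
theorem capR_symm (q : Cst) (c0 : W) (n B : ℕ) (r r' : Rnd P K W) (l l' : Lam K W) :
    capR q c0 n B r r' l l' = capR q c0 n B r' r l' l := by
  rcases l with b | β | u <;> rcases l' with b' | β' | u' <;> simp only [capR, eq_comm]

/-- the hypotheses on a family of rounds -/
structure Good (rd : J → Rnd P K W) (c0 : W) (n : ℕ) (lam : ℝ) : Prop where
  fib : ∀ j k c, n * #{j' | (rd j).1 k c = (rd j').1 none c0} = Fintype.card J
  mar : ∀ k c (g : P → ℝ), ∑ j, g ((rd j).1 k c) = ∑ j, g ((rd j).1 none c0)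
  mix : ∀ c c', c ≠ c' → ∀ s : P → ℝ,
    Fintype.card J * ∑ j, s ((rd j).1 none c) * s ((rd j).1 none c')
      ≤ (∑ j, s ((rd j).1 none c0)) ^ 2 + lam * (Fintype.card J * ∑ j, s ((rd j).1 none c0) ^ 2)

/-- the value of a cut -/
def cutV {V : Type} [Fintype V] (c : V → V → ℝ) (x : V → Bool) : ℝ :=
  ∑ v, ∑ v', c v v' * (ib (x v) * (1 - ib (x v')))

/-- the number of vertices in the set -/
def mass {V : Type} [Fintype V] (x : V → Bool) : ℝ := ∑ v, ib (x v)

/-- one if the two values differ -/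
def dd (a b : Bool) : ℝ := ib a * (1 - ib b) + ib b * (1 - ib a)

theorem dd_nonneg (a b : Bool) : 0 ≤ dd a b := by cases a <;> cases b <;> simp [dd]

theorem cutV_const {V : Type} [Fintype V] (D : ℝ) (x : V → Bool) :
    ∑ v, ∑ v', D * (ib (x v) * (1 - ib (x v'))) = D * (mass x * (Fintype.card V - mass x)) := by
  simp only [← mul_sum, ← sum_mul, sum_sub_distrib, mass]
  simp

theorem cutV_sub {V : Type} [Fintype V] (c : V → V → ℝ) (D : ℝ) (x : V → Bool) :
    cutV c x = D * (mass x * (Fintype.card V - mass x)) + cutV (fun v v' => c v v' - D) x := by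
  rw [← cutV_const, cutV, cutV, ← sum_add_distrib]
  refine sum_congr rfl fun v _ => ?_
  rw [← sum_add_distrib]
  exact sum_congr rfl fun v' _ => by ring

theorem sum_V {A B C : Type} [Fintype A] [Fintype B] [Fintype C] (f : J × (A ⊕ B ⊕ C) → ℝ) :
    ∑ v, f v = ∑ v : J × A, f (v.1, .inl v.2) + ∑ v : J × B, f (v.1, .inr (.inl v.2))
      + ∑ v : J × C, f (v.1, .inr (.inr v.2)) := by
  simp only [Fintype.sum_prod_type, Fintype.sum_sum_type, sum_add_distrib, add_assoc]

/-- a set which does not split any cluster -/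
def mkx (rd : J → Rnd P K W) (c0 : W) (y : P → Z2 → Bool) (τ : Bool → Bool)
    (ξ : J × Ut K W → Bool) : J × Lam K W → Bool
  | (j, .inl b) => y ((rd j).1 none c0) b
  | (_, .inr (.inl β)) => τ β
  | (j, .inr (.inr u)) => ξ (j, u)

/-- the real capacities -/
def capV (q : Cst) (c0 : W) (n B : ℕ) (rd : J → Rnd P K W) (v v' : J × Lam K W) : ℝ :=
  capR q c0 n B (rd v.1) (rd v'.1) v.2 v'.2

variable {rd : J → Rnd P K W} {c0 : W} {n : ℕ} {lam : ℝ}

omit [Fintype K] [DecidableEq W] in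
theorem Good.spread (h : Good rd c0 n lam) (j : J) (u : Ut K W) (g : P → Z2 → ℝ) :
    ∑ v : J × Z2, (n * hit (rd j) u ((rd v.1).1 none c0) v.2 : ℝ) * g ((rd v.1).1 none c0) v.2
      = Fintype.card J * ∑ c, g ((rd j).1 u.1 c) (u.2.1 c) := by
  have e : ∀ v : J × Z2, (n * hit (rd j) u ((rd v.1).1 none c0) v.2 : ℝ)
      * g ((rd v.1).1 none c0) v.2 = ∑ c, if u.2.1 c = v.2 then
        (if (rd j).1 u.1 c = (rd v.1).1 none c0 then n * g ((rd j).1 u.1 c) (u.2.1 c) else 0)
        else 0 := fun v => by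
    rw [hit, card_filter, Nat.cast_sum, mul_sum, sum_mul]
    refine sum_congr rfl fun c _ => ?_
    by_cases h1 : u.2.1 c = v.2 <;> by_cases h2 : (rd j).1 u.1 c = (rd v.1).1 none c0 <;>
      simp [h1, h2]
  simp only [e]
  rw [sum_comm, mul_sum]
  refine sum_congr rfl fun c _ => ?_
  rw [Fintype.sum_prod_type]
  simp only [sum_ite_eq, mem_univ, if_true]
  rw [← sum_filter, sum_const, nsmul_eq_mul, ← h.fib j u.1 c]
  push_cast; ring

theorem Good.cut_eq (h : Good rd c0 n lam) (q : Cst) (B : ℕ) (y : P → Z2 → Bool)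
    (τ : Bool → Bool) (ξ : J × Ut K W → Bool) (μ : ℝ)
    (hμ : μ = ∑ v : J × Z2, ib (y ((rd v.1).1 none c0) v.2)) :
    cutV (fun v v' => capV q c0 n B rd v v' - q.D) (mkx rd c0 y τ ξ)
      = -(q.A * q.nu) * (μ * (2 * Fintype.card J - μ))
        + Fintype.card J * ∑ v : J × Z2, ((q.R + q.a) * dd (y ((rd v.1).1 none c0) v.2) (τ true)
          + q.R * dd (y ((rd v.1).1 none c0) v.2) (τ false))
        - q.C * (Fintype.card J * Fintype.card J) * dd (τ true) (τ false)
        + Fintype.card J * ∑ v : J × Ut K W, wt q.A v.2.1 *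
          (∑ c, dd (ξ v) (y ((rd v.1).1 v.2.1 c) (v.2.2.1 c))
            + Fintype.card W * dd (ξ v) (τ true) + 2 * knk (rd v.1).2 v.2 * dd (ξ v) (τ false)) := by
  have LL : ∑ v : J × Z2, ∑ v' : J × Z2,
      ((capR q c0 n B (rd v.1) (rd v'.1) (.inl v.2) (.inl v'.2) : ℝ) - q.D) *
        (ib (y ((rd v.1).1 none c0) v.2) * (1 - ib (y ((rd v'.1).1 none c0) v'.2)))
      = -(q.A * q.nu) * (μ * (2 * Fintype.card J - μ)) := by
    have := cutV_const (-(q.A * q.nu : ℝ)) fun v : J × Z2 => y ((rd v.1).1 none c0) v.2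
    rw [mass, ← hμ, Fintype.card_prod, ZMod.card] at this
    push_cast at this
    rw [mul_comm (2 : ℝ), ← this]
    refine sum_congr rfl fun v _ => sum_congr rfl fun v' _ => ?_
    simp only [capR, Cst.D]
    split_ifs with e
    · rw [e.1, e.2, mul_sub (ib _), ib_sq]; simp
    · push_cast; ring
  have LT : ∑ v : J × Z2, ∑ v' : J × Bool,
      ((capR q c0 n B (rd v.1) (rd v'.1) (.inl v.2) (.inr (.inl v'.2)) : ℝ) - q.D) *
        (ib (y ((rd v.1).1 none c0) v.2) * (1 - ib (τ v'.2)))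
      + ∑ v' : J × Bool, ∑ v : J × Z2,
      ((capR q c0 n B (rd v'.1) (rd v.1) (.inr (.inl v'.2)) (.inl v.2) : ℝ) - q.D) *
        (ib (τ v'.2) * (1 - ib (y ((rd v.1).1 none c0) v.2)))
      = Fintype.card J * ∑ v : J × Z2, ((q.R + q.a) * dd (y ((rd v.1).1 none c0) v.2) (τ true)
          + q.R * dd (y ((rd v.1).1 none c0) v.2) (τ false)) := by
    rw [sum_comm (s := (univ : Finset (J × Bool))), ← sum_add_distrib, mul_sum]
    refine sum_congr rfl fun v _ => ?_
    simp [Fintype.sum_prod_type, capR, dd]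
    ring
  have TT : ∑ v : J × Bool, ∑ v' : J × Bool,
      ((capR q c0 n B (rd v.1) (rd v'.1) (.inr (.inl v.2)) (.inr (.inl v'.2)) : ℝ) - q.D) *
        (ib (τ v.2) * (1 - ib (τ v'.2)))
      = -(q.C * (Fintype.card J * Fintype.card J) * dd (τ true) (τ false)) := by
    simp [Fintype.sum_prod_type, capR, dd, mul_sub (ib _), ib_sq, Cst.D]
    ring
  have CL : ∑ v' : J × Z2, ∑ v : J × Ut K W,
      ((capR q c0 n B (rd v'.1) (rd v.1) (.inl v'.2) (.inr (.inr v.2)) : ℝ) - q.D) *
        (ib (y ((rd v'.1).1 none c0) v'.2) * (1 - ib (ξ v)))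
      + ∑ v : J × Ut K W, ∑ v' : J × Z2,
      ((capR q c0 n B (rd v.1) (rd v'.1) (.inr (.inr v.2)) (.inl v'.2) : ℝ) - q.D) *
        (ib (ξ v) * (1 - ib (y ((rd v'.1).1 none c0) v'.2)))
      = Fintype.card J * ∑ v : J × Ut K W, wt q.A v.2.1 *
          ∑ c, dd (ξ v) (y ((rd v.1).1 v.2.1 c) (v.2.2.1 c)) := by
    rw [sum_comm (s := (univ : Finset (J × Z2))), ← sum_add_distrib, mul_sum]
    refine sum_congr rfl fun v _ => ?_
    rw [mul_left_comm, ← h.spread v.1 v.2 fun p b => dd (ξ v) (y p b), ← sum_add_distrib, mul_sum]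
    refine sum_congr rfl fun v' _ => ?_
    simp only [capR, dd]
    push_cast; ring
  have CT : ∑ v' : J × Bool, ∑ v : J × Ut K W,
      ((capR q c0 n B (rd v'.1) (rd v.1) (.inr (.inl v'.2)) (.inr (.inr v.2)) : ℝ) - q.D) *
        (ib (τ v'.2) * (1 - ib (ξ v)))
      + ∑ v : J × Ut K W, ∑ v' : J × Bool,
      ((capR q c0 n B (rd v.1) (rd v'.1) (.inr (.inr v.2)) (.inr (.inl v'.2)) : ℝ) - q.D) *
        (ib (ξ v) * (1 - ib (τ v'.2)))
      = Fintype.card J * ∑ v : J × Ut K W, wt q.A v.2.1 *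
          (Fintype.card W * dd (ξ v) (τ true) + 2 * knk (rd v.1).2 v.2 * dd (ξ v) (τ false)) := by
    rw [sum_comm (s := (univ : Finset (J × Bool))), ← sum_add_distrib, mul_sum]
    refine sum_congr rfl fun v _ => ?_
    simp [Fintype.sum_prod_type, capR, dd, ct]
    ring
  unfold cutV
  simp only [sum_V, sum_add_distrib, capV, mkx, add_assoc, mul_add] at LT CL CT ⊢
  simp only [show ∀ (r r' : Rnd P K W) (u u' : Ut K W),
    capR q c0 n B r r' (.inr (.inr u)) (.inr (.inr u')) = q.D from fun _ _ _ _ => rfl, sub_self,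
    zero_mul, sum_const_zero]
  linarith

omit [Fintype K] in
theorem one_le_wt {A : ℕ} (hA : 1 ≤ A) (k : Option K) : 1 ≤ wt A k := by
  cases k
  · exact hA
  · exact le_rfl

theorem Cst.Ok.one_le {q : Cst} {w κ : ℕ} (hq : q.Ok w κ) : (1 : ℝ) ≤ q.A :=
  le_trans (le_add_of_nonneg_left (by positivity)) hq.A

/-- both terminals outside -/
theorem Good.both (h : Good rd c0 n lam) {q : Cst} (hq : q.Ok (Fintype.card W) (Fintype.card K))
    (B : ℕ) (y : P → Z2 → Bool) (τ : Bool → Bool) (ξ : J × Ut K W → Bool)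
    (h1 : τ true = false) (h0 : τ false = false) :
    Fintype.card J * mass (mkx rd c0 y τ ξ)
      ≤ cutV (fun v v' => capV q c0 n B rd v v' - q.D) (mkx rd c0 y τ ξ) := by
  rw [h.cut_eq q B y τ ξ _ rfl, mass, sum_V]
  have e : ∀ b, dd b false = ib b := fun b => by simp [dd]
  have e' : ∑ v : J × Bool, ib (τ v.2) = 0 := by simp [Fintype.sum_prod_type, h1, h0]
  simp only [mkx, h1, h0, e, e', sum_add_distrib, ← mul_sum]
  generalize hμ : ∑ v : J × Z2, ib (y ((rd v.1).1 none c0) v.2) = μ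
  have hμ0 : 0 ≤ μ := hμ ▸ sum_nonneg fun _ _ => ib_nonneg _
  have hw : (1 : ℝ) ≤ Fintype.card W := by exact_mod_cast Fintype.card_pos_iff.2 ⟨c0⟩
  have hA : 1 ≤ q.A := by exact_mod_cast hq.one_le
  have h2 : ∑ v : J × Ut K W, ib (ξ v) ≤ ∑ v : J × Ut K W, wt q.A v.2.1 *
      (∑ c, dd (ξ v) (y ((rd v.1).1 v.2.1 c) (v.2.2.1 c))
        + Fintype.card W * ib (ξ v) + 2 * knk (rd v.1).2 v.2 * ib (ξ v)) := by
    refine sum_le_sum fun v _ => ?_
    have a1 : (1 : ℝ) ≤ wt q.A v.2.1 := by exact_mod_cast one_le_wt hA _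
    have a2 := sum_nonneg (s := univ) fun c _ =>
      dd_nonneg (ξ v) (y ((rd v.1).1 v.2.1 c) (v.2.2.1 c))
    have a3 := ib_nonneg (ξ v)
    have a4 : (0 : ℝ) ≤ 2 * knk (rd v.1).2 v.2 * ib (ξ v) := by positivity
    have a5 : ib (ξ v) ≤ Fintype.card W * ib (ξ v) := le_mul_of_one_le_left a3 hw
    exact le_trans (by linarith) (le_mul_of_one_le_left (by linarith) a1)
  have hJ : (0 : ℝ) ≤ Fintype.card J := by positivity
  have h3 := mul_le_mul_of_nonneg_left h2 hJ
  have h4 : (0 : ℝ) ≤ q.A * q.nu * (μ * μ) := by positivity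
  have h5 : (0 : ℝ) ≤ Fintype.card J * (q.a * μ) := by positivity
  have h6 : (0 : ℝ) ≤ Fintype.card J * μ := by positivity
  rw [hq.R, ib_false]
  nlinarith

omit [DecidableEq W] in
theorem unit_eq (y : W → Z2 → Bool) (α : W → Z2) (k : ℕ) (ξ : Bool) :
    ∑ c, dd ξ (y c (α c)) + Fintype.card W * dd ξ true + 2 * k * dd ξ false
      = if ξ then (Fintype.card W - kk y α + 2 * k : ℝ) else kk y α + Fintype.card W := by
  cases ξ <;> simp [dd, kk_cast]

omit [DecidableEq W] in
theorem unit_ge (y : W → Z2 → Bool) (α : W → Z2) (k : ℕ) (ξ : Bool) :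
    cst (Fintype.card W) (kk y α) k
      ≤ ∑ c, dd ξ (y c (α c)) + Fintype.card W * dd ξ true + 2 * k * dd ξ false := by
  rw [unit_eq, cst]
  have h1 : (0 : ℝ) ≤ ((kk y α - k : ℕ) : ℝ) := by positivity
  have h2 : (kk y α : ℝ) ≤ ((kk y α - k : ℕ) : ℝ) + k := by exact_mod_cast le_tsub_add
  split_ifs <;> linarith

omit [DecidableEq W] in
theorem unit_opt (y : W → Z2 → Bool) (α : W → Z2) (k : ℕ) :
    ∑ c, dd (decide (k ≤ kk y α)) (y c (α c)) + Fintype.card W * dd (decide (k ≤ kk y α)) true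
      + 2 * k * dd (decide (k ≤ kk y α)) false = cst (Fintype.card W) (kk y α) k := by
  rw [unit_eq, cst]
  by_cases h : k ≤ kk y α
  · rw [Nat.cast_sub h, if_pos (by simpa using h)]; ring
  · rw [if_neg (by simpa using h), Nat.sub_eq_zero_of_le (by omega)]; simp

/-- the least value of a cut which separates the terminals -/
noncomputable def Yv (q : Cst) (rd : J → Rnd P K W) (c0 : W) (y : P → Z2 → Bool) : ℝ :=
  q.A * q.nu * (∑ j, sv (y ((rd j).1 none c0))) ^ 2
    - q.A * (2 ^ Fintype.card W / 4) * ∑ p ∈ (univ : Finset W).offDiag,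
      Fintype.card J * ∑ j, sv (y ((rd j).1 none p.1)) * sv (y ((rd j).1 none p.2))
    + q.A * (Fintype.card J * ∑ j, 2 * (1 - ∏ c, uv (y ((rd j).1 none c))))
    + 2 * Fintype.card W * (Fintype.card J *
      ∑ k, ∑ j, (1 - rew ((rd j).2 k) fun c => y ((rd j).1 (some k) c)))

theorem Good.sep_eq (h : Good rd c0 n lam) {q : Cst}
    (hq : q.Ok (Fintype.card W) (Fintype.card K)) (hw : 2 ≤ Fintype.card W)
    (y : P → Z2 → Bool) (μ : ℝ) (hμ : μ = ∑ v : J × Z2, ib (y ((rd v.1).1 none c0) v.2)) :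
    -(q.A * q.nu) * (μ * (2 * Fintype.card J - μ))
      + Fintype.card J * ∑ v : J × Z2, ((q.R + q.a) * dd (y ((rd v.1).1 none c0) v.2) true
          + q.R * dd (y ((rd v.1).1 none c0) v.2) false)
      - q.C * (Fintype.card J * Fintype.card J) * dd true false
      + Fintype.card J * ∑ v : J × Ut K W, wt q.A v.2.1 * cst (Fintype.card W)
        (kk (fun c => y ((rd v.1).1 v.2.1 c)) v.2.2.1) (knk (rd v.1).2 v.2) = Yv q rd c0 y := by
  unfold Yv
  generalize hσ : ∑ j, sv (y ((rd j).1 none c0)) = σ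
  have m1 : ∀ k c, ∑ j, sv (y ((rd j).1 k c)) = σ := fun k c =>
    (h.mar k c fun p => sv (y p)).trans hσ
  have e1 : μ = Fintype.card J + σ := by
    rw [hμ, ← hσ, Fintype.sum_prod_type]
    simp [sum_z2, sv, sum_add_distrib]
  have e2 : ∑ v : J × Z2, ((q.R + q.a) * dd (y ((rd v.1).1 none c0) v.2) true
      + q.R * dd (y ((rd v.1).1 none c0) v.2) false)
      = (q.R + q.a) * (2 * Fintype.card J - μ) + q.R * μ := by
    simp [dd, sum_add_distrib, ← mul_sum, ← hμ, mul_comm]
  have m2 : ∀ k, ∑ j, ∑ c, sv (y ((rd j).1 k c)) = Fintype.card W * σ := fun k => by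
    rw [sum_comm]; simp [m1]
  have m3 : ∑ j, ∑ p ∈ (univ : Finset W).offDiag,
      (1 + sv (y ((rd j).1 none p.1))) * (1 + sv (y ((rd j).1 none p.2)))
      = (Fintype.card W * Fintype.card W - Fintype.card W) * (Fintype.card J + 2 * σ)
        + ∑ p ∈ (univ : Finset W).offDiag,
          ∑ j, sv (y ((rd j).1 none p.1)) * sv (y ((rd j).1 none p.2)) := by
    have hc : (((univ : Finset W).offDiag).card : ℝ)
        = Fintype.card W * Fintype.card W - Fintype.card W := by
      rw [offDiag_card, card_univ, Nat.cast_sub (Nat.le_mul_self _)]; simp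
    rw [sum_comm, ← hc, ← nsmul_eq_mul, ← sum_const, ← sum_add_distrib]
    refine sum_congr rfl fun p _ => ?_
    simp only [add_mul, mul_add, one_mul, mul_one, sum_add_distrib, m1, sum_const, card_univ,
      nsmul_eq_mul]
    ring
  have e3 : ∑ v : J × Ut K W, wt q.A v.2.1 * cst (Fintype.card W)
      (kk (fun c => y ((rd v.1).1 v.2.1 c)) v.2.2.1) (knk (rd v.1).2 v.2)
      = ∑ j, (q.A * ∑ α : W → Z2, ∑ i : Fin (Fintype.card W), cst (Fintype.card W)
          (kk (fun c => y ((rd j).1 none c)) α) (kM (Fintype.card W) (∑ c, α c) i)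
        + ∑ k, ∑ α : W → Z2, ∑ _i : Fin (Fintype.card W), cst (Fintype.card W)
          (kk (fun c => y ((rd j).1 (some k) c)) α) (kA (Fintype.card W) ((rd j).2 k α))) := by
    simp only [Fintype.sum_prod_type, Fintype.sum_option, wt, knk, mul_sum, Nat.cast_one, one_mul]
  have m4 : ∀ k, ∑ j, (Fintype.card W * 2 ^ Fintype.card W / 2 : ℝ) *
      (3 * Fintype.card W + ∑ c, sv (y ((rd j).1 k c))) = Fintype.card W * 2 ^ Fintype.card W / 2
        * (Fintype.card J * (3 * Fintype.card W) + Fintype.card W * σ) := fun k => by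
    rw [← mul_sum, sum_add_distrib, m2]; simp
  rw [e2, e3, sum_add_distrib, sum_comm (s := (univ : Finset J)) (t := (univ : Finset K))]
  simp only [cost_main hw, cost_aux hw]
  simp only [sum_sub_distrib, ← mul_sum (s := (univ : Finset W).offDiag), m4]
  simp only [sum_sub_distrib, ← mul_sum, m3, m4, sum_const, card_univ, nsmul_eq_mul, dd, ib_true,
    ib_false]
  rw [e1, hq.C, hq.R]
  have a1 := hq.nu
  have a2 := hq.a
  linear_combination (-(Fintype.card J : ℝ) * σ / 2) * a2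
    + (q.A * (Fintype.card J : ℝ) * Fintype.card J / 4) * a1

omit [DecidableEq P] in
theorem Yv_yes (q : Cst) (F : P → Z2) (hF : ∀ j, satR (rd j) F = true) :
    Yv q rd c0 (fun p b => decide (b = F p)) = 0 := by
  have h1 : ∀ p, sv (fun b => decide (b = F p)) = 0 := fun p => by
    rcases z2_cases (F p) with h | h <;> simp [sv, h]
  have h2 : ∀ p, uv (fun b => decide (b = F p)) = sn (F p) := fun p => by
    rcases z2_cases (F p) with h | h <;> simp [uv, h, sn_zero, sn_one]
  have h3 : ∀ j, ∑ c, F ((rd j).1 none c) = 0 ∧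
      ∀ k, (rd j).2 k (fun c => F ((rd j).1 (some k) c)) = true := fun j => by
    simpa [satR] using hF j
  unfold Yv
  simp only [h1, h2, ← sn_sum, (h3 _).1, rew_split, (h3 _).2, sn_zero]
  simp

theorem Good.Yv_ge (h : Good rd c0 n lam) {q : Cst}
    (hq : q.Ok (Fintype.card W) (Fintype.card K)) (hl : q.nu * lam ≤ 1 / 2)
    (y : P → Z2 → Bool) :
    Fintype.card J * ∑ j, ib (!satR (rd j) fun p => Gd.rd (y p)) ≤ Yv q rd c0 y := by
  unfold Yv
  generalize hσ : ∑ j, sv (y ((rd j).1 none c0)) = σ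
  generalize hQ : ∑ j, sv (y ((rd j).1 none c0)) ^ 2 = Q
  have hQ0 : 0 ≤ Q := hQ ▸ sum_nonneg fun _ _ => sq_nonneg _
  have hw : (1 : ℝ) ≤ Fintype.card W := by exact_mod_cast Fintype.card_pos_iff.2 ⟨c0⟩
  have hJ : (0 : ℝ) ≤ Fintype.card J := by positivity
  have hA := hq.one_le
  have b1 : ∑ p ∈ (univ : Finset W).offDiag,
      Fintype.card J * ∑ j, sv (y ((rd j).1 none p.1)) * sv (y ((rd j).1 none p.2))
      ≤ (Fintype.card W * Fintype.card W - Fintype.card W) *
        (σ ^ 2 + lam * (Fintype.card J * Q)) := by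
    have hc : (((univ : Finset W).offDiag).card : ℝ)
        = Fintype.card W * Fintype.card W - Fintype.card W := by
      rw [offDiag_card, card_univ, Nat.cast_sub (Nat.le_mul_self _)]; simp
    rw [← hc, ← nsmul_eq_mul, ← sum_const, ← hσ, ← hQ]
    exact sum_le_sum fun p hp => h.mix _ _ (mem_offDiag.1 hp).2.2 fun z => sv (y z)
  have b2 : ∑ j, ib (!decide (∑ c, Gd.rd (y ((rd j).1 none c)) = 0)) + Q
      ≤ ∑ j, 2 * (1 - ∏ c, uv (y ((rd j).1 none c))) := by
    rw [← hQ, ← sum_add_distrib]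
    exact sum_le_sum fun j _ => main_bd (fun c => y ((rd j).1 none c)) c0
  have b3 : ∑ k, ∑ j, ib (!(rd j).2 k fun c => Gd.rd (y ((rd j).1 (some k) c)))
      - Fintype.card K * (2 ^ Fintype.card W * (Fintype.card W * Q))
      ≤ ∑ k, ∑ j, (1 - rew ((rd j).2 k) fun c => y ((rd j).1 (some k) c)) := by
    rw [← card_univ, ← nsmul_eq_mul, ← sum_const, ← sum_sub_distrib]
    refine sum_le_sum fun k _ => ?_
    have : ∑ j, ∑ c, sv (y ((rd j).1 (some k) c)) ^ 2 = Fintype.card W * Q := by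
      rw [sum_comm]
      simp [h.mar (some k) _ fun p => sv (y p) ^ 2, hQ]
    rw [← this, mul_sum, ← sum_sub_distrib]
    exact sum_le_sum fun j _ => aux_bd _ fun c => y ((rd j).1 (some k) c)
  have b4 : ∑ j, ib (!satR (rd j) fun p => Gd.rd (y p))
      ≤ ∑ j, ib (!decide (∑ c, Gd.rd (y ((rd j).1 none c)) = 0))
        + ∑ k, ∑ j, ib (!(rd j).2 k fun c => Gd.rd (y ((rd j).1 (some k) c))) := by
    rw [sum_comm, ← sum_add_distrib]
    refine sum_le_sum fun j _ => ?_
    have n1 := ib_nonneg (!decide (∑ c, Gd.rd (y ((rd j).1 none c)) = 0))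
    have n2 : ∀ k, 0 ≤ ib (!(rd j).2 k fun c => Gd.rd (y ((rd j).1 (some k) c))) :=
      fun k => ib_nonneg _
    have n3 := sum_nonneg (s := univ) fun k _ => n2 k
    have n4 := ib_le (!satR (rd j) fun p => Gd.rd (y p))
    by_cases h1 : ∑ c, Gd.rd (y ((rd j).1 none c)) = 0
    · by_cases h2 : ∀ k, (rd j).2 k (fun c => Gd.rd (y ((rd j).1 (some k) c))) = true
      · simp [satR, h1, h2]
      · obtain ⟨k, hk⟩ := not_forall.1 h2
        have := single_le_sum (fun k _ => n2 k) (mem_univ k)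
        rw [Bool.not_eq_true] at hk
        rw [hk, Bool.not_false, ib_true] at this
        linarith
    · simp only [h1, decide_false, Bool.not_false, ib_true]; linarith
  have hF0 : 0 ≤ ∑ j, ib (!decide (∑ c, Gd.rd (y ((rd j).1 none c)) = 0)) :=
    sum_nonneg fun _ _ => ib_nonneg _
  have hF1 : 0 ≤ ∑ k, ∑ j, ib (!(rd j).2 k fun c => Gd.rd (y ((rd j).1 (some k) c))) :=
    sum_nonneg fun _ _ => sum_nonneg fun _ _ => ib_nonneg _
  have c1 := mul_le_mul_of_nonneg_left b1 (show (0 : ℝ) ≤ q.A * (2 ^ Fintype.card W / 4) by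
    positivity)
  have c2 := mul_le_mul_of_nonneg_left b2 (show (0 : ℝ) ≤ q.A * Fintype.card J by positivity)
  have c3 := mul_le_mul_of_nonneg_left b3
    (show (0 : ℝ) ≤ 2 * Fintype.card W * Fintype.card J by positivity)
  have c4 := mul_le_mul_of_nonneg_left b4 hJ
  have hJQ : 0 ≤ Fintype.card J * Q := mul_nonneg hJ hQ0
  have c5 := mul_le_mul_of_nonneg_left hl (show (0 : ℝ) ≤ q.A * (Fintype.card J * Q) by
    positivity)
  have c6 := mul_le_mul_of_nonneg_left hq.A hJQ
  have c7 := mul_le_mul_of_nonneg_left hA (mul_nonneg hJ hF0)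
  have c8 := mul_le_mul_of_nonneg_left hw (mul_nonneg hJ hF1)
  have c9 := mul_nonneg hJ hF1
  have c10 : q.A * (2 ^ Fintype.card W / 4) * ((Fintype.card W * Fintype.card W - Fintype.card W)
      * (σ ^ 2 + lam * (Fintype.card J * Q)))
      = q.A * q.nu * (σ ^ 2 + lam * (Fintype.card J * Q)) := by
    linear_combination (-(q.A / 4 * (σ ^ 2 + lam * (Fintype.card J * Q))) : ℝ) * hq.nu
  rw [c10] at c1
  linarith

theorem cutV_nonneg {V : Type} [Fintype V] {c : V → V → ℝ} (hc : ∀ v v', 0 ≤ c v v')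
    (x : V → Bool) (v v' : V) : 0 ≤ c v v' * (ib (x v) * (1 - ib (x v'))) :=
  mul_nonneg (hc _ _) (mul_nonneg (ib_nonneg _) (sub_nonneg.2 (ib_le _)))

theorem le_cutV {V : Type} [Fintype V] {c : V → V → ℝ} (hc : ∀ v v', 0 ≤ c v v')
    {x : V → Bool} {v v' : V} (h : x v = true) (h' : x v' = false) : c v v' ≤ cutV c x := by
  refine le_trans ?_ (single_le_sum (fun v _ => sum_nonneg fun v' _ => cutV_nonneg hc x v v')
    (mem_univ v))
  refine le_trans ?_ (single_le_sum (fun v' _ => cutV_nonneg hc x v v') (mem_univ v'))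
  simp [h, h']

theorem ib_not (b : Bool) : ib (!b) = 1 - ib b := by cases b <;> simp

theorem cutV_not {V : Type} [Fintype V] {c : V → V → ℝ} (hc : ∀ v v', c v v' = c v' v)
    (x : V → Bool) : cutV c (fun v => !x v) = cutV c x := by
  unfold cutV
  rw [sum_comm]
  refine sum_congr rfl fun v _ => sum_congr rfl fun v' _ => ?_
  rw [ib_not, ib_not, hc]; ring

theorem mass_not {V : Type} [Fintype V] (x : V → Bool) :
    mass (fun v => !x v) = Fintype.card V - mass x := by
  simp [mass, ib_not]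

theorem mass_nonneg {V : Type} [Fintype V] (x : V → Bool) : 0 ≤ mass x :=
  sum_nonneg fun _ _ => ib_nonneg _

theorem mass_le {V : Type} [Fintype V] (x : V → Bool) : mass x ≤ Fintype.card V := by
  have := mass_nonneg fun v => !x v
  rw [mass_not] at this; linarith

/-- the honest cut -/
theorem Good.yes (h : Good rd c0 n lam) {q : Cst} (hq : q.Ok (Fintype.card W) (Fintype.card K))
    (hw : 2 ≤ Fintype.card W) (B : ℕ) (F : P → Z2) (hF : ∀ j, satR (rd j) F = true) :
    ∃ x : J × Lam K W → Bool, (∀ j β, x (j, .inr (.inl β)) = β) ∧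
      cutV (capV q c0 n B rd) x = q.D * (mass x * (Fintype.card (J × Lam K W) - mass x)) := by
  refine ⟨mkx rd c0 (fun p b => decide (b = F p)) id fun v => decide (knk (rd v.1).2 v.2 ≤
    kk (fun c b => decide (b = F ((rd v.1).1 v.2.1 c))) v.2.2.1), fun _ _ => rfl, ?_⟩
  rw [cutV_sub _ q.D, h.cut_eq q B _ _ _ _ rfl, add_eq_left, ← Yv_yes (c0 := c0) q F hF,
    ← h.sep_eq hq hw _ _ rfl]
  congr 2
  refine sum_congr rfl fun v _ => ?_
  rw [← unit_opt]; rfl

/-- all cuts are expensive -/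
theorem Good.no (h : Good rd c0 n lam) {q : Cst} (hq : q.Ok (Fintype.card W) (Fintype.card K))
    (hw : 2 ≤ Fintype.card W) (hl : q.nu * lam ≤ 1 / 2) [Nonempty J] {δ : ℝ} (hδ : 0 ≤ δ)
    (hδ1 : δ ≤ 1) (hF : ∀ F, δ * Fintype.card J ≤ ∑ j, ib (!satR (rd j) F)) {B : ℕ}
    (hB : (q.D + 1) * Fintype.card (J × Lam K W) ^ 2 ≤ B) (x : J × Lam K W → Bool) :
    (q.D + δ / Fintype.card (Lam K W) ^ 2) * (mass x * (Fintype.card (J × Lam K W) - mass x))
      ≤ cutV (capV q c0 n B rd) x := by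
  classical
  obtain ⟨j0⟩ := ‹Nonempty J›
  have hs : ∀ v v', capV q c0 n B rd v v' = capV q c0 n B rd v' v := fun v v' => by
    unfold capV; rw [capR_symm]
  have hn : ∀ v v', 0 ≤ capV q c0 n B rd v v' := fun v v' => Nat.cast_nonneg _
  wlog hx : x (j0, .inr (.inl false)) = false generalizing x
  · have := this (fun v => !x v) (by simpa using hx)
    rwa [cutV_not hs, mass_not, sub_sub_cancel, mul_comm (_ - _)] at this
  have hL : (1 : ℝ) ≤ Fintype.card (Lam K W) := by
    exact_mod_cast (Fintype.card_pos_iff (α := Lam K W)).2 ⟨.inl 0⟩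
  have hN : (Fintype.card (J × Lam K W) : ℝ) = Fintype.card J * Fintype.card (Lam K W) := by
    rw [Fintype.card_prod]; push_cast; rfl
  have m0 := mass_nonneg x
  have m1 := mass_le x
  have hJ : (0 : ℝ) ≤ Fintype.card J := by positivity
  have hm : mass x * (Fintype.card (J × Lam K W) - mass x) ≤ Fintype.card (J × Lam K W) ^ 2 := by
    nlinarith
  have hd : δ / Fintype.card (Lam K W) ^ 2 ≤ 1 := by
    rw [div_le_one (by positivity)]; nlinarith
  have hd0 : 0 ≤ δ / Fintype.card (Lam K W) ^ 2 := by positivity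
  by_cases hsp : ∃ v v', x v = true ∧ x v' = false ∧ (B : ℝ) ≤ capV q c0 n B rd v v'
  · obtain ⟨v, v', h1, h2, h3⟩ := hsp
    have hB' : ((q.D + 1) * Fintype.card (J × Lam K W) ^ 2 : ℝ) ≤ B := by exact_mod_cast hB
    refine le_trans ?_ (hB'.trans (h3.trans (le_cutV hn h1 h2)))
    exact mul_le_mul (by linarith) hm (mul_nonneg m0 (by linarith)) (by positivity)
  have same : ∀ v v', (B : ℝ) ≤ capV q c0 n B rd v v' → x v = x v' := fun v v' hv => by
    cases h1 : x v <;> cases h2 : x v'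
    · rfl
    · exact absurd ⟨v', v, h2, h1, hs v v' ▸ hv⟩ hsp
    · exact absurd ⟨v, v', h1, h2, hv⟩ hsp
    · rfl
  obtain ⟨y, τ, ξ, rfl⟩ : ∃ y τ ξ, x = mkx rd c0 y τ ξ := by
    refine ⟨fun p b => decide (∃ j, (rd j).1 none c0 = p ∧ x (j, .inl b) = true),
      fun β => x (j0, .inr (.inl β)), fun v => x (v.1, .inr (.inr v.2)), ?_⟩
    funext ⟨j, l⟩
    rcases l with b | β | u
    · rw [mkx, Bool.eq_iff_iff, decide_eq_true_eq]
      refine ⟨fun h => ⟨j, rfl, h⟩, fun ⟨j', h1, h2⟩ => ?_⟩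
      rw [← h2]
      exact same _ _ (by simp [capV, capR, h1])
    · exact same _ _ (by simp [capV, capR])
    · rfl
  rw [cutV_sub _ q.D, add_mul, add_le_add_iff_left]
  have h0 : τ false = false := hx
  cases h1 : τ true
  · refine le_trans ?_ (h.both hq B y τ ξ h1 h0)
    rw [div_mul_eq_mul_div, div_le_iff₀ (by positivity), hN]
    generalize mass (mkx rd c0 y τ ξ) = m at *
    generalize (Fintype.card (Lam K W) : ℝ) = L at *
    have a1 : 0 ≤ Fintype.card J * m * L := by positivity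
    have a2 : δ * (m * (Fintype.card J * L - m)) ≤ 1 * (m * (Fintype.card J * L)) :=
      mul_le_mul hδ1 (by nlinarith) (mul_nonneg m0 (by linarith)) zero_le_one
    nlinarith
  · have a1 : Yv q rd c0 y
        ≤ cutV (fun v v' => capV q c0 n B rd v v' - q.D) (mkx rd c0 y τ ξ) := by
      rw [h.cut_eq q B _ _ _ _ rfl, ← h.sep_eq hq hw _ _ rfl, h0, h1, add_le_add_iff_left]
      refine mul_le_mul_of_nonneg_left (sum_le_sum fun v _ => ?_) hJ
      exact mul_le_mul_of_nonneg_left (unit_ge _ _ _ _) (Nat.cast_nonneg _)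
    refine le_trans ?_ ((mul_le_mul_of_nonneg_left (hF _) hJ).trans ((h.Yv_ge hq hl y).trans a1))
    refine (mul_le_mul_of_nonneg_left hm hd0).trans (le_of_eq ?_)
    rw [hN]; field_simp

end Vale.Agent.P318B.Gd
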