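import Vale.Agent.P318B.Tl26
import Vale.Agent.P318B.RdU

/-!
# P318B / Rounds : the list of rounds is computed in polynomial time
-/

namespace Vale.Agent.P318B.Rd

open Vale.Agent.Lib.PolyTime hiding C P
open Vale.Agent.Lib.Dep Vale.Agent.Lib.PCP Tl

variable {α : Type} [Enc α] {β γ : α → Type} [∀ a, Enc (β a)] [∀ a, Enc (γ a)] {pp : α → ℕ}
  {E : ℕ} {dat : ∀ a, Dat (pp a) E}

theorem wk {f : ∀ a, γ a} (hf : DPT f) : DPT fun x : Σ a, β a => f x.1 := hf.comp DPT.id.sfst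

theorem cmp {κ : Type} [Enc κ] {c : κ → α} {f : ∀ a, γ a → β a}
    (hf : DPT fun x : Σ a, γ a => f x.1 x.2) (hc : DPT c) :
    DPT fun x : Σ y, γ (c y) => f (c x.1) x.2 :=
  DPT.comp (f := fun x : Σ y, γ (c y) => (⟨c x.1, x.2⟩ : Σ a, γ a)) hf (DPT.smk (wk hc) DPT.ssnd)

theorem datComp {κ : Type} [Enc κ] {c : κ → α} (h : PTDat pp dat) (hc : DPT c) :
    PTDat (fun x => pp (c x)) (fun x => dat (c x)) where
  p := h.p.comp hc
  bd := pbd_comp (b := fun a => 2 ^ pp a) h.bd hc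
  th := cmp (f := fun a (x : V (pp a)) => (dat a).th x) h.th hc
  r := h.r.comp hc
  T := cmp (f := fun a (x : Fin (pp a)) => (dat a).T x) h.T hc
  f := cmp (f := fun a (x : ℕ × V (pp a)) => (dat a).f x.1 x.2) h.f hc
  A := cmp (f := fun a (x : ℕ × V (pp a)) => (dat a).A x.1 x.2) h.A hc

theorem vNil : DPT fun a => (![] : Fin 0 → β a) := dpt_lamc fun i => i.elim0

theorem vCons {m : ℕ} {f : ∀ a, β a} {g : ∀ a, Fin m → β a} (hf : DPT f) (hg : DPT g) :
    DPT fun a => Matrix.vecCons (f a) (g a) :=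
  (DPT.cons hf (dpt_ofFn (n := fun _ => m) hg)).of_enc fun _ => by
    rw [enc_vec, List.ofFn_succ]
    rfl

theorem dUx (h : PTDat pp dat) {e : ∀ a, Fin E × Fin (pp a)} (he : DPT e) {j : α → Fin 9}
    (hj : DPT j) {k : α → Fin 3} (hk : DPT k) : DPT fun a => ux (dat a) (e a) (j a) (k a) :=
  have hb := pbd_of_two_pow h.bd
  dpt_single (n := fun _ => 6) (DPT.const 6) (PBd.const 6) (PTV.v h.p hb) (DPT.const _)
    (dpt_app (n := fun _ => 6)
      (dpt_dir h.p hb h.th h.r he.fst (dpt_finVal he.snd) (pbd_fin hb) hj)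
      (dpt_finCase (f := fun _ k => xs k) hk fun _ => DPT.const _))

theorem dPt (h : PTDat pp dat) {o : ∀ a, J (pp a) E} (ho : DPT o) (t : Fin 5) :
    DPT fun a => pt (dat a) (o a) t := by
  have hp := h.p
  have hb := pbd_of_two_pow h.bd
  have g := PTV.g hp hb
  have z := ho.fst
  have z0 := z.pair g.zero
  have a := ho.snd.snd.fst
  have es := dpt_es hp hb
  have U := dUx h ho.snd.fst ho.snd.snd.snd.snd.snd.fst ho.snd.snd.snd.snd.snd.snd.snd
  have U' := dUx h ho.snd.fst ho.snd.snd.snd.snd.snd.snd.fst ho.snd.snd.snd.snd.snd.snd.snd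
  have y := dpt_thG (th := fun a => (dat a).th) h.th z
  have aT := dpt_io hp hb (dpt_res (T := fun a => (dat a).T) hp hb h.T true a)
  have aF := dpt_io hp hb (dpt_res (T := fun a => (dat a).T) hp hb h.T false a)
  have b1 := dpt_be hp hb 1
  have b2 := dpt_be hp hb 2
  have b3 := dpt_be hp hb 3
  have p6 := vCons z0 (vCons z0 (vCons z0 (vCons z0 (vCons z0 (vCons z0 vNil)))))
  have p8 := vCons z0 (vCons z0 p6)
  have r0 := vCons (z.pair (dpt_io hp hb a))
    (vCons ((dpt_add g z (dpt_io hp hb ho.snd.snd.snd.fst)).pair (dpt_io hp hb a)) p8)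
  have r1 := vCons (z.pair es) (vCons ((dpt_add g z (dpt_update (n := fun _ => 6) (DPT.const 6)
    (PBd.const 6) ho.snd.snd.snd.snd.fst (DPT.const 1) (PTV.v hp hb).zero)).pair es) p8)
  have r2 := vCons (z.pair es) (vCons ((dpt_add g z U').pair es) (vCons ((dpt_add g z U).pair es)
    (vCons ((dpt_add g (dpt_add g z U) U').pair es) p6)))
  have r3 := vCons (z.pair (dpt_io hp hb (dpt_bas hp hb (DPT.const 0)))) (vCons (z.pair es)
    (vCons ((dpt_sw 2 z).pair es) (vCons ((dpt_sw 3 z).pair es) p6)))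
  have r4 := vCons (z.pair (dpt_io hp hb (dpt_sh hp hb a)))
    (vCons (y.pair aF) (vCons (y.pair aT)
    (vCons ((dpt_add g y b3).pair aT) (vCons ((dpt_add g y b2).pair aT)
    (vCons ((dpt_add g (dpt_add g y b2) b3).pair aT) (vCons ((dpt_add g y b1).pair aT)
    (vCons ((dpt_add g (dpt_add g y b1) b3).pair aT)
    (vCons ((dpt_add g (dpt_add g y b1) b2).pair aT)
    (vCons ((dpt_add g (dpt_add g (dpt_add g y b1) b2) b3).pair aT) vNil)))))))))
  exact dpt_at (vCons r0 (vCons r1 (vCons r2 (vCons r3 (vCons r4 vNil))))) t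

theorem ring2 : PTRing (fun _ : α => ZMod 2) := PTRing.zmod (DPT.const 2)

theorem dF (h : PTDat pp dat) {i : α → ℕ} (hi : DPT i) {x : ∀ a, V (pp a)} (hx : DPT x) :
    DPT fun a => (dat a).f (i a) (x a) :=
  DPT.app (F := fun a (y : ℕ × V (pp a)) => (dat a).f y.1 y.2) h.f (hi.pair hx)

theorem dA (h : PTDat pp dat) {i : α → ℕ} (hi : DPT i) {x : ∀ a, V (pp a)} (hx : DPT x) :
    DPT fun a => (dat a).A (i a) (x a) :=
  DPT.app (F := fun a (y : ℕ × V (pp a)) => (dat a).A y.1 y.2) h.A (hi.pair hx)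

theorem dFac (h : PTDat pp dat) {l : α → Lit} (hl : DPT l) {x : ∀ a, V (pp a)} (hx : DPT x)
    (y : ZMod 2) : DPT fun a => fac (dat a) (l a) (x a) y :=
  DPT.mul ring2 (dA h hl.fst hx) (DPT.add ring2 (DPT.const y) (DPT.mul ring2
    (DPT.ite (dpr_true hl.snd) (DPT.const 1) (DPT.const 0)) (dF h hl.fst hx)))

theorem dRf (h : PTDat pp dat) {cl : α → CNF} (hc : DPT cl) {z : ∀ a, G (pp a)} (hz : DPT z)
    (y1 y2 y3 : ZMod 2) : DPT fun a => Rf (dat a) (cl a) (z a) y1 y2 y3 := by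
  refine DPT.sum_range ring2 hc.length (pbd_length hc) ?_
  have h' := datComp h (DPT.id.sfst (β := fun a => {x // x ∈ List.range (cl a).length}))
  have hj := DPT.val (DPT.ssnd (β := fun a => {x // x ∈ List.range (cl a).length}))
  have hg := DPT.getD (wk hc) hj (DPT.const default)
  exact DPT.mul ring2 (dF h' hj (wk (dpt_at hz 0))) (DPT.mul ring2 (DPT.mul ring2
    (dFac h' hg.fst (wk (dpt_at hz 1)) y1) (dFac h' hg.snd.fst (wk (dpt_at hz 2)) y2))
    (dFac h' hg.snd.snd (wk (dpt_at hz 3)) y3))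

theorem dCnd (h : PTDat pp dat) {cl : α → CNF} (hc : DPT cl) {z : ∀ a, G (pp a)} (hz : DPT z)
    (t : Fin 5) (δ : Fin 10 → ZMod 2) : DPT fun a => cnd (dat a) (cl a) (z a) t δ :=
  DPT.ite (DPr.const _) (DPT.add ring2 (DPT.const _) (dRf h hc hz _ _ _)) (DPT.const _)

theorem dRd (h : PTDat pp dat) {cl : α → CNF} (hc : DPT cl) {o : ∀ a, J (pp a) E} (ho : DPT o) :
    DPT fun a => (rd (dat a) (cl a) (o a)).map raw := by
  have hb := pbd_of_two_pow h.bd
  have g := PTV.g h.p hb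
  refine DPT.pair (dpt_funMk fun k => dpt_funMk fun c => ?_)
    (dpt_funMk fun t => dpt_funMk fun w => DPT.decide (DPr.eq (dCnd h hc ho.fst t _) (DPT.const 0)))
  cases k with
  | none =>
    exact DPT.ofPT (dpt_add g ho.fst
      (dpt_uu h.p hb h.th h.r ho.snd.fst (DPT.const c))).rawPT
  | some t =>
    have q := dpt_at (dPt h ho t) (prj c).1
    exact DPT.ofPT (DPT.cond (DPT.const (prj c).2) (dpt_add g q.fst q.snd) q.fst).rawPT

/-- all random choices -/
def allJ (p E : ℕ) : List (J p E) :=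
  allG 6 p ×ˢ (List.finRange E ×ˢ List.finRange p) ×ˢ allV p ×ˢ allV p ×ˢ allG 6 p ×ˢ
    List.finRange 9 ×ˢ List.finRange 9 ×ˢ List.finRange 3

theorem nodup_allJ (p E : ℕ) : (allJ p E).Nodup :=
  (nodup_allG 6 p).product (((List.nodup_finRange E).product (List.nodup_finRange p)).product
    ((nodup_allV p).product ((nodup_allV p).product ((nodup_allG 6 p).product
      ((List.nodup_finRange 9).product
        ((List.nodup_finRange 9).product (List.nodup_finRange 3)))))))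

theorem mem_allJ {p E : ℕ} (o : J p E) : o ∈ allJ p E := by
  obtain ⟨z, ⟨e, i⟩, a, a', s, j, j', k⟩ := o
  simp only [allJ, List.mem_product, mem_allG, mem_allV, List.mem_finRange, and_self]

theorem dAllJ (hp : DPT pp) (hb : PBd fun a => 2 ^ pp a) (E : ℕ) : DPT fun a => allJ (pp a) E :=
  dpt_product (dpt_allG 6 hp hb) (dpt_product (dpt_product (DPT.const _)
    (dpt_finRange hp (pbd_of_two_pow hb))) (dpt_product (dpt_allV hp hb) (dpt_product
      (dpt_allV hp hb) (dpt_product (dpt_allG 6 hp hb) (DPT.const _)))))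

theorem ptVars : PT ∅ vars :=
  DPT.toPT (by unfold vars; fun_prop)

theorem ptRen : PT ∅ ren := by
  have hv : PT ∅ fun x : CNF × Clause => vars x.1 := ptVars.comp PT.fst'
  have h1 : ∀ {l : CNF × Clause → Lit}, PT ∅ l →
      PT ∅ fun x => ((vars x.1).idxOf (l x).1, (l x).2) := fun hl =>
    (PT.idxOf hv hl.fst).pair hl.snd
  exact PT.map (f := fun φ c => (((vars φ).idxOf c.1.1, c.1.2),
    ((vars φ).idxOf c.2.1.1, c.2.1.2), ((vars φ).idxOf c.2.2.1, c.2.2.2))) PT.id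
    ((h1 PT.snd'.fst).pair ((h1 PT.snd'.snd.fst).pair (h1 PT.snd'.snd.snd)))

theorem progS : ProgS := fun E pp _ h =>
  ⟨fun a => allJ (pp a) E, fun _ => ⟨nodup_allJ _ _, mem_allJ⟩,
    (DPT.map (dAllJ h.p h.bd E)
      (dRd (datComp h DPT.id.sfst) (wk (DPT.ofPT ptRen)) DPT.ssnd.val)).toPT⟩

/-- hardness of the rounds from completeness, soundness and the search for the data -/
theorem hard_rounds [DecidableEq Raw] (hC : CompleteS) (hS : SoundS) (hF : FindS) :
    ∃ lam del : ℝ, lam ≤ Gd.lam0 (Fintype.card W) ∧ 0 < del ∧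
      Hard (Gd.QCSP Raw K5 W lam del) := hard_of hC hS hF progS unifS

end Vale.Agent.P318B.Rd
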