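import Vale.Agent.P318B.Complete

/-! Soundness, exact part: a table which passes the link tests everywhere yields an assignment. -/

open Finset
open scoped BigOperators

namespace Vale.Agent.P318B.Sd

open Vale.Agent.Lib.PCP
open Dg (Dv)

variable {p E : ℕ}

lemma bas_top : bas p p = 0 := funext fun i => if_neg i.2.ne

lemma sh_bas (k : ℕ) : sh (bas p k) = bas p (k + 1) := funext fun i => by
  unfold sh bas
  split_ifs <;> first | rfl | omega | (simp only at *; omega)

lemma res_bas (d : Dat p E) (b : Bool) {k : ℕ} (hk : k < p) :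
    res d.T b (bas p k) = if Tn d k = b then bas p k else 0 := funext fun i => by
  by_cases h : (i : ℕ) = k
  · subst h; rw [res, Tn_fin]; split_ifs <;> rfl
  · split_ifs <;> simp [res, bas, h]

variable {d : Dat p E} {cl : CNF} {n : ℕ} {lam : ℝ}

theorem exact (hd : Good d n lam) (hb : Bd n cl) {γ : V p → ZMod 2} {H : ℕ → G p → ZMod 2}
    (h0 : ∀ z, H 0 z = Rf d cl z (γ (z 1)) (γ (z 2)) (γ (z 3)))
    (h1 : ∀ k < p, ∀ z, H (k + 1) z = (if Tn d k then D3 (H k) else H k) (thG d.th z))
    (h2 : H p = 0) : Satisfiable cl := by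
  have a0 : ∀ k ≤ p, H k = hh d (fun z => Rf d cl z (γ (z 1)) (γ (z 2)) (γ (z 3))) k := by
    intro k hk
    induction k with
    | zero => exact funext h0
    | succ k ih => exact funext fun z => by rw [h1 k hk, ih (by omega), hh]
  set Q : Lit → ZMod 2 := fun l => DTb d.T (fun x => fac d l x (γ x)) 0 with hQ
  set P : ℕ → ZMod 2 := fun j =>
    Q (cl.getD j default).1 * Q (cl.getD j default).2.1 * Q (cl.getD j default).2.2 with hP
  have a1 : (fun ρ => ∑ j ∈ range cl.length, P j * d.f j ρ) = 0 := funext fun ρ => by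
    obtain ⟨x, hx⟩ := (Finite.surjective_of_injective hd.seed.inj).iterate p ρ
    have := (hh_Rf d hd.seed.shift cl γ (Pi.single 0 x)).symm.trans
      (congrFun ((a0 p le_rfl).symm.trans h2) _)
    have e : ∀ m : Fin 6, m ≠ 0 → d.th^[p] ((Pi.single 0 x : G p) m) = 0 := fun m hm => by
      rw [Pi.single_eq_of_ne hm, iterate_map_zero]
    rw [Pi.single_eq_same, hx, e 1 (by decide), e 2 (by decide), e 3 (by decide)] at this
    exact (sum_congr rfl fun j _ => mul_comm _ _).trans this
  have a2 : ∀ i < cl.length, P i = 0 := fun i hi => by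
    have a3 := DTb_comb d hd.dual (hi.trans_le hb.1) hb.1 P 0
    rw [a1, mul_zero, DTb, Dg.DT_zero, if_pos hi] at a3
    exact a3.symm
  have a4 : ∀ l : Lit, l.1 < n → Q l = 0 →
      satLit l (fun v => decide (DTb d.T (d.A v * γ) 0 = 1)) = true := fun l hl h => by
    rw [hQ] at h
    simp only [DTb_fac d hd.dual hl] at h
    rw [satLit]
    revert h
    generalize DTb d.T (d.A l.1 * γ) 0 = y
    generalize l.2 = b
    revert y b
    decide
  refine ⟨fun v => decide (DTb d.T (d.A v * γ) 0 = 1), fun c hc => ?_⟩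
  obtain ⟨i, hi, rfl⟩ := List.getElem_of_mem hc
  have a5 := a2 i hi
  obtain ⟨b1, b2, b3⟩ := hb.2 _ hc
  simp only [hP, List.getD_eq_getElem _ _ hi, mul_eq_zero] at a5
  simp only [satClause, Bool.or_eq_true]
  exact a5.imp (Or.imp (a4 _ b1) (a4 _ b2)) (a4 _ b3)

end Vale.Agent.P318B.Sd
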