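import Vale.Agent.P318B.Code
import Vale.Agent.P318B.Gs
import Vale.Agent.P318B.GadDefs
import Vale.Agent.P318B.Tl25
import Vale.Agent.Lib.PCP.Defs

/-!
# P318B / Spec: the algebraic data, the tests and the statements of the blocks
-/

namespace Vale.Agent.P318B

open Finset Vale.Agent.Lib.PolyTime Vale.Agent.Lib.PCP Vale.Agent.Lib.Dep
open scoped BigOperators
open Dg (Dv)

/-- the basic space -/
abbrev V (p : ℕ) : Type := Fin p → ZMod 2

/-- the positions: `0 = rho`, `1, 2, 3 = x1, x2, x3`, `4 = y1`, `5 = y2` -/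
abbrev G (p : ℕ) : Type := Fin 6 → V p

/-- the slots -/
abbrev W : Type := Fin 9 → ZMod 2

/-- the kinds of auxiliary tests (a copy of `Fin 5` whose functions are coded as in `Gd`) -/
def K5 : Type := Fin 5

instance : Fintype K5 := inferInstanceAs (Fintype (Fin 5))

instance : DecidableEq K5 := inferInstanceAs (DecidableEq (Fin 5))

instance : Enc K5 := inferInstanceAs (Enc (Fin 5))

instance : EncInj K5 := inferInstanceAs (EncInj (Fin 5))

/-- the basis vector `b_k` (zero for `p ≤ k`) -/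
def bas (p k : ℕ) : V p := fun i => if (i : ℕ) = k then 1 else 0

variable {p E : ℕ}

/-- the derivative in the basis directions of `T` -/
def DTb (T : Fin p → Bool) (φ : V p → ZMod 2) : V p → ZMod 2 :=
  Dg.DT (fun k : Fin p => bas p k) (univ.filter fun k => T k = true) φ

theorem bas_eq (k : Fin p) : bas p k = Pi.single k 1 := by
  funext i
  simp [bas, Pi.single_apply, Fin.ext_iff]

/-- the shift `b_k ↦ b_(k+1)`, `b_(p-1) ↦ 0` -/
def sh (a : V p) : V p := fun k => if h : 0 < (k : ℕ) then a ⟨k - 1, by omega⟩ else 0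

/-- restriction to `T` (`b = true`) or to its complement (`b = false`) -/
def res (T : Fin p → Bool) (b : Bool) (a : V p) : V p := fun i => if T i = b then a i else 0

/-- the algebraic data -/
structure Dat (p E : ℕ) where
  /-- the companion map -/
  th : V p →ₗ[ZMod 2] V p
  /-- the seeds -/
  r : Fin E → Fin 9 → G p
  /-- the set of basis directions -/
  T : Fin p → Bool
  /-- first family -/
  f : ℕ → V p → ZMod 2
  /-- dual family -/
  A : ℕ → V p → ZMod 2

/-- the diagonal action on positions -/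
def thG (th : V p →ₗ[ZMod 2] V p) (z : G p) : G p := fun k => th (z k)

/-- the rotated seeds -/
def dir (th : V p →ₗ[ZMod 2] V p) (r : Fin E → Fin 9 → G p) (e0 : Fin E) (i : ℕ) (j : Fin 9) :
    G p := fun k => th^[i] (r e0 j k)

/-- the points of the main subspaces -/
def uu (th : V p →ₗ[ZMod 2] V p) (r : Fin E → Fin 9 → G p) (e : Fin E × Fin p) (c : W) : G p :=
  ∑ j, c j • dir th r e.1 e.2 j

/-- the companion map and the seeds are good -/
structure SeedOk (th : V p →ₗ[ZMod 2] V p) (r : Fin E → Fin 9 → G p) (lam : ℝ) : Prop where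
  inj : Function.Injective th
  shift : ∀ k, k + 1 < p → th (bas p k) = bas p (k + 1)
  bias : Cd.Bias (uu th r) lam

/-- the function is affine along the projections of the rotated seeds -/
def C1 (th : V p →ₗ[ZMod 2] V p) (r : Fin E → Fin 9 → G p) (φ : V p → ZMod 2) : Prop :=
  ∀ e0 i, i < 2 * p → ∀ j j' k, Dv (dir th r e0 i j k) (Dv (dir th r e0 i j' k) φ) = 0

/-- the families are dual for the pairing given by `T` -/
def Dual (T : Fin p → Bool) (f A : ℕ → V p → ZMod 2) (n : ℕ) : Prop :=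
  ∀ i < n, ∀ i' < n, ∀ x, DTb T (A i * f i') x = if i = i' then 1 else 0

/-- good data for `n` variables and clauses -/
structure Good (d : Dat p E) (n : ℕ) (lam : ℝ) : Prop where
  seed : SeedOk d.th d.r lam
  affF : ∀ i < n, C1 d.th d.r (d.f i)
  affA : ∀ i < n, C1 d.th d.r (d.A i)
  dual : Dual d.T d.f d.A n

/-- at most `n` clauses, variables below `n` -/
def Bd (n : ℕ) (cl : CNF) : Prop :=
  cl.length ≤ n ∧ ∀ c ∈ cl, c.1.1 < n ∧ c.2.1.1 < n ∧ c.2.2.1 < n

/-- the factor of a literal -/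
def fac (d : Dat p E) (l : Lit) (x : V p) (y : ZMod 2) : ZMod 2 :=
  d.A l.1 x * (y + (if l.2 then 1 else 0) * d.f l.1 x)

/-- the arithmetised formula -/
def Rf (d : Dat p E) (cl : CNF) (z : G p) (y1 y2 y3 : ZMod 2) : ZMod 2 :=
  ∑ j ∈ range cl.length, d.f j (z 0) * (fac d (cl.getD j default).1 (z 1) y1 *
    fac d (cl.getD j default).2.1 (z 2) y2 * fac d (cl.getD j default).2.2 (z 3) y3)

/-- `a` in the slot `y1` -/
def io (a : V p) : G p := Pi.single 4 a

/-- `b_0` in the slot `y2` -/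
def es (p : ℕ) : G p := Pi.single 5 (bas p 0)

/-- `b_0` in the slot `k` -/
def be (p : ℕ) (k : Fin 6) : G p := Pi.single k (bas p 0)

/-- exchange of the slots `x1` and `k` -/
def sw (k : Fin 6) (z : G p) : G p := fun m => z (Equiv.swap 1 k m)

/-- the slot of `x_(k+1)` -/
def xs (k : Fin 3) : Fin 6 := ⟨k + 1, by omega⟩

/-- the random choices `(z, e, a, a', s, j, j', k)` of one round -/
abbrev J (p E : ℕ) : Type :=
  G p × (Fin E × Fin p) × V p × V p × G p × Fin 9 × Fin 9 × Fin 3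

/-- the `x_k` part of a rotated seed, put in the slot `x1` -/
def ux (d : Dat p E) (e : Fin E × Fin p) (j : Fin 9) (k : Fin 3) : G p :=
  Pi.single 1 (dir d.th d.r e.1 e.2 j (xs k))

/-- the ten (base point, direction) pairs of the auxiliary test `t` -/
def pt (d : Dat p E) (o : J p E) (t : Fin 5) : Fin 10 → G p × G p :=
  let z := o.1
  let e := o.2.1
  let a := o.2.2.1
  let a' := o.2.2.2.1
  let s := o.2.2.2.2.1
  let U := ux d e o.2.2.2.2.2.1 o.2.2.2.2.2.2.2
  let U' := ux d e o.2.2.2.2.2.2.1 o.2.2.2.2.2.2.2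
  let y := thG d.th z
  let aT := io (res d.T true a)
  ![![(z, io a), (z + io a', io a), (z, 0), (z, 0), (z, 0), (z, 0), (z, 0), (z, 0), (z, 0), (z, 0)],
    ![(z, es p), (z + Function.update s 1 0, es p), (z, 0), (z, 0), (z, 0), (z, 0), (z, 0),
      (z, 0), (z, 0), (z, 0)],
    ![(z, es p), (z + U', es p), (z + U, es p), (z + U + U', es p), (z, 0), (z, 0), (z, 0),
      (z, 0), (z, 0), (z, 0)],
    ![(z, io (bas p 0)), (z, es p), (sw 2 z, es p), (sw 3 z, es p), (z, 0), (z, 0), (z, 0),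
      (z, 0), (z, 0), (z, 0)],
    ![(z, io (sh a)), (y, io (res d.T false a)), (y, aT), (y + be p 3, aT), (y + be p 2, aT),
      (y + be p 2 + be p 3, aT), (y + be p 1, aT), (y + be p 1 + be p 3, aT),
      (y + be p 1 + be p 2, aT), (y + be p 1 + be p 2 + be p 3, aT)]] t

/-- the condition of the auxiliary test `t` on the ten derivatives (the test passes if it is `0`) -/
def cnd (d : Dat p E) (cl : CNF) (z : G p) (t : Fin 5) (δ : Fin 10 → ZMod 2) : ZMod 2 :=
  if t = 3 then δ 0 + Rf d cl z (δ 1) (δ 2) (δ 3) else ∑ m, δ m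

/-- the residue of the auxiliary test `t` -/
def resid (d : Dat p E) (cl : CNF) (F : G p → ZMod 2) (o : J p E) (t : Fin 5) : ZMod 2 :=
  cnd d cl o.1 t fun m => Dv (pt d o t m).2 F (pt d o t m).1

/-- all tests of the round are passed -/
def Pass (d : Dat p E) (cl : CNF) (F : G p → ZMod 2) (o : J p E) : Prop :=
  Cd.bt (uu d.th d.r o.2.1) F o.1 = 0 ∧ ∀ t, resid d cl F o t = 0

section Resid

variable (d : Dat p E) (cl : CNF) (F : G p → ZMod 2) (z : G p) (e : Fin E × Fin p) (a a' : V p)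
  (s : G p) (j j' : Fin 9) (k : Fin 3)

theorem resid_0 : resid d cl F (z, e, a, a', s, j, j', k) 0 = Dv (io a') (Dv (io a) F) z := by
  simp [resid, cnd, pt, Fin.sum_univ_succ, Dg.Dv_at_zero, Dg.Dv_apply (io a')]

theorem resid_1 : resid d cl F (z, e, a, a', s, j, j', k) 1 =
    Dv (Function.update s 1 0) (Dv (es p) F) z := by
  simp [resid, cnd, pt, Fin.sum_univ_succ, Dg.Dv_at_zero, Dg.Dv_apply (Function.update s 1 0)]

theorem resid_2 : resid d cl F (z, e, a, a', s, j, j', k) 2 =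
    Dv (ux d e j k) (Dv (ux d e j' k) (Dv (es p) F)) z := by
  simp [resid, cnd, pt, Fin.sum_univ_succ, Dg.Dv_at_zero, Dg.Dv_apply (ux d e j k), Dg.Dv_apply (ux d e j' k),
    add_assoc]

theorem resid_3 : resid d cl F (z, e, a, a', s, j, j', k) 3 = Dv (io (bas p 0)) F z +
    Rf d cl z (Dv (es p) F z) (Dv (es p) F (sw 2 z)) (Dv (es p) F (sw 3 z)) := by
  simp [resid, cnd, pt]

theorem resid_4 : resid d cl F (z, e, a, a', s, j, j', k) 4 = Dv (io (sh a)) F z +
    (Dv (io (res d.T false a)) F (thG d.th z) +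
      Dv (be p 1) (Dv (be p 2) (Dv (be p 3) (Dv (io (res d.T true a)) F))) (thG d.th z)) := by
  simp [resid, cnd, pt, Fin.sum_univ_succ, Dg.Dv_apply (be p 1), Dg.Dv_apply (be p 2), Dg.Dv_apply (be p 3),
    add_assoc]

end Resid

/-! ### The rounds -/

theorem exists_emb : ∃ (emb : Fin 10 × Bool → W) (prj : W → Fin 10 × Bool),
    ∀ s, prj (emb s) = s := by
  obtain ⟨e⟩ : Nonempty (Fin 10 × Bool ↪ W) :=
    Function.Embedding.nonempty_of_card_le (by simp)
  exact ⟨e, Function.invFun e, Function.leftInverse_invFun e.injective⟩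

/-- the slots of the auxiliary tests among all slots -/
noncomputable def emb : Fin 10 × Bool → W := exists_emb.choose

/-- a left inverse -/
noncomputable def prj : W → Fin 10 × Bool := exists_emb.choose_spec.choose

theorem prj_emb (s : Fin 10 × Bool) : prj (emb s) = s := exists_emb.choose_spec.choose_spec s

/-- the two points which are read for a derivative -/
def qr (q : G p × G p) (b : Bool) : G p := bif b then q.1 + q.2 else q.1

/-- the round for the random choices `o` -/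
noncomputable def rd (d : Dat p E) (cl : CNF) (o : J p E) : Gd.Rnd (G p) K5 W :=
  (fun k c => k.elim (o.1 + uu d.th d.r o.2.1 c) fun t => qr (pt d o t (prj c).1) (prj c).2,
    fun t α => decide (cnd d cl o.1 t (fun m => α (emb (m, false)) + α (emb (m, true))) = 0))

theorem satR_rd (d : Dat p E) (cl : CNF) (F : G p → ZMod 2) (o : J p E) :
    Gd.satR (rd d cl o) F = true ↔ Pass d cl F o := by
  simp only [Gd.satR, rd, Bool.and_eq_true, decide_eq_true_eq, Option.elim, prj_emb, qr, Pass,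
    cond_true, cond_false, Cd.bt, resid, Dg.Dv_apply]
  exact and_congr decide_eq_true_iff Iff.rfl

/-- the variables which occur -/
def vars (φ : CNF) : List ℕ := φ.flatMap fun c => [c.1.1, c.2.1.1, c.2.2.1]

/-- renaming of the variables -/
def ren (φ : CNF) : CNF := φ.map fun c => (((vars φ).idxOf c.1.1, c.1.2),
  ((vars φ).idxOf c.2.1.1, c.2.1.2), ((vars φ).idxOf c.2.2.1, c.2.2.2))

/-! ### The blocks -/

/-- completeness -/
def CompleteS : Prop :=
  ∀ (p E n : ℕ) (d : Dat p E) (cl : CNF) (lam : ℝ), 0 < p → Good d n lam → Bd n cl →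
    Satisfiable cl → ∃ F, ∀ o, Pass d cl F o

open Classical in
/-- soundness -/
def SoundS : Prop :=
  ∃ (lam0 del : ℝ) (p0 : ℕ), 0 < lam0 ∧ 0 < del ∧ ∀ (p E n : ℕ) (d : Dat p E) (cl : CNF) (lam : ℝ),
    p0 ≤ p → 0 < E → 0 ≤ lam → lam ≤ lam0 → Good d n lam → Bd n cl → ∀ F : G p → ZMod 2,
      (#{o : J p E | ¬ Pass d cl F o} : ℝ) < del * Fintype.card (J p E) → Satisfiable cl

/-- the companion map and the seeds are found in time polynomial in `2 ^ p` -/
def SeedS : Prop :=
  ∀ L : ℕ, 0 < L → ∃ E : ℕ, 0 < E ∧ ∃ (th : ∀ p, V p →ₗ[ZMod 2] V p)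
    (r : ∀ p, Fin E → Fin 9 → G p), (∀ p, 0 < p → SeedOk (th p) (r p) (1 / L)) ∧
      ∀ {α : Type} [Enc α] (pp : α → ℕ), DPT pp → PBd (fun a => 2 ^ pp a) →
        DPT (fun x : Σ a, V (pp a) => th (pp x.1) x.2) ∧ DPT (fun a => r (pp a))

/-- dual families of size `2 ^ b` which satisfy a given list of `mu * p` relations exist for
`c * (b + 1) ≤ p` and are found in time polynomial in `2 ^ p` -/
def FamS : Prop :=
  ∀ mu : ℕ, ∃ c : ℕ, ∃ (T : ∀ p, ℕ → List (V p × V p) → Fin p → Bool)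
    (f A : ∀ p, ℕ → List (V p × V p) → ℕ → V p → ZMod 2),
    (∀ p b rel, rel.length ≤ mu * p → c * (b + 1) ≤ p →
      (∀ i < 2 ^ b, ∀ q ∈ rel,
        Dv q.1 (Dv q.2 (f p b rel i)) = 0 ∧ Dv q.1 (Dv q.2 (A p b rel i)) = 0) ∧
      Dual (T p b rel) (f p b rel) (A p b rel) (2 ^ b)) ∧
    ∀ {α : Type} [Enc α] (pp bb : α → ℕ) (rel : ∀ a, List (V (pp a) × V (pp a))),
      DPT pp → PBd (fun a => 2 ^ pp a) → DPT bb → (∀ a, bb a ≤ pp a) → DPT rel →
        DPT (fun x : Σ a, Fin (pp a) => T (pp x.1) (bb x.1) (rel x.1) x.2) ∧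
        DPT (fun x : Σ a, ℕ × V (pp a) => f (pp x.1) (bb x.1) (rel x.1) x.2.1 x.2.2) ∧
        DPT (fun x : Σ a, ℕ × V (pp a) => A (pp x.1) (bb x.1) (rel x.1) x.2.1 x.2.2)

/-- the data are computed in polynomial time -/
structure PTDat {α : Type} [Enc α] (pp : α → ℕ) (dat : ∀ a, Dat (pp a) E) : Prop where
  p : DPT pp
  bd : PBd (fun a => 2 ^ pp a)
  th : DPT (fun x : Σ a, V (pp a) => (dat x.1).th x.2)
  r : DPT (fun a => (dat a).r)
  T : DPT (fun x : Σ a, Fin (pp a) => (dat x.1).T x.2)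
  f : DPT (fun x : Σ a, ℕ × V (pp a) => (dat x.1).f x.2.1 x.2.2)
  A : DPT (fun x : Σ a, ℕ × V (pp a) => (dat x.1).A x.2.1 x.2.2)

/-- good data are found in polynomial time -/
def FindS : Prop :=
  ∀ L p0 : ℕ, 0 < L → ∃ E : ℕ, 0 < E ∧ ∃ (pp : CNF → ℕ) (dat : ∀ a, Dat (pp a) E),
    (∀ a, p0 ≤ pp a ∧ Good (dat a) (3 * a.length) (1 / L)) ∧ PTDat pp dat

/-- the list of rounds is computed in polynomial time -/
def ProgS : Prop :=
  ∀ (E : ℕ) (pp : CNF → ℕ) (dat : ∀ a, Dat (pp a) E), PTDat pp dat →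
    ∃ enum : ∀ a, List (J (pp a) E), (∀ a, (enum a).Nodup ∧ ∀ o, o ∈ enum a) ∧
      PT ∅ (fun a => (enum a).map fun o => (rd (dat a) (ren a) o).map raw)

/-- all queries are uniform and the main test is mixing -/
def UnifS : Prop :=
  ∀ (p E : ℕ) (d : Dat p E) (cl : CNF) (lam : ℝ), 0 < p → 0 < E → 0 ≤ lam → SeedOk d.th d.r lam →
    (∀ k c (g : G p → ℝ), 𝔼 o, g ((rd d cl o).1 k c) = 𝔼 z, g z) ∧
    ∀ c c', c ≠ c' → ∀ s : G p → ℝ, 𝔼 o, s ((rd d cl o).1 none c) * s ((rd d cl o).1 none c')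
      ≤ (𝔼 z, s z) ^ 2 + lam * 𝔼 z, s z ^ 2

end Vale.Agent.P318B
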