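import Vale.Agent.P318B.Spec

/-!
# P318B / Tl26 : polynomial time tools for the objects of `Spec`
-/

namespace Vale.Agent.P318B.Tl

open Vale.Agent.Lib.PolyTime hiding C P
open Vale.Agent.Lib.Dep

/-! ### Functions on a constant finite type (the code `instEncFun` of the library) -/

section Const

variable {α : Type} [Enc α] {β γ : α → Type} [∀ a, Enc (β a)] [∀ a, Enc (γ a)] {n : α → ℕ}
  {S : Type} [Fintype S]

theorem dpt_funMk {g : ∀ a, S → β a} (h : ∀ s, DPT (fun a => g a s)) : DPT g :=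
  (dpt_mapConst (Finset.univ.toList : List S) h).of_enc fun _ => rfl

theorem dpt_funAt {g : ∀ a, S → β a} (h : DPT g) (s : S) : DPT (fun a => g a s) := by
  classical
  have h0 : DPT (fun a => (Finset.univ.toList : List S).map (g a)) := h.of_enc fun _ => rfl
  refine DPT.of_rawPT (PT.getD h0.listPT (PT.const ((Finset.univ.toList : List S).idxOf s))
    (PT.const (raw ()))) fun a => ?_
  have h1 : (Finset.univ.toList : List S).idxOf s < (Finset.univ.toList : List S).length :=
    List.idxOf_lt_length_iff.2 (Finset.mem_toList.2 (Finset.mem_univ s))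
  rw [List.getD_eq_getElem _ _ (by simpa using h1)]
  simp [List.getElem_map]

theorem dpt_funApp [Enc S] [EncInj S] {g : ∀ a, S → β a} {x : α → S} (h : DPT g) (hx : DPT x) :
    DPT (fun a => g a (x a)) := dpt_finCase (f := fun a s => g a s) hx (dpt_funAt h)

/-- application as a function symbol, for `fun_prop` -/
def fget {S T : Type} (f : S → T) (s : S) : T := f s

@[fun_prop]
theorem dpt_fget [Enc S] [EncInj S] {g : ∀ a, S → β a} {x : α → S} (h : DPT g) (hx : DPT x) :
    DPT (fun a => fget (g a) (x a)) := dpt_funApp h hx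

@[fun_prop]
theorem dpt_funUpdate [DecidableEq S] {f : ∀ a, S → β a} {x : ∀ a, β a} (i : S) (hf : DPT f)
    (hx : DPT x) : DPT (fun a => Function.update (f a) i (x a)) :=
  dpt_funMk fun s => by
    rcases eq_or_ne s i with rfl | h
    · exact hx.congr fun _ => by rw [Function.update_self]
    · exact (dpt_funAt hf s).congr fun _ => (Function.update_of_ne h _ _).symm

variable [∀ a, AddCommGroup (β a)]

@[fun_prop]
theorem PTV.fn (h : PTV β) : PTV (fun a => S → β a) where
  add := dpt_funMk fun s =>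
    dpt_add (h.comp DPT.id.sfst) (dpt_funAt DPT.ssnd.fst s) (dpt_funAt DPT.ssnd.snd s)
  zero := dpt_funMk fun _ => h.zero
  sz := by
    obtain ⟨b, hb', h'⟩ := h.sz
    refine ⟨fun a => Fintype.card S * (2 * b a + 1), by fun_prop, fun a x => ?_⟩
    have := esize_list_le (l := (Finset.univ.toList : List S).map x) (B := b a) fun y _ => h' a y
    rwa [List.length_map, Finset.length_toList] at this

@[fun_prop]
theorem dpt_funSingle [DecidableEq S] (h : PTV β) (i : S) {x : ∀ a, β a} (hx : DPT x) :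
    DPT (fun a => (Pi.single i (x a) : S → β a)) := dpt_funUpdate i h.fn.zero hx

end Const

/-! ### The spaces `V p` and `G p` -/

section VG

variable {α : Type} [Enc α] {n : α → ℕ}

@[fun_prop]
theorem PTV.v (hn : DPT n) (hb : PBd n) : PTV (fun a => V (n a)) := PTV.pi hn hb PTV.f2

theorem PTV.g (hn : DPT n) (hb : PBd n) : PTV (fun a => G (n a)) :=
  PTV.pi (n := fun _ => 6) (DPT.const 6) (PBd.const 6) (PTV.v hn hb)

theorem dpt_lamV (hn : DPT n) (hb : PBd n) {f : ∀ a, V (n a)}
    (hf : DPT (fun q : Σ a, Fin (n a) => f q.1 q.2)) : DPT f := dpt_lam hn hb hf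

@[fun_prop]
theorem dpt_bas (hn : DPT n) (hb : PBd n) {k : α → ℕ} (hk : DPT k) :
    DPT (fun a => bas (n a) (k a)) := by
  refine dpt_lamV hn hb ?_
  unfold bas
  fun_prop

@[fun_prop]
theorem dpt_sh (hn : DPT n) (hb : PBd n) {x : ∀ a, V (n a)} (hx : DPT x) :
    DPT (fun a => sh (x a)) := by
  have h : DPT (fun q : Σ a, Fin (n a) =>
      if 0 < (q.2 : ℕ) then vget (x q.1) ⟨q.2 - 1, by have := q.2.2; omega⟩ else 0) := by
    fun_prop
  exact dpt_lamV hn hb (h.congr fun q => rfl)

theorem dpt_res (hn : DPT n) (hb : PBd n) {T : ∀ a, Fin (n a) → Bool}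
    (hT : DPT (fun x : Σ a, Fin (n a) => T x.1 x.2)) (b : Bool) {x : ∀ a, V (n a)} (hx : DPT x) :
    DPT (fun a => res (T a) b (x a)) := by
  have h : DPT (fun q : Σ a, Fin (n a) => if T q.1 q.2 = b then vget (x q.1) q.2 else 0) :=
    DPT.ite (DPr.eq hT (DPT.const b)) (by fun_prop) (by fun_prop)
  exact dpt_lamV hn hb (h.congr fun q => rfl)

variable {th : ∀ a, V (n a) →ₗ[ZMod 2] V (n a)}

theorem dpt_th (hth : DPT fun q : Σ a, V (n a) => th q.1 q.2) {x : ∀ a, V (n a)} (hx : DPT x) :
    DPT fun a => th a (x a) := DPT.app (F := fun a y => th a y) hth hx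

theorem dpt_thG (hth : DPT fun q : Σ a, V (n a) => th q.1 q.2) {z : ∀ a, G (n a)} (hz : DPT z) :
    DPT fun a => thG (th a) (z a) := dpt_lamc fun k => dpt_th hth (dpt_at hz k)

theorem dpt_dir (hn : DPT n) (hb : PBd n) (hth : DPT fun q : Σ a, V (n a) => th q.1 q.2) {E : ℕ}
    {r : ∀ a, Fin E → Fin 9 → G (n a)} (hr : DPT r) {e : α → Fin E} (he : DPT e) {i : α → ℕ}
    (hi : DPT i) (hib : PBd i) {j : α → Fin 9} (hj : DPT j) :
    DPT fun a => dir (th a) (r a) (e a) (i a) (j a) :=
  dpt_lamc fun k => dpt_iter (f := fun a y => th a y) (PTV.v hn hb) hi hib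
    (dpt_at (dpt_app (n := fun _ => 9) (dpt_app (n := fun _ => E) hr he) hj) k) hth

theorem dpt_uu (hn : DPT n) (hb : PBd n) (hth : DPT fun q : Σ a, V (n a) => th q.1 q.2) {E : ℕ}
    {r : ∀ a, Fin E → Fin 9 → G (n a)} (hr : DPT r) {e : ∀ a, Fin E × Fin (n a)} (he : DPT e)
    {c : α → W} (hc : DPT c) : DPT fun a => uu (th a) (r a) (e a) (c a) :=
  dpt_sum_const (PTV.g hn hb) _ fun j => dpt_smul (PTV.g hn hb) (dpt_at hc j)
    (dpt_dir hn hb hth hr he.fst (dpt_finVal he.snd) (pbd_fin hb) (DPT.const j))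

@[fun_prop]
theorem dpt_io (hn : DPT n) (hb : PBd n) {x : ∀ a, V (n a)} (hx : DPT x) :
    DPT (fun a => io (x a)) :=
  dpt_single (n := fun _ => 6) (DPT.const 6) (PBd.const 6) (PTV.v hn hb) (DPT.const _) hx

@[fun_prop]
theorem dpt_be (hn : DPT n) (hb : PBd n) (k : Fin 6) : DPT (fun a => be (n a) k) :=
  dpt_single (n := fun _ => 6) (DPT.const 6) (PBd.const 6) (PTV.v hn hb) (DPT.const _)
    (dpt_bas hn hb (DPT.const 0))

@[fun_prop]
theorem dpt_es (hn : DPT n) (hb : PBd n) : DPT (fun a => es (n a)) := dpt_be hn hb 5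

@[fun_prop]
theorem dpt_sw (k : Fin 6) {z : ∀ a, G (n a)} (hz : DPT z) : DPT (fun a => sw k (z a)) :=
  dpt_lamc fun _ => dpt_at hz _

/-- the first element of a list with a given property -/
noncomputable def pick {T : Type} (l : List T) (q : T → Prop) (d : T) : T :=
  open Classical in (l.filter fun x => decide (q x)).headD d

theorem pick_spec {T : Type} {l : List T} {q : T → Prop} (d : T) (h : ∃ x ∈ l, q x) :
    q (pick l q d) := by
  classical
  obtain ⟨x, hx, hx'⟩ := h
  have h1 : x ∈ l.filter fun x => decide (q x) := List.mem_filter.2 ⟨hx, decide_eq_true hx'⟩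
  have h2 : ∀ m : List T, x ∈ m → m.headD d ∈ m := fun m hm => by
    cases m with
    | nil => exact absurd hm List.not_mem_nil
    | cons y m => exact List.mem_cons_self
  exact of_decide_eq_true (List.mem_filter.1 (h2 _ h1)).2

theorem dpt_pick {β : α → Type} [∀ a, Enc (β a)] {l : ∀ a, List (β a)} {q : ∀ a, β a → Prop}
    {d : ∀ a, β a} (hl : DPT l) (hq : DPr (fun x : Σ a, β a => q x.1 x.2)) (hd : DPT d) :
    DPT fun a => pick (l a) (q a) (d a) := by
  classical
  exact DPT.headD (DPT.filter hl (DPT.decide (DPr.comp (f := fun x : Σ a, {y // y ∈ l a} =>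
    (⟨x.1, x.2.1⟩ : Σ a, β a)) hq (by fun_prop)))) hd

end VG

end Vale.Agent.P318B.Tl
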